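import Vale.Agent.P237.All.Slices

/-!
P237, every dimension: some contact passes the mixed test, and so Petty's inequality in every
dimension follows from the profile bound under that test (`notes/P237h6/alln.md`, repair 5').
-/

noncomputable section

open MeasureTheory Set Metric Real
open scoped Pointwise RealInnerProductSpace

namespace Vale.Agent.P237.All

variable {m : ℕ}

/-- Some contact, turned to the first axis, passes the mixed test. -/
theorem exists_mixedTest (hm : 1 ≤ m) {a b d : ℝ → ℝ} (ha : ∀ s, 0 ≤ a s) (hb : ∀ s, 0 ≤ b s)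
    (hd : ∀ s, 0 ≤ d s) {K : Set (E (m + 1))} (hJ : JohnPos K) :
    ∃ S : E (m + 1) ≃ₗ[ℝ] E (m + 1),
      Supported (S '' K) ∧ MixedTest m a b d (profile (S '' K)) := by
  obtain ⟨hK, hs, hball, k, u, c, huc, hres⟩ := hJ
  have hc : ∀ i, 0 ≤ c i := fun i => (huc i).1.le
  have hu : ∀ i, ‖u i‖ = 1 := fun i => (huc i).2.1
  have hw : ∀ i, ∀ x ∈ K, |⟪u i, x⟫| ≤ 1 := fun i => (huc i).2.2
  choose R hR using fun i => exists_turn (hu i)
  by_contra hneg
  push Not at hneg
  have hbad : ∀ i, ∃ φ φ' : ℝ → ℝ, (∀ t, HasDerivAt φ (φ' t) t) ∧ Continuous φ' ∧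
      a (∫ t in (-1 : ℝ)..1, profile (R i '' K) t ^ m) * varTerm m (profile (R i '' K)) +
        b (∫ t in (-1 : ℝ)..1, profile (R i '' K) t ^ m) * globalTerm m (profile (R i '' K)) -
        d (∫ t in (-1 : ℝ)..1, profile (R i '' K) t ^ m) *
          fisherTerm m (profile (R i '' K)) φ φ' < 0 := fun i => by
    have h := hneg (R i).toLinearEquiv (supported_turn hK hs hball (hw i) (hR i))
    simp only [MixedTest] at h
    push Not at h
    exact h
  choose φ φ' hφ hφ' hlt using hbad
  set V := vol K / kappa m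
  have hJm : ∀ i, ∫ t in (-1 : ℝ)..1, profile (R i '' K) t ^ m = V := fun i => by
    have h := integral_dir hm hK.1 (hw i) (hR i)
      (continuous_const : Continuous fun _ : ℝ => (1 : ℝ))
    simp only [setIntegral_const, smul_eq_mul, mul_one, one_mul] at h
    simp only [V, vol, ← measureReal_def, h]
    rw [mul_div_assoc, mul_comm, div_mul_cancel₀ _ (Sharp.kappa_pos' m).ne']
  simp only [hJm] at hlt
  have hk : (Finset.univ : Finset (Fin k)).Nonempty := by
    rw [Finset.univ_nonempty_iff]
    by_contra h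
    have hz := hres (EuclideanSpace.single 0 1)
    rw [not_nonempty_iff] at h
    simp only [Finset.univ_eq_empty, Finset.sum_empty] at hz
    simpa using congrArg (fun x : E (m + 1) => x 0) hz
  have hsum := Finset.sum_lt_sum_of_nonempty hk
    fun i _ => mul_lt_mul_of_pos_left (hlt i) (huc i).1
  simp only [mul_zero, Finset.sum_const_zero] at hsum
  have h1 := mul_nonneg (ha V) (varTerm_avg hm hK.1 hc hu hw hres hR)
  have h2 := mul_nonneg (hb V) (globalTerm_avg hm hK.1 hu hw hres hR)
  have h3 := mul_nonpos_of_nonneg_of_nonpos (hd V)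
    (fisherTerm_avg hm hK hball hc hu hw hres hR φ φ' hφ hφ')
  refine absurd hsum (not_lt.2 ((add_nonneg (add_nonneg h1 h2) (neg_nonneg.2 h3)).trans
    (le_of_eq ?_)))
  simp only [Finset.mul_sum, ← Finset.sum_add_distrib, ← Finset.sum_neg_distrib]
  exact Finset.sum_congr rfl fun i _ => by ring

/-- The key statement from the profile bound under the mixed test. -/
theorem keyStmt_of_mixed (hm : 2 ≤ m) {a b d : ℝ → ℝ} (ha : ∀ s, 0 ≤ a s) (hb : ∀ s, 0 ≤ b s)
    (hd : ∀ s, 0 ≤ d s) (hpetty : PettyAt m)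
    (hlem : ∀ f : ℝ → ℝ, IsProfile f → MixedTest m a b d f → ProfileBound m f) :
    KeyStmt (m + 1) :=
  keyStmt_of hm hpetty (slicesStmt (by omega))
    (fun _ hJ => exists_mixedTest (by omega) ha hb hd hJ) hlem

/-- Petty's conjecture in every dimension from the three dimensional case and the profile bound
under the mixed test. -/
theorem petty_all_of_mixed (h3 : Three.PettyThree ∧ Three.PettyThreeEquality)
    {a b d : ℕ → ℝ → ℝ} (ha : ∀ m s, 0 ≤ a m s) (hb : ∀ m s, 0 ≤ b m s)
    (hd : ∀ m s, 0 ≤ d m s)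
    (hlem : ∀ m, 3 ≤ m → ∀ f : ℝ → ℝ, IsProfile f → MixedTest m (a m) (b m) (d m) f →
      ProfileBound m f) : PettyAll :=
  petty_all h3 fun m hm hP =>
    keyStmt_of_mixed (by omega) (ha m) (hb m) (hd m) hP (hlem m hm)

end Vale.Agent.P237.All
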