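import Vale.Agent.P237.All.Bounds
import Vale.Agent.P237.All.Select
import Vale.Agent.P237.Three.Assemble
import Vale.Agent.P237.Three.Profile
import Vale.Agent.P237.Four.Final

/-!
P237, every dimension: Petty's conjecture from a certificate at every common integral above that
of the ball, from dimension five on; dimensions three and four are done separately.  At the integral of the ball the profile is the semicircle.
-/

noncomputable section

open MeasureTheory Set Filter Real intervalIntegral
open scoped Topology

namespace Vale.Agent.P237.All

open Transport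

variable {p : ℕ}

/-- The bound at every common integral above that of the ball, from dimension five on. -/
def BoundsStmt : Prop :=
  ∀ p : ℕ, 3 ≤ p → ∀ J : ℝ, 2 * mass (p + 1) semi 1 < J → HasBound p J

/-- Certificates at every common integral above that of the ball, from dimension five on. -/
def CertsStmt : Prop :=
  ∀ p : ℕ, 3 ≤ p → ∀ J : ℝ, 2 * mass (p + 1) semi 1 < J → HasCert p J

/-- The chosen weights. -/
def weight (p : ℕ) (J : ℝ) : ℝ × ℝ × ℝ :=
  open Classical in
  if h : HasBound p J then (h.choose, h.choose_spec.choose, h.choose_spec.choose_spec.choose)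
  else 0

theorem weight_nonneg (p : ℕ) (J : ℝ) :
    0 ≤ (weight p J).1 ∧ 0 ≤ (weight p J).2.1 ∧ 0 ≤ (weight p J).2.2 := by
  unfold weight
  split
  · next h =>
    exact ⟨h.choose_spec.choose_spec.choose_spec.1, h.choose_spec.choose_spec.choose_spec.2.1,
      h.choose_spec.choose_spec.choose_spec.2.2.1⟩
  · simp

theorem weight_bound (p : ℕ) (J : ℝ) (h : HasBound p J) {f : ℝ → ℝ} (hf : IsProfile f)
    (hJ : (∫ t in (-1 : ℝ)..1, f t ^ (p + 1)) = J)
    (hmix : MixedTest (p + 1) (fun _ => (weight p J).1) (fun _ => (weight p J).2.1)
      (fun _ => (weight p J).2.2) f) : ProfileBound (p + 1) f := by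
  unfold weight at hmix
  rw [dif_pos h] at hmix
  exact h.choose_spec.choose_spec.choose_spec.2.2.2 f hf hJ hmix

/-- The profile bound in every dimension from the certificates. -/
theorem profileBound_of_bounds (H : BoundsStmt) (hp : 3 ≤ p) {f : ℝ → ℝ} (hf : IsProfile f)
    (hmix : MixedTest (p + 1) (fun J => (weight p J).1) (fun J => (weight p J).2.1)
      (fun J => (weight p J).2.2) f) : ProfileBound (p + 1) f := by
  set J := ∫ t in (-1 : ℝ)..1, f t ^ (p + 1) with hJ
  have hs := isProfile_semi
  rcases lt_or_ge (2 * mass (p + 1) semi 1) J with hlt | hge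
  · exact weight_bound p J (H p hp J hlt) hf hJ.symm hmix
  · rw [hJ, Transport.integral_even hf] at hge
    have heq := eq_semi_of_integral hf (q := p + 1) (by omega) (by linarith)
    have hI : ∀ q, ∫ t in (-1 : ℝ)..1, f t ^ q = ∫ t in (-1 : ℝ)..1, semi t ^ q := by
      intro q
      rw [intervalIntegral.integral_of_le (by norm_num), intervalIntegral.integral_of_le (by norm_num),
        integral_Ioc_eq_integral_Ioo, integral_Ioc_eq_integral_Ioo]
      exact setIntegral_congr_fun measurableSet_Ioo fun t ht => by rw [heq t ht]
    simp only [ProfileBound, hI]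
    exact ⟨le_rfl, fun _ => heq⟩

/-- Petty's projection volume conjecture from the bounds and dimension four. -/
theorem petty_all_of_bounds (H : BoundsStmt) : PettyAll :=
  petty_all (Three.petty_three_of_profile Three.profileStmt) fun m hm hP => by
    rcases eq_or_lt_of_le hm with rfl | hm4
    · exact Four.keyStmt_four
    · obtain ⟨p, rfl⟩ : ∃ p, m = p + 1 := ⟨m - 1, by omega⟩
      exact keyStmt_of_mixed (by omega) (a := fun J => (weight p J).1)
        (b := fun J => (weight p J).2.1) (d := fun J => (weight p J).2.2)
        (fun J => (weight_nonneg _ J).1) (fun J => (weight_nonneg _ J).2.1)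
        (fun J => (weight_nonneg _ J).2.2) hP fun f hf hmix =>
          profileBound_of_bounds H (by omega) hf hmix

/-- Petty's projection volume conjecture from the certificates and dimension four. -/
theorem petty_all_of_certs (H : CertsStmt) : PettyAll :=
  petty_all_of_bounds fun p hp J hJ => (H p hp J hJ).hasBound (by omega)

end Vale.Agent.P237.All
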