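import Vale.Agent.P237.All.Certificate

/-!
P237, every dimension: a certificate at a common integral, and the bound it gives.
-/

noncomputable section

open MeasureTheory Set Filter Real intervalIntegral
open scoped Topology

namespace Vale.Agent.P237.All

open Transport

variable {p : ℕ}

/-- A certificate with nonnegative weights at the common integral `J`. -/
def HasCert (p : ℕ) (J : ℝ) : Prop :=
  ∃ a g d : ℝ, 0 ≤ a ∧ 0 ≤ g ∧ 0 ≤ d ∧ Nonempty (Cert p J a g d)

/-- Constant nonnegative weights under whose test every profile with common integral `J` obeys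
the profile bound. -/
def HasBound (p : ℕ) (J : ℝ) : Prop :=
  ∃ a g d : ℝ, 0 ≤ a ∧ 0 ≤ g ∧ 0 ≤ d ∧ ∀ f : ℝ → ℝ, IsProfile f →
    (∫ t in (-1 : ℝ)..1, f t ^ (p + 1)) = J →
    MixedTest (p + 1) (fun _ => a) (fun _ => g) (fun _ => d) f → ProfileBound (p + 1) f

/-- A certificate gives the bound. -/
theorem HasCert.hasBound (hp : 1 ≤ p) {J : ℝ} (h : HasCert p J) : HasBound p J := by
  obtain ⟨a, g, d, ha, hg, hd, ⟨C⟩⟩ := h
  refine ⟨a, g, d, ha, hg, hd, fun f hf hJ hmix => ?_⟩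
  subst hJ
  exact profileBound_of_cert hp hf hmix C

/-- A profile with the integral of the semicircle is the semicircle. -/
theorem eq_semi_of_integral {f : ℝ → ℝ} (hf : IsProfile f) {q : ℕ} (hq : 1 ≤ q)
    (h : mass q f 1 ≤ mass q semi 1) : ∀ t ∈ Ioo (-1 : ℝ) 1, f t = semi t := by
  have hs := isProfile_semi
  suffices key : ∀ t ∈ Ioo (0 : ℝ) 1, f t = semi t by
    intro t ht
    rcases lt_trichotomy t 0 with h0 | h0 | h0
    · have h1 := key (-t) ⟨by linarith, by linarith [ht.1]⟩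
      rw [hf.2.1 t ht] at h1
      rw [h1]; simp [semi]
    · subst h0
      have h1 : Tendsto f (𝓝[Ioo (0 : ℝ) 1] 0) (𝓝 (f 0)) :=
        ((profile_continuousOn hf) 0 (by norm_num)).mono_left
          (nhdsWithin_mono _ fun x hx => ⟨by linarith [hx.1], hx.2⟩)
      have h2 : Tendsto f (𝓝[Ioo (0 : ℝ) 1] 0) (𝓝 (semi 0)) :=
        ((semi_continuous.tendsto 0).mono_left nhdsWithin_le_nhds).congr'
          (eventually_nhdsWithin_of_forall fun x hx => (key x hx).symm)
      have : (𝓝[Ioo (0 : ℝ) 1] (0 : ℝ)).NeBot := left_nhdsWithin_Ioo_neBot zero_lt_one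
      exact tendsto_nhds_unique h1 h2
    · exact key t ⟨h0, ht.2⟩
  intro t ht
  by_contra hne
  have hle : ∀ u ∈ Ioo (0 : ℝ) 1, semi u ^ q ≤ f u ^ q := fun u hu =>
    pow_le_pow_left₀ (Real.sqrt_nonneg _) (hf.2.2 u ⟨by linarith [hu.1], hu.2⟩) q
  have htI : t ∈ Ioo (-1 : ℝ) 1 := ⟨by linarith [ht.1], ht.2⟩
  have hlt : semi t ^ q < f t ^ q :=
    pow_lt_pow_left₀ (lt_of_le_of_ne (hf.2.2 t htI) (Ne.symm hne)) (Real.sqrt_nonneg _) (by omega)
  have h0 : (0 : ℝ) ∈ Icc (-1 : ℝ) 1 := by norm_num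
  have h1 : (1 : ℝ) ∈ Icc (-1 : ℝ) 1 := by norm_num
  have hi := (int_pow hf q h0 h1).sub (int_pow hs q h0 h1)
  have hz : ∫ u in (0 : ℝ)..1, (f u ^ q - semi u ^ q) = 0 := by
    rw [intervalIntegral.integral_sub (int_pow hf q h0 h1) (int_pow hs q h0 h1)]
    refine le_antisymm (sub_nonpos.2 h) (sub_nonneg.2 ?_)
    exact intervalIntegral.integral_mono_on_of_le_Ioo zero_le_one (int_pow hs q h0 h1)
      (int_pow hf q h0 h1) hle
  obtain ⟨ε, hε, hball⟩ : ∃ ε > 0, ∀ u ∈ Ioo (t - ε) (t + ε), u ∈ Ioo (0 : ℝ) 1 ∧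
      0 < f u ^ q - semi u ^ q := by
    have hc : ContinuousAt (fun u => f u ^ q - semi u ^ q) t :=
      (((profile_continuousOn hf).continuousAt (isOpen_Ioo.mem_nhds htI)).pow q).sub
        (semi_continuous.continuousAt.pow q)
    have h2 := (Filter.eventually_of_mem (isOpen_Ioo.mem_nhds ht) fun u hu => hu).and
      (hc.eventually_const_lt (sub_pos.2 hlt))
    obtain ⟨ε, hε, he⟩ := Metric.eventually_nhds_iff.1 h2
    exact ⟨ε, hε, fun u hu => he (by rw [Real.dist_eq, abs_lt]; constructor <;> linarith [hu.1, hu.2])⟩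
  set a := max 0 (t - ε) with ha
  set b := min 1 (t + ε) with hb
  have hab : a < b := by
    simp only [ha, hb, max_lt_iff, lt_min_iff]
    refine ⟨⟨zero_lt_one, ?_⟩, ?_, ?_⟩ <;> linarith [ht.1, ht.2]
  have ha0 : 0 ≤ a := le_max_left _ _
  have hb1 : b ≤ 1 := min_le_left _ _
  have haI : a ∈ Icc (-1 : ℝ) 1 := ⟨by linarith, by linarith⟩
  have hbI : b ∈ Icc (-1 : ℝ) 1 := ⟨by linarith, hb1⟩
  have hpos : 0 < ∫ u in a..b, (f u ^ q - semi u ^ q) :=
    intervalIntegral_pos_of_pos_on ((int_pow hf q haI hbI).sub (int_pow hs q haI hbI))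
      (fun u hu => (hball u ⟨lt_of_le_of_lt (le_max_right _ _) hu.1,
        lt_of_lt_of_le hu.2 (min_le_right _ _)⟩).2) hab
  have hmono : ∫ u in a..b, (f u ^ q - semi u ^ q) ≤ ∫ u in (0 : ℝ)..1, (f u ^ q - semi u ^ q) :=
    intervalIntegral.integral_mono_interval ha0 hab.le hb1
      ((ae_restrict_iff' measurableSet_Ioc).2 (by
        filter_upwards [MeasureTheory.compl_mem_ae_iff.2 (measure_singleton (1 : ℝ))] with u hu hu'
        exact sub_nonneg.2 (hle u ⟨hu'.1, lt_of_le_of_ne hu'.2 hu⟩))) hi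
  linarith

end Vale.Agent.P237.All
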