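import Vale.Agent.P237.All.CertTools

/-!
P237, every dimension: the potential `semi y ^ (p + 3) (a θ + c θ² / y)`, `θ = t - y`, and the
combined density in the variables `(y, θ, δ = r - 1)` (`notes/P237h7/k0-analytic-02Dec.md`).
-/

noncomputable section

open MeasureTheory Set Filter Real intervalIntegral
open scoped Topology

namespace Vale.Agent.P237.All.Transport

variable {p : ℕ} (a c : ℝ)

/-- The potential. -/
def pot (p : ℕ) (a c y t : ℝ) : ℝ := semi y ^ (p + 3) * (a * (t - y) + c * (t - y) ^ 2 / y)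

/-- Its derivative in `y`. -/
def potY (p : ℕ) (a c y t : ℝ) : ℝ :=
  semi y ^ (p + 1) * (-((p : ℝ) + 3) * y * (a * (t - y) + c * (t - y) ^ 2 / y) +
    semi y ^ 2 * (-a - 2 * c * (t - y) / y - c * (t - y) ^ 2 / y ^ 2))

/-- Its derivative in `t`. -/
def potT (p : ℕ) (a c y t : ℝ) : ℝ := semi y ^ (p + 3) * (a + 2 * c * (t - y) / y)

theorem pot_zero : pot p a c 0 0 = 0 := by simp [pot]

theorem pot_one : pot p a c 1 1 = 0 := by simp [pot]

theorem pot_chain (Z : ℝ → ℝ) (Z' t : ℝ) (hy : Z t ∈ Ioo (0 : ℝ) 1) (hZ : HasDerivAt Z Z' t) :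
    HasDerivAt (fun s => pot p a c (Z s) s) (potY p a c (Z t) t * Z' + potT p a c (Z t) t) t := by
  have hy' : Z t ∈ Ioo (-1 : ℝ) 1 := ⟨by linarith [hy.1], hy.2⟩
  have hs := (semi_hasDerivAt hy').comp t hZ
  have hθ := (hasDerivAt_id t).sub hZ
  have h := (hs.pow (p + 3)).mul ((hθ.const_mul a).add (((hθ.pow 2).const_mul c).div hZ hy.1.ne'))
  refine h.congr_deriv ?_
  have hs0 := (semi_pos hy').ne'
  have hy0 := hy.1.ne'
  simp only [potY, potT, Pi.pow_apply, Function.comp_apply, Pi.sub_apply, Pi.add_apply, Pi.div_apply, id_eq,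
    Nat.cast_add, Nat.cast_ofNat, show p + 3 - 1 = p + 2 from rfl]
  field_simp
  ring

theorem pot_along (Z : ℝ → ℝ) (hZ : ContinuousOn Z (Icc 0 1)) (h0 : Z 0 = 0)
    (hα : ∃ α > 0, ∀ t ∈ Icc (0 : ℝ) 1, α * t ≤ Z t) (_h1 : ∀ t ∈ Icc (0 : ℝ) 1, Z t ≤ 1) :
    ContinuousOn (fun t => pot p a c (Z t) t) (Icc 0 1) := by
  obtain ⟨α, hα0, hα⟩ := hα
  intro t ht
  rcases eq_or_lt_of_le ht.1 with e | ht0
  · subst e
    have hC : ContinuousWithinAt (fun s => |a| * (s + Z s) + |c| * ((1 / α + 1) ^ 2 * Z s))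
        (Icc 0 1) 0 := by
      exact (continuousWithinAt_const.mul (continuousWithinAt_id.add (hZ 0 ht))).add
        (continuousWithinAt_const.mul (continuousWithinAt_const.mul (hZ 0 ht)))
    have hb : ∀ s ∈ Icc (0 : ℝ) 1,
        |pot p a c (Z s) s| ≤ |a| * (s + Z s) + |c| * ((1 / α + 1) ^ 2 * Z s) := by
      intro s hs
      have hz : 0 ≤ Z s := (mul_nonneg hα0.le hs.1).trans (hα s hs)
      have hsz : |s - Z s| ≤ (1 / α + 1) * Z s := by
        have h2 : s ≤ 1 / α * Z s := by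
          rw [one_div, inv_mul_eq_div, le_div_iff₀ hα0, mul_comm]; exact hα s hs
        rw [abs_le]; constructor <;> nlinarith [hs.1]
      have hq : |(s - Z s) ^ 2 / Z s| ≤ (1 / α + 1) ^ 2 * Z s := by
        rcases eq_or_lt_of_le hz with e | e
        · rw [← e]; simp
        · rw [abs_of_nonneg (by positivity), div_le_iff₀ e, ← sq_abs]
          calc |s - Z s| ^ 2 ≤ ((1 / α + 1) * Z s) ^ 2 := pow_le_pow_left₀ (abs_nonneg _) hsz 2
            _ = _ := by ring
      have hS : |semi (Z s) ^ (p + 3)| ≤ 1 := by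
        rw [abs_pow, abs_of_nonneg (show 0 ≤ semi (Z s) from Real.sqrt_nonneg _)]
        exact pow_le_one₀ (Real.sqrt_nonneg _) (Real.sqrt_le_one.2 (by nlinarith [sq_nonneg (Z s)]))
      rw [pot, abs_mul]
      refine (mul_le_of_le_one_left (abs_nonneg _) hS).trans ((abs_add_le _ _).trans ?_)
      rw [mul_div_assoc, abs_mul, abs_mul]
      refine add_le_add (mul_le_mul_of_nonneg_left ?_ (abs_nonneg _))
        (mul_le_mul_of_nonneg_left hq (abs_nonneg _))
      rw [abs_le]; constructor <;> linarith [hs.1]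
    rw [ContinuousWithinAt, h0, pot_zero]
    refine squeeze_zero_norm' (eventually_nhdsWithin_of_forall hb) ?_
    have := hC.tendsto
    simpa [h0] using this
  · have hz : 0 < Z t := lt_of_lt_of_le (mul_pos hα0 ht0) (hα t ht)
    unfold pot
    exact ((semi_continuous.continuousAt.comp_continuousWithinAt (hZ t ht)).pow _).mul
      ((continuousWithinAt_const.mul (continuousWithinAt_id.sub (hZ t ht))).add
        ((continuousWithinAt_const.mul ((continuousWithinAt_id.sub (hZ t ht)).pow 2)).div (hZ t ht)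
          hz.ne'))

/-- The coefficient that cancels the part linear in `θ`. -/
def potA (p : ℕ) (g : ℝ) : ℝ := -2 * (((p : ℝ) + 2) - g * ((p : ℝ) + 4)) / ((p : ℝ) + 3)

/-- The zero order part: its integral against `semi ^ (p + 1)` vanishes. -/
def zeroOrder (p : ℕ) (g y : ℝ) : ℝ :=
  g * (((p : ℝ) + 4) * y ^ 2 - 1) + 1 + ((p : ℝ) + 2) * y ^ 2 - 2 * (1 - y ^ 2)

/-- The multiplier on the failed bound that goes with the shift `De`. -/
def ellOf (p : ℕ) (g De c2 : ℝ) : ℝ :=
  4 * (p : ℝ) + 1 + g + (p : ℝ) * potA p g - De + g * (c2 - 1)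

/-- The residual linear in `δ`. -/
def resid (p : ℕ) (g De y : ℝ) : ℝ :=
  -De + (g * ((p : ℝ) + 4) + 5 * (p : ℝ) + 4 + (p : ℝ) * potA p g) * y ^ 2

theorem zeroOrder_integral (p : ℕ) (g : ℝ) :
    ∫ y in (0 : ℝ)..1, semi y ^ (p + 1) * zeroOrder p g y = 0 := by
  have hs := semi_continuous
  have e : (fun y => semi y ^ (p + 1) * zeroOrder p g y) = fun y =>
      (-(g + 1)) * semi y ^ (p + 1) + (g + 1) * ((p : ℝ) + 4) * (y ^ 2 * semi y ^ (p + 1)) := by
    funext y; simp only [zeroOrder]; ring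
  rw [e, intervalIntegral.integral_add
    ((Continuous.intervalIntegrable (by fun_prop) _ _))
    ((Continuous.intervalIntegrable (by fun_prop) _ _)),
    intervalIntegral.integral_const_mul, intervalIntegral.integral_const_mul, moment_two,
    ← mass_semi]
  have : ((p + 1 : ℕ) : ℝ) + 3 = (p : ℝ) + 4 := by push_cast; ring
  rw [this]
  field_simp
  ring

/-- The density with the potential, at weights `(0, g, 1)` and test `2 y - t`. -/
theorem density_pot (p : ℕ) (g c De c2 lam : ℝ) {y t r : ℝ} (hy : y ∈ Ioo (0 : ℝ) 1) (hr : 0 < r) :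
    density p 0 g 1 1 (ellOf p g De c2) lam c2 y t r + potY p (potA p g) c y t +
        potT p (potA p g) c y t / r ^ p =
      semi y ^ (p + 1) * (zeroOrder p g y - g * (c2 - 1) + resid p g De y * (r - 1) -
        (1 - y ^ 2) * (4 * (r ^ (p + 1) - 1 - ((p : ℝ) + 1) * (r - 1)) +
          -potA p g * ((r ^ p)⁻¹ - 1 + p * (r - 1))) +
        (-2 * (((p : ℝ) + 2) - g * ((p : ℝ) + 4)) * y * (r - 1) +
          2 * c * (1 - y ^ 2) * ((r ^ p)⁻¹ - 1) / y) * (t - y) +
        (((1 + g) * ((p : ℝ) + 4)) * r - 4 * r ^ (p + 1) - c * ((p : ℝ) + 3) -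
          c * (1 - y ^ 2) / y ^ 2) * (t - y) ^ 2) := by
  have hsq : semi y ^ 2 = 1 - y ^ 2 := semi_sq ⟨by linarith [hy.1], hy.2.le⟩
  have h3 : semi y ^ (p + 3) = semi y ^ (p + 1) * (1 - y ^ 2) := by
    rw [← hsq]; ring
  have hrp := (pow_pos hr p).ne'
  have hy0 := hy.1.ne'
  simp only [density, potY, potT, h3, hsq, zeroOrder, resid, ellOf, potA]
  field_simp
  ring

end Vale.Agent.P237.All.Transport
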