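import Vale.Agent.P237.All.CertTools

/-!
P237, every dimension: the potential `semi y ^ (p + 1) (A y θ + W y θ² / y)`, `θ = t - y`, with
coefficient functions, and the density with it collected in `θ`
(`notes/P237lead/limit-cells-02Dec.md`).
-/

noncomputable section

open MeasureTheory Set Filter Real
open scoped Topology

namespace Vale.Agent.P237.All.Transport

variable {p : ℕ} (A dA W dW : ℝ → ℝ)

/-- The potential. -/
def potF (p : ℕ) (A W : ℝ → ℝ) (y t : ℝ) : ℝ :=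
  semi y ^ (p + 1) * (A y * (t - y) + W y * (t - y) ^ 2 / y)

/-- Its derivative in `y`. -/
def potFY (p : ℕ) (A dA W dW : ℝ → ℝ) (y t : ℝ) : ℝ :=
  semi y ^ (p + 1) * (-((p : ℝ) + 1) * y / (1 - y ^ 2) * (A y * (t - y) + W y * (t - y) ^ 2 / y) +
    (dA y * (t - y) - A y + dW y * (t - y) ^ 2 / y - 2 * W y * (t - y) / y -
      W y * (t - y) ^ 2 / y ^ 2))

/-- Its derivative in `t`. -/
def potFT (p : ℕ) (A W : ℝ → ℝ) (y t : ℝ) : ℝ :=
  semi y ^ (p + 1) * (A y + 2 * W y * (t - y) / y)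

theorem potF_zero : potF p A W 0 0 = 0 := by simp [potF]

theorem potF_one : potF p A W 1 1 = 0 := by simp [potF]

theorem potF_chain (hA : ∀ y ∈ Ioo (0 : ℝ) 1, HasDerivAt A (dA y) y)
    (hW : ∀ y ∈ Ioo (0 : ℝ) 1, HasDerivAt W (dW y) y) (Z : ℝ → ℝ) (Z' t : ℝ)
    (hy : Z t ∈ Ioo (0 : ℝ) 1) (hZ : HasDerivAt Z Z' t) :
    HasDerivAt (fun s => potF p A W (Z s) s)
      (potFY p A dA W dW (Z t) t * Z' + potFT p A W (Z t) t) t := by
  have hy' : Z t ∈ Ioo (-1 : ℝ) 1 := ⟨by linarith [hy.1], hy.2⟩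
  have hs := (semi_hasDerivAt hy').comp t hZ
  have hθ := (hasDerivAt_id t).sub hZ
  have h := (hs.pow (p + 1)).mul ((((hA _ hy).comp t hZ).mul hθ).add
    ((((hW _ hy).comp t hZ).mul (hθ.pow 2)).div hZ hy.1.ne'))
  refine h.congr_deriv ?_
  have hs0 := (semi_pos hy').ne'
  have hy0 := hy.1.ne'
  have hsq := semi_sq (t := Z t) (Ioo_subset_Icc_self hy')
  simp only [potFY, potFT, Pi.pow_apply, Function.comp_apply, Pi.sub_apply, Pi.add_apply,
    Pi.mul_apply, Pi.div_apply, id_eq, Nat.cast_add, Nat.cast_one, Nat.cast_ofNat,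
    Nat.add_sub_cancel, ← hsq]
  field_simp
  ring

theorem potF_along (hA : ContinuousOn A (Icc 0 1)) (hW : ContinuousOn W (Icc 0 1)) (Z : ℝ → ℝ)
    (hZ : ContinuousOn Z (Icc 0 1)) (h0 : Z 0 = 0)
    (hα : ∃ α > 0, ∀ t ∈ Icc (0 : ℝ) 1, α * t ≤ Z t) (h1 : ∀ t ∈ Icc (0 : ℝ) 1, Z t ≤ 1) :
    ContinuousOn (fun t => potF p A W (Z t) t) (Icc 0 1) := by
  obtain ⟨α, hα0, hα⟩ := hα
  have hmaps : MapsTo Z (Icc 0 1) (Icc 0 1) := fun s hs =>
    ⟨(mul_nonneg hα0.le hs.1).trans (hα s hs), h1 s hs⟩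
  have hAZ := hA.comp hZ hmaps
  have hWZ := hW.comp hZ hmaps
  intro t ht
  rcases eq_or_lt_of_le ht.1 with e | ht0
  · subst e
    have hC : ContinuousWithinAt
        (fun s => |A (Z s)| * (s + Z s) + |W (Z s)| * ((1 / α + 1) ^ 2 * Z s)) (Icc 0 1) 0 :=
      ((hAZ 0 ht).abs.mul (continuousWithinAt_id.add (hZ 0 ht))).add
        ((hWZ 0 ht).abs.mul (continuousWithinAt_const.mul (hZ 0 ht)))
    have hb : ∀ s ∈ Icc (0 : ℝ) 1,
        |potF p A W (Z s) s| ≤ |A (Z s)| * (s + Z s) + |W (Z s)| * ((1 / α + 1) ^ 2 * Z s) := by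
      intro s hs
      have hz : 0 ≤ Z s := (mul_nonneg hα0.le hs.1).trans (hα s hs)
      have hsz : |s - Z s| ≤ (1 / α + 1) * Z s := by
        have h2 : s ≤ 1 / α * Z s := by
          rw [one_div, inv_mul_eq_div, le_div_iff₀ hα0, mul_comm]; exact hα s hs
        rw [abs_le]; constructor <;> nlinarith [hs.1]
      have hq : |(s - Z s) ^ 2 / Z s| ≤ (1 / α + 1) ^ 2 * Z s := by
        rcases eq_or_lt_of_le hz with e | e
        · rw [← e]; simp
        · rw [abs_of_nonneg (by positivity), div_le_iff₀ e, ← sq_abs]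
          calc |s - Z s| ^ 2 ≤ ((1 / α + 1) * Z s) ^ 2 := pow_le_pow_left₀ (abs_nonneg _) hsz 2
            _ = _ := by ring
      have hS : |semi (Z s) ^ (p + 1)| ≤ 1 := by
        rw [abs_pow, abs_of_nonneg (show 0 ≤ semi (Z s) from Real.sqrt_nonneg _)]
        exact pow_le_one₀ (Real.sqrt_nonneg _) (Real.sqrt_le_one.2 (by nlinarith [sq_nonneg (Z s)]))
      rw [potF, abs_mul]
      refine (mul_le_of_le_one_left (abs_nonneg _) hS).trans ((abs_add_le _ _).trans ?_)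
      rw [mul_div_assoc, abs_mul, abs_mul]
      refine add_le_add (mul_le_mul_of_nonneg_left ?_ (abs_nonneg _))
        (mul_le_mul_of_nonneg_left hq (abs_nonneg _))
      rw [abs_le]; constructor <;> linarith [hs.1]
    rw [ContinuousWithinAt, h0, potF_zero]
    refine squeeze_zero_norm' (eventually_nhdsWithin_of_forall hb) ?_
    have := hC.tendsto
    simpa [h0] using this
  · have hz : 0 < Z t := lt_of_lt_of_le (mul_pos hα0 ht0) (hα t ht)
    unfold potF
    exact ((semi_continuous.continuousAt.comp_continuousWithinAt (hZ t ht)).pow _).mul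
      (((hAZ t ht).mul (continuousWithinAt_id.sub (hZ t ht))).add
        (((hWZ t ht).mul ((continuousWithinAt_id.sub (hZ t ht)).pow 2)).div (hZ t ht) hz.ne'))

/-- The density with the potential, collected in `θ = t - y`. -/
theorem density_potF (p : ℕ) (a g d β ell lam c2 : ℝ) {y t r : ℝ} (hy : y ∈ Ioo (0 : ℝ) 1)
    (hr : 0 < r) :
    density p a g d β ell lam c2 y t r + potFY p A dA W dW y t + potFT p A W y t / r ^ p =
      semi y ^ (p + 1) *
        (ell * (r - 1) + r * (a * (((p : ℝ) + 3) * y ^ 2 - lam ^ 2 * (1 - y ^ 2) * r ^ 2) +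
            g * (((p : ℝ) + 4) * y ^ 2 - c2) -
            d * (2 * (1 - y ^ 2) * ((1 + β) * r ^ p - β) - ((p : ℝ) + 2) * y ^ 2 - 1)) +
          A y * ((r ^ p)⁻¹ - 1) +
        (r * y * (2 * a * ((p : ℝ) + 3) + 2 * g * ((p : ℝ) + 4) -
            d * (2 * (β - 1) * ((1 + β) * r ^ p - β) + 2 * β * ((p : ℝ) + 2))) +
          dA y - ((p : ℝ) + 1) * y / (1 - y ^ 2) * A y +
          2 * W y / y * ((r ^ p)⁻¹ - 1)) * (t - y) +
        (r * (a * ((p : ℝ) + 3) + g * ((p : ℝ) + 4) -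
            d * (2 * β * ((1 + β) * r ^ p - β) - ((p : ℝ) + 2) * β ^ 2)) +
          dW y / y - W y / y ^ 2 - ((p : ℝ) + 1) * W y / (1 - y ^ 2)) * (t - y) ^ 2) := by
  have hsq : semi y ^ 2 = 1 - y ^ 2 := semi_sq ⟨by linarith [hy.1], hy.2.le⟩
  have hrp := (pow_pos hr p).ne'
  have hy0 := hy.1.ne'
  have hS : (1 - y ^ 2 : ℝ) ≠ 0 := by nlinarith [hy.1, hy.2]
  simp only [density, potFY, potFT, hsq]
  field_simp
  ring

end Vale.Agent.P237.All.Transport
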