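import Vale.Agent.P237.All.CertPotentialFun
import Vale.Agent.P237.All.Middle.Pot

/-!
P237, every dimension: the potential with separate coefficients of `θ²` ahead of and behind `y`,
`semi y ^ (p + 1) (A y θ + W± y θ² / y)`, `θ = t - y`; on either side its derivatives are those of
`potF` with the coefficient of that side.
-/

noncomputable section

open MeasureTheory Set Filter Real
open scoped Topology

namespace Vale.Agent.P237.All.Transport

variable {p : ℕ} (A dA Wp dWp Wm dWm : ℝ → ℝ)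

/-- The potential with two coefficients: `Wp` for `y ≤ t`, `Wm` for `t ≤ y`. -/
def potTwo (p : ℕ) (A Wp Wm : ℝ → ℝ) (y t : ℝ) : ℝ :=
  semi y ^ (p + 1) * (A y * (t - y) +
    (Wp y * (max 0 (t - y)) ^ 2 + Wm y * (max 0 (y - t)) ^ 2) / y)

/-- Its derivative in `y`. -/
def potTwoY (p : ℕ) (A dA Wp dWp Wm dWm : ℝ → ℝ) (y t : ℝ) : ℝ :=
  if y ≤ t then potFY p A dA Wp dWp y t else potFY p A dA Wm dWm y t

/-- Its derivative in `t`. -/
def potTwoT (p : ℕ) (A Wp Wm : ℝ → ℝ) (y t : ℝ) : ℝ :=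
  if y ≤ t then potFT p A Wp y t else potFT p A Wm y t

theorem potTwo_pos {y t : ℝ} (h : y ≤ t) : potTwo p A Wp Wm y t = potF p A Wp y t := by
  rw [potTwo, potF, max_eq_right (sub_nonneg.2 h), max_eq_left (sub_nonpos.2 h)]
  ring

theorem potTwo_neg {y t : ℝ} (h : t ≤ y) : potTwo p A Wp Wm y t = potF p A Wm y t := by
  rw [potTwo, potF, max_eq_left (sub_nonpos.2 h), max_eq_right (sub_nonneg.2 h)]
  ring

theorem potTwoY_neg {y t : ℝ} (h : t ≤ y) :
    potTwoY p A dA Wp dWp Wm dWm y t = potFY p A dA Wm dWm y t := by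
  rcases h.lt_or_eq with h | rfl
  · rw [potTwoY, if_neg (not_le.2 h)]
  · rw [potTwoY, if_pos le_rfl]; simp [potFY]

theorem potTwoT_neg {y t : ℝ} (h : t ≤ y) : potTwoT p A Wp Wm y t = potFT p A Wm y t := by
  rcases h.lt_or_eq with h | rfl
  · rw [potTwoT, if_neg (not_le.2 h)]
  · rw [potTwoT, if_pos le_rfl]; simp [potFT]

theorem potTwo_zero : potTwo p A Wp Wm 0 0 = 0 := by simp [potTwo]

theorem potTwo_one : potTwo p A Wp Wm 1 1 = 0 := by simp [potTwo]

theorem potTwo_chain (hA : ∀ y ∈ Ioo (0 : ℝ) 1, HasDerivAt A (dA y) y)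
    (hP : ∀ y ∈ Ioo (0 : ℝ) 1, HasDerivAt Wp (dWp y) y)
    (hM : ∀ y ∈ Ioo (0 : ℝ) 1, HasDerivAt Wm (dWm y) y) (Z : ℝ → ℝ) (Z' t : ℝ)
    (hy : Z t ∈ Ioo (0 : ℝ) 1) (hZ : HasDerivAt Z Z' t) :
    HasDerivAt (fun s => potTwo p A Wp Wm (Z s) s)
      (potTwoY p A dA Wp dWp Wm dWm (Z t) t * Z' + potTwoT p A Wp Wm (Z t) t) t := by
  have hy' : Z t ∈ Ioo (-1 : ℝ) 1 := ⟨by linarith [hy.1], hy.2⟩
  have hs := (semi_hasDerivAt hy').comp t hZ
  have hθ := (hasDerivAt_id t).sub hZ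
  have hu := (Middle.hasDerivAt_pos_sq _).comp t hθ
  have hv := (Middle.hasDerivAt_pos_sq _).comp t (hZ.sub (hasDerivAt_id t))
  have h := (hs.pow (p + 1)).mul ((((hA _ hy).comp t hZ).mul hθ).add
    (((((hP _ hy).comp t hZ).mul hu).add (((hM _ hy).comp t hZ).mul hv)).div hZ hy.1.ne'))
  refine h.congr_deriv ?_
  have hs0 := (semi_pos hy').ne'
  have hy0 := hy.1.ne'
  have hsq := semi_sq (t := Z t) (Ioo_subset_Icc_self hy')
  simp only [Pi.pow_apply, Function.comp_apply, Pi.sub_apply, Pi.add_apply, Pi.mul_apply,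
    Pi.div_apply, id_eq, Nat.cast_add, Nat.cast_one, Nat.add_sub_cancel]
  rcases le_total (Z t) t with hle | hle
  · rw [potTwoY, potTwoT, if_pos hle, if_pos hle, max_eq_right (sub_nonneg.2 hle),
      max_eq_left (sub_nonpos.2 hle)]
    simp only [potFY, potFT, ← hsq]
    field_simp
    ring
  · rw [potTwoY_neg A dA Wp dWp Wm dWm hle, potTwoT_neg A Wp Wm hle,
      max_eq_left (sub_nonpos.2 hle), max_eq_right (sub_nonneg.2 hle)]
    simp only [potFY, potFT, ← hsq]
    field_simp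
    ring

theorem potTwo_along (hA : ContinuousOn A (Icc 0 1)) (hP : ContinuousOn Wp (Icc 0 1))
    (hM : ContinuousOn Wm (Icc 0 1)) (Z : ℝ → ℝ) (hZ : ContinuousOn Z (Icc 0 1)) (h0 : Z 0 = 0)
    (hα : ∃ α > 0, ∀ t ∈ Icc (0 : ℝ) 1, α * t ≤ Z t) (h1 : ∀ t ∈ Icc (0 : ℝ) 1, Z t ≤ 1) :
    ContinuousOn (fun t => potTwo p A Wp Wm (Z t) t) (Icc 0 1) := by
  have hp := potF_along (p := p) A Wp hA hP Z hZ h0 hα h1
  have hm := potF_along (p := p) A Wm hA hM Z hZ h0 hα h1
  have hz := potF_along (p := p) A (fun _ => 0) hA continuousOn_const Z hZ h0 hα h1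
  intro t ht
  rcases eq_or_lt_of_le ht.1 with e | e
  · subst e
    have b1 := ((hp 0 ht).sub (hz 0 ht)).abs
    have b2 := ((hm 0 ht).sub (hz 0 ht)).abs
    have b0 := (hz 0 ht).abs
    rw [ContinuousWithinAt, h0, potTwo_zero]
    refine squeeze_zero_norm' (a := fun s => |potF p A (fun _ => 0) (Z s) s| +
        |potF p A Wp (Z s) s - potF p A (fun _ => 0) (Z s) s| +
        |potF p A Wm (Z s) s - potF p A (fun _ => 0) (Z s) s|)
      (eventually_nhdsWithin_of_forall fun s _ => ?_) ?_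
    · rcases le_total (Z s) s with hle | hle
      · rw [potTwo_pos A Wp Wm hle, Real.norm_eq_abs]
        have := abs_sub_abs_le_abs_sub (potF p A Wp (Z s) s) (potF p A (fun _ => 0) (Z s) s)
        have := abs_nonneg (potF p A Wm (Z s) s - potF p A (fun _ => 0) (Z s) s)
        linarith
      · rw [potTwo_neg A Wp Wm hle, Real.norm_eq_abs]
        have := abs_sub_abs_le_abs_sub (potF p A Wm (Z s) s) (potF p A (fun _ => 0) (Z s) s)
        have := abs_nonneg (potF p A Wp (Z s) s - potF p A (fun _ => 0) (Z s) s)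
        linarith
    · have := ((b0.add b1).add b2).tendsto
      simpa [h0, potF_zero, Pi.add_def] using this
  · obtain ⟨α, hα0, hα⟩ := hα
    have hzp : 0 < Z t := lt_of_lt_of_le (mul_pos hα0 e) (hα t ht)
    have hmaps : MapsTo Z (Icc 0 1) (Icc 0 1) := fun s hs =>
      ⟨(mul_nonneg hα0.le hs.1).trans (hα s hs), h1 s hs⟩
    have u : ∀ c : ℝ, ContinuousWithinAt (fun s => (max 0 (c * (s - Z s))) ^ 2) (Icc 0 1) t := fun c =>
      (continuousWithinAt_const.max (continuousWithinAt_const.mul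
        (continuousWithinAt_id.sub (hZ t ht)))).pow 2
    have e1 : (fun s => potTwo p A Wp Wm (Z s) s) = fun s => semi (Z s) ^ (p + 1) * (A (Z s) * (s - Z s) +
        (Wp (Z s) * (max 0 (1 * (s - Z s))) ^ 2 + Wm (Z s) * (max 0 (-1 * (s - Z s))) ^ 2) / Z s) := by
      funext s; rw [potTwo, one_mul, neg_one_mul, neg_sub]
    rw [e1]
    exact ((semi_continuous.continuousAt.comp_continuousWithinAt (hZ t ht)).pow _).mul
      ((((hA.comp hZ hmaps) t ht).mul (continuousWithinAt_id.sub (hZ t ht))).add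
        (((((hP.comp hZ hmaps) t ht).mul (u 1)).add (((hM.comp hZ hmaps) t ht).mul (u (-1)))).div
          (hZ t ht) hzp.ne'))

end Vale.Agent.P237.All.Transport
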