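import Vale.Agent.P237.All.Certificate

/-!
P237, every dimension: tools for pointwise certificates (`notes/P237h7/k0-analytic-02Dec.md`):
moments of powers of the semicircle, bounds on the deficit, and what `Reach` allows for `w = r⁻ᵖ`.
-/

noncomputable section

open MeasureTheory Set Filter Real intervalIntegral
open scoped Topology

namespace Vale.Agent.P237.All.Transport

variable {p : ℕ}

/-! ### Moments -/

/-- The area of a quarter of the unit disc. -/
theorem integral_semi_half : ∫ x in (0 : ℝ)..1, √(1 - x ^ 2) = π / 4 := by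
  have hc : Continuous fun x : ℝ => √(1 - x ^ 2) := by fun_prop
  have h := integral_sqrt_one_sub_sq
  rw [← integral_add_adjacent_intervals (hc.intervalIntegrable _ 0) (hc.intervalIntegrable 0 _)] at h
  have e : ∫ x in (-1 : ℝ)..0, √(1 - x ^ 2) = ∫ x in (0 : ℝ)..1, √(1 - x ^ 2) := by
    have e1 := intervalIntegral.integral_comp_neg (fun x : ℝ => √(1 - x ^ 2)) (a := 0) (b := 1)
    simp only [neg_sq, neg_zero] at e1
    exact e1.symm
  linarith

theorem semi_sq {t : ℝ} (ht : t ∈ Icc (-1 : ℝ) 1) : semi t ^ 2 = 1 - t ^ 2 :=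
  sq_sqrt (by nlinarith [ht.1, ht.2])

theorem semi_hasDerivAt {t : ℝ} (ht : t ∈ Ioo (-1 : ℝ) 1) :
    HasDerivAt semi (-t / semi t) t := by
  have h0 : (1 - t ^ 2 : ℝ) ≠ 0 := by nlinarith [ht.1, ht.2]
  refine (((hasDerivAt_id t).pow 2).const_sub 1 |>.sqrt h0).congr_deriv ?_
  have : √(1 - t ^ 2) ≠ 0 := (semi_pos ht).ne'
  simp only [semi, Pi.pow_apply, id_eq, Nat.cast_ofNat]
  field_simp
  simp

/-- The moment recursion of the powers of the semicircle. -/
theorem moment_step (p j : ℕ) :
    ((j : ℝ) + 1) * ∫ y in (0 : ℝ)..1, y ^ j * semi y ^ (p + 2) =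
      ((p : ℝ) + 2) * ∫ y in (0 : ℝ)..1, y ^ (j + 2) * semi y ^ p := by
  have hs := semi_continuous
  have hd : ∀ y ∈ Ioo (0 : ℝ) 1, HasDerivAt (fun y => y ^ (j + 1) * semi y ^ (p + 2))
      (((j : ℝ) + 1) * (y ^ j * semi y ^ (p + 2)) - ((p : ℝ) + 2) * (y ^ (j + 2) * semi y ^ p)) y := by
    intro y hy
    have hy' : y ∈ Ioo (-1 : ℝ) 1 := ⟨by linarith [hy.1], hy.2⟩
    have h := ((hasDerivAt_id y).pow (j + 1)).mul ((semi_hasDerivAt hy').pow (p + 2))
    refine h.congr_deriv ?_
    have := (semi_pos hy').ne'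
    simp only [Pi.pow_apply, Nat.add_sub_cancel, Nat.cast_add, Nat.cast_one, Nat.cast_ofNat, id_eq, mul_one,
      show p + 2 - 1 = p + 1 from rfl]
    field_simp
    ring
  have hi1 : IntervalIntegrable (fun y : ℝ => y ^ j * semi y ^ (p + 2)) volume 0 1 :=
    (by fun_prop : Continuous fun y : ℝ => y ^ j * semi y ^ (p + 2)).intervalIntegrable _ _
  have hi2 : IntervalIntegrable (fun y : ℝ => y ^ (j + 2) * semi y ^ p) volume 0 1 :=
    (by fun_prop : Continuous fun y : ℝ => y ^ (j + 2) * semi y ^ p).intervalIntegrable _ _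
  have h := integral_eq_sub_of_hasDerivAt_of_le zero_le_one
    (by fun_prop : Continuous fun y : ℝ => y ^ (j + 1) * semi y ^ (p + 2)).continuousOn hd
    ((hi1.const_mul _).sub (hi2.const_mul _))
  rw [intervalIntegral.integral_sub (hi1.const_mul _) (hi2.const_mul _),
    intervalIntegral.integral_const_mul, intervalIntegral.integral_const_mul] at h
  have e1 : semi 1 = 0 := by simp [semi]
  have e0 : (0 : ℝ) ^ (j + 1) = 0 := zero_pow (by omega)
  simp only [e1, one_pow, one_mul, zero_pow (show p + 2 ≠ 0 by omega), e0, zero_mul, sub_zero] at h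
  linarith

theorem mass_semi (p : ℕ) : mass p semi 1 = ∫ y in (0 : ℝ)..1, semi y ^ p := rfl

theorem mass_semi_step (p : ℕ) :
    mass (p + 2) semi 1 = ((p : ℝ) + 2) / ((p : ℝ) + 3) * mass p semi 1 := by
  have h := moment_step p 0
  have e : ∫ y in (0 : ℝ)..1, y ^ (0 + 2) * semi y ^ p = mass p semi 1 - mass (p + 2) semi 1 := by
    have hs := semi_continuous
    rw [mass_semi, mass_semi, ← intervalIntegral.integral_sub
      ((show Continuous fun y => semi y ^ p by fun_prop).intervalIntegrable _ _)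
      ((show Continuous fun y => semi y ^ (p + 2) by fun_prop).intervalIntegrable _ _)]
    refine intervalIntegral.integral_congr fun y hy => ?_
    rw [uIcc_of_le zero_le_one] at hy
    have := semi_sq (t := y) ⟨by linarith [hy.1], hy.2⟩
    simp only [pow_add, zero_add, this]
    ring
  simp only [pow_zero, one_mul, e, Nat.cast_zero, zero_add, ← mass_semi] at h
  have : (0 : ℝ) < (p : ℝ) + 3 := by positivity
  field_simp
  linarith

theorem moment_two (p : ℕ) :
    ∫ y in (0 : ℝ)..1, y ^ 2 * semi y ^ p = mass p semi 1 / ((p : ℝ) + 3) := by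
  have h := moment_step p 0
  simp only [pow_zero, one_mul, Nat.cast_zero, zero_add, ← mass_semi, mass_semi_step p] at h
  have h3 : (0 : ℝ) < (p : ℝ) + 3 := by positivity
  have h2 : (0 : ℝ) < (p : ℝ) + 2 := by positivity
  field_simp at h ⊢
  nlinarith

theorem moment_four (p : ℕ) :
    ∫ y in (0 : ℝ)..1, y ^ 4 * semi y ^ p = 3 * mass p semi 1 / (((p : ℝ) + 3) * ((p : ℝ) + 5)) := by
  have h := moment_step p 2
  have h' := moment_two (p + 2)
  rw [h', mass_semi_step p] at h
  have h2 : (0 : ℝ) < (p : ℝ) + 2 := by positivity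
  have h3 : (0 : ℝ) < (p : ℝ) + 3 := by positivity
  have h5 : (0 : ℝ) < (p : ℝ) + 5 := by positivity
  push_cast at h
  field_simp at h ⊢
  ring_nf at h ⊢
  nlinarith

theorem mass_semi_anti (p : ℕ) : mass (p + 1) semi 1 ≤ mass p semi 1 :=
  intervalIntegral.integral_mono_on zero_le_one ((semi_continuous.pow _).intervalIntegrable _ _)
    ((semi_continuous.pow _).intervalIntegrable _ _) fun y hy =>
      pow_le_pow_of_le_one (Real.sqrt_nonneg _) (Real.sqrt_le_one.2 (by nlinarith [sq_nonneg y]))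
        (by omega)

/-- The Wallis product. -/
theorem mass_semi_mul (p : ℕ) :
    mass p semi 1 * mass (p + 1) semi 1 = π / (2 * ((p : ℝ) + 2)) := by
  induction p with
  | zero =>
    have h0 : mass 0 semi 1 = 1 := by simp [mass]
    have h1 : mass 1 semi 1 = π / 4 := by
      simp only [mass, pow_one]
      exact integral_semi_half
    rw [h0, h1]; push_cast; ring
  | succ p ih =>
    rw [show p + 1 + 1 = p + 2 from rfl, mass_semi_step p]
    have h2 : (0 : ℝ) < (p : ℝ) + 2 := by positivity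
    have h3 : (0 : ℝ) < (p : ℝ) + 3 := by positivity
    rw [show mass (p + 1) semi 1 * (((p : ℝ) + 2) / ((p : ℝ) + 3) * mass p semi 1) =
      ((p : ℝ) + 2) / ((p : ℝ) + 3) * (mass p semi 1 * mass (p + 1) semi 1) by ring, ih]
    push_cast
    field_simp
    ring

/-! ### The deficit -/

/-- Bernoulli's remainder to second order. -/
theorem pow_ge_quadratic (n : ℕ) {δ : ℝ} (hδ : 0 ≤ δ) :
    1 + n * δ + n * ((n : ℝ) - 1) / 2 * δ ^ 2 ≤ (1 + δ) ^ n := by
  induction n with
  | zero => simp
  | succ n ih =>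
    have h := mul_le_mul_of_nonneg_right ih (by linarith : (0 : ℝ) ≤ 1 + δ)
    rw [← pow_succ] at h
    refine le_trans ?_ h
    push_cast
    rcases Nat.eq_zero_or_pos n with rfl | hn
    · simp
    · have hn1 : (1 : ℝ) ≤ n := Nat.one_le_cast.2 hn
      nlinarith [mul_nonneg (mul_nonneg (by linarith : (0 : ℝ) ≤ (n : ℝ))
        (by linarith : (0 : ℝ) ≤ (n : ℝ) - 1)) (pow_nonneg hδ 3)]

/-- `1 - r⁻ᵖ` is at most `p δ`. -/
theorem one_sub_inv_pow_le (p : ℕ) {r : ℝ} (hr : 0 < r) :
    1 - (r ^ p)⁻¹ ≤ p * (r - 1) := by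
  rw [sub_le_iff_le_add]
  have hp : 0 < r ^ p := pow_pos hr p
  have hb := one_add_mul_le_pow (a := r⁻¹ - 1) (by linarith [inv_pos.2 hr]) p
  rw [add_sub_cancel, inv_pow] at hb
  have h2 : (2 : ℝ) ≤ r + r⁻¹ := by
    have := mul_inv_cancel₀ hr.ne'
    nlinarith [sq_nonneg (r - 1), inv_pos.2 hr]
  nlinarith [mul_le_mul_of_nonneg_left h2 (Nat.cast_nonneg p : (0 : ℝ) ≤ p)]

theorem pow_mul_id (p : ℕ) {r : ℝ} (hr : 0 < r) :
    r ^ (p + 1) - 1 - ((p : ℝ) + 1) * (r - 1) + ((r ^ p)⁻¹ - 1 + p * (r - 1)) =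
      ((r ^ p)⁻¹ - 1) ^ 2 / (r ^ p)⁻¹ + (r - 1) * (r ^ p - 1) := by
  have := (pow_pos hr p).ne'
  field_simp
  ring

/-- The excess of `r ^ (p + 1)` over its tangent, in `v = r ^ p`. -/
theorem pow_excess_ge (p : ℕ) (hp : 1 ≤ p) {r : ℝ} (hr : 0 ≤ r) (hr1 : r ≤ 1) :
    (1 - r ^ p) ^ 2 / (1 + r ^ p) ≤ r ^ (p + 1) - 1 - ((p : ℝ) + 1) * (r - 1) := by
  have hv0 : 0 ≤ r ^ p := pow_nonneg hr p
  rw [div_le_iff₀ (by linarith)]
  set S := ∑ i ∈ Finset.range p, r ^ i with hS
  have hgeom : (1 - r) * S = 1 - r ^ p := by rw [hS, mul_comm, geom_sum_mul_neg]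
  -- the geometric sum is at most the trapezoid
  have htrap : 2 * S ≤ p * (1 + r ^ (p - 1)) := by
    have e : 2 * S = ∑ i ∈ Finset.range p, (r ^ i + r ^ (p - 1 - i)) := by
      rw [Finset.sum_add_distrib, two_mul, Finset.sum_range_reflect (fun i => r ^ i) p]
    rw [e, show (p : ℝ) * (1 + r ^ (p - 1)) = ∑ _i ∈ Finset.range p, (1 + r ^ (p - 1)) by
      simp [mul_add]]
    refine Finset.sum_le_sum fun i hi => ?_
    have hi' := Finset.mem_range.1 hi
    have h1 := pow_le_one₀ hr hr1 (n := i)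
    have h2 := pow_le_one₀ hr hr1 (n := p - 1 - i)
    have h3 : r ^ (p - 1) = r ^ i * r ^ (p - 1 - i) := by rw [← pow_add]; congr 1; omega
    nlinarith
  have hlow : (p : ℝ) * r ^ (p - 1) ≤ S := by
    rw [show (p : ℝ) * r ^ (p - 1) = ∑ _i ∈ Finset.range p, r ^ (p - 1) by simp]
    exact Finset.sum_le_sum fun i hi =>
      pow_le_pow_of_le_one hr hr1 (by have := Finset.mem_range.1 hi; omega)
  have hk : (p : ℝ) * (r ^ (p - 1) - r ^ p) ≤ 1 - (r ^ p) ^ 2 := by
    have hrp : r ^ p = r * r ^ (p - 1) := by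
      rw [← pow_succ']; congr 1; omega
    calc (p : ℝ) * (r ^ (p - 1) - r ^ p) = (1 - r) * ((p : ℝ) * r ^ (p - 1)) := by rw [hrp]; ring
      _ ≤ (1 - r) * S := mul_le_mul_of_nonneg_left hlow (by linarith)
      _ = 1 - r ^ p := hgeom
      _ ≤ _ := by nlinarith [pow_le_one₀ hr hr1 (n := p)]
  have key : 2 * S ≤ ((p : ℝ) + 1 - r ^ p) * (1 + r ^ p) := by nlinarith
  calc (1 - r ^ p) ^ 2 = (1 - r) * S * (1 - r ^ p) := by rw [hgeom]; ring
    _ ≤ (1 - r) * (((p : ℝ) + 1 - r ^ p) * (1 + r ^ p)) - (1 - r ^ p) * (1 + r ^ p) := by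
        have := mul_le_mul_of_nonneg_left key (by linarith : (0 : ℝ) ≤ 1 - r)
        linear_combination this - (1 + r ^ p) * hgeom
    _ = _ := by rw [pow_succ]; ring

/-! ### What `Reach` allows -/

/-- The denominator of the tail bound, over the central mass. -/
def tailDen (p : ℕ) (y : ℝ) : ℝ :=
  mass p semi 1 * (((p : ℝ) + 2) * y + √((p : ℝ) + 2))

theorem tailDen_pos (p : ℕ) {y : ℝ} (hy : 0 ≤ y) : 0 < tailDen p y :=
  mul_pos (mass_one_pos isProfile_semi p) (by positivity)

/-- The tail of the mass of a power of the semicircle from below. -/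
theorem tail_ge (p : ℕ) {y : ℝ} (hy : y ∈ Icc (0 : ℝ) 1) :
    semi y ^ (p + 2) / tailDen p y ≤ tailFrac p y := by
  have hP := mass_one_pos isProfile_semi p
  set A : ℝ := (p : ℝ) + 2 with hA
  set G : ℝ → ℝ := fun u => mass p semi 1 - mass p semi u - semi u ^ (p + 2) / (A * u + √A) with hG
  have hA0 : 0 < A := by positivity
  have hden : ∀ u, 0 ≤ u → 0 < A * u + √A := fun u hu => by positivity
  have hc : ContinuousOn G (Icc 0 1) := by
    refine ((continuousOn_const.sub (Continuous.continuousOn (continuous_iff_continuousAt.2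
      fun u => (semi_mass_hasDerivAt p u).continuousAt))).sub
      (((semi_continuous.pow _).continuousOn).div (by fun_prop) fun u hu => (hden u hu.1).ne'))
  have hd : ∀ u ∈ Ioo (0 : ℝ) 1, HasDerivAt G
      (-semi u ^ p + semi u ^ p * (A * u * (A * u + √A) + A * (1 - u ^ 2)) / (A * u + √A) ^ 2) u := by
    intro u hu
    have hu' : u ∈ Ioo (-1 : ℝ) 1 := ⟨by linarith [hu.1], hu.2⟩
    have h := ((semi_mass_hasDerivAt p u).const_sub (mass p semi 1)).sub
      (((semi_hasDerivAt hu').pow (p + 2)).div (((hasDerivAt_id u).const_mul A).add_const √A)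
        (hden u hu.1.le).ne')
    refine h.congr_deriv ?_
    have hs0 := (semi_pos hu').ne'
    have hsq := semi_sq (t := u) (Ioo_subset_Icc_self hu')
    have hd0 := (hden u hu.1.le).ne'
    simp only [Pi.pow_apply, id_eq, mul_one, show p + 2 - 1 = p + 1 from rfl, Nat.cast_add,
      Nat.cast_ofNat, ← hsq, ← hA]
    field_simp
    ring
  have hanti : AntitoneOn G (Icc 0 1) := by
    refine antitoneOn_of_deriv_nonpos (convex_Icc _ _) hc ?_ ?_
    · intro u hu; rw [interior_Icc] at hu; exact (hd u hu).differentiableAt.differentiableWithinAt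
    · intro u hu
      rw [interior_Icc] at hu
      rw [(hd u hu).deriv, neg_add_nonpos_iff, mul_div_assoc]
      refine mul_le_of_le_one_right (pow_nonneg (Real.sqrt_nonneg _) _) ?_
      rw [div_le_one (pow_pos (hden u hu.1.le) 2)]
      have hq := sq_sqrt hA0.le
      nlinarith [mul_nonneg (mul_nonneg hA0.le hu.1.le) (Real.sqrt_nonneg A),
        mul_nonneg hA0.le (sq_nonneg u)]
  have h := hanti hy (right_mem_Icc.2 zero_le_one) hy.2
  have h1 : G 1 = 0 := by
    simp [hG, show semi 1 = 0 by simp [semi], zero_pow (show p + 2 ≠ 0 by omega)]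
  rw [h1] at h
  rw [tailDen, tailFrac, ← hA, mul_comm (mass p semi 1), ← div_div]
  exact div_le_div_of_nonneg_right (by simp only [hG] at h; linarith) hP.le

theorem mass_ratio_le (p : ℕ) :
    mass p semi 1 / mass (p + 1) semi 1 ≤ exp (1 / (2 * ((p : ℝ) + 1))) := by
  have h0 := mass_one_pos isProfile_semi p
  have h1 := mass_one_pos isProfile_semi (p + 1)
  have hsq : (mass p semi 1 / mass (p + 1) semi 1) ^ 2 ≤ 1 + 1 / ((p : ℝ) + 1) := by
    rw [div_pow, div_le_iff₀ (pow_pos h1 2)]
    rcases p with _ | q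
    · have e0 : mass 0 semi 1 = 1 := by simp [mass]
      have e1 : mass 1 semi 1 = π / 4 := by
        simp only [mass, pow_one]; exact integral_semi_half
      rw [e0, e1]
      nlinarith [Real.pi_gt_three]
    · -- Cauchy-Schwarz through the Wallis products
      have a := mass_semi_mul q
      have b := mass_semi_mul (q + 1)
      have hq := mass_one_pos isProfile_semi q
      have hq1 := mass_one_pos isProfile_semi (q + 1)
      have hle := mass_semi_anti q
      have step := mass_semi_step q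
      have q2 : (0 : ℝ) < (q : ℝ) + 2 := by positivity
      have q3 : (0 : ℝ) < (q : ℝ) + 3 := by positivity
      rw [show q + 1 + 1 = q + 2 from rfl, step]
      have hcs : mass (q + 1) semi 1 ^ 2 ≤ mass q semi 1 * mass (q + 2) semi 1 := by
        set P0 := mass q semi 1
        set P1 := mass (q + 1) semi 1
        set P2 := mass (q + 2) semi 1
        have hs := semi_continuous
        have hi : ∀ n, IntervalIntegrable (fun y => semi y ^ n) volume 0 1 := fun n =>
          (show Continuous fun y => semi y ^ n by fun_prop).intervalIntegrable _ _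
        have h : ∀ u : ℝ, 0 ≤ u ^ 2 * P0 - 2 * u * P1 + P2 := fun u => by
          have h0 : 0 ≤ ∫ y in (0 : ℝ)..1, semi y ^ q * (u - semi y) ^ 2 :=
            intervalIntegral.integral_nonneg zero_le_one fun y _ =>
              mul_nonneg (pow_nonneg (Real.sqrt_nonneg _) _) (sq_nonneg _)
          refine h0.trans (le_of_eq ?_)
          rw [show (fun y => semi y ^ q * (u - semi y) ^ 2) = fun y =>
            u ^ 2 * semi y ^ q - 2 * u * semi y ^ (q + 1) + semi y ^ (q + 2) by funext y; ring,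
            intervalIntegral.integral_add (((hi q).const_mul _).sub ((hi _).const_mul _)) (hi _),
            intervalIntegral.integral_sub ((hi q).const_mul _) ((hi _).const_mul _),
            intervalIntegral.integral_const_mul, intervalIntegral.integral_const_mul]
          rfl
        have h' := h (P1 / P0)
        field_simp at h'
        nlinarith
      rw [step] at hcs
      push_cast
      field_simp at hcs ⊢
      nlinarith
  have hexp : 1 + 1 / ((p : ℝ) + 1) ≤ exp (1 / (2 * ((p : ℝ) + 1))) ^ 2 := by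
    rw [sq, ← Real.exp_add, show 1 / (2 * ((p : ℝ) + 1)) + 1 / (2 * ((p : ℝ) + 1)) = 1 / ((p : ℝ) + 1) by
      field_simp; ring]
    linarith [Real.add_one_le_exp (1 / ((p : ℝ) + 1))]
  exact (pow_le_pow_iff_left₀ (by positivity) (exp_pos _).le two_ne_zero).1 (hsq.trans hexp)

/-- `Reach` bounds `w = r⁻ᵖ` through any lower bound `v₀` on the tail. -/
theorem reach_log_le' (p : ℕ) {y r v₀ : ℝ} (hy : y ∈ Ioo (0 : ℝ) 1) (hr : 0 < r) (h : Reach p y r)
    (hv0 : 0 < v₀) (hvv : v₀ ≤ tailFrac p y) :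
    -((p : ℝ) * log r) ≤ (p : ℝ) * (log (semi y) + 1 / (2 * ((p : ℝ) + 1)) -
      log v₀ / ((p : ℝ) + 1) - (1 - v₀) / ((p : ℝ) + 2)) := by
  have hs := semi_pos (t := y) ⟨by linarith [hy.1], hy.2⟩
  have h0 := mass_one_pos isProfile_semi p
  have h1 := mass_one_pos isProfile_semi (p + 1)
  set m : ℝ := (p : ℝ) + 1 with hm
  have hm0 : 0 < m := by positivity
  have hA : (p : ℝ) + 2 = m + 1 := by rw [hm]; ring
  rw [Reach, hA] at h
  rw [hA]
  set v := tailFrac p y with hv
  have hvp : 0 < v := hv0.trans_le hvv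
  have hv1 : v ≤ 1 := by
    rw [hv, tailFrac, div_le_one h0]
    have : 0 ≤ mass p semi y := intervalIntegral.integral_nonneg hy.1.le fun u _ =>
      pow_nonneg (Real.sqrt_nonneg _) _
    linarith
  set e := 1 / m with he
  -- the bracket
  have hbr : v + m * v ^ (-e) ≤ (m + 1) * exp (-(e * log v) - (1 - v) / (m + 1)) := by
    have hpow : v ^ (-e) = exp (-(e * log v)) := by rw [rpow_def_of_pos hvp]; congr 1; ring
    rw [sub_eq_add_neg, Real.exp_add, ← hpow]
    have hge : 1 ≤ v ^ (-e) := Real.one_le_rpow_of_pos_of_le_one_of_nonpos hvp hv1 (by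
      rw [neg_nonpos]; positivity)
    have hexp : 1 - (1 - v) / (m + 1) ≤ exp (-((1 - v) / (m + 1))) := by
      linarith [Real.add_one_le_exp (-((1 - v) / (m + 1)))]
    refine le_trans ?_ (mul_le_mul_of_nonneg_left
      (mul_le_mul_of_nonneg_left hexp (by positivity)) (by positivity))
    have : (m + 1) * (v ^ (-e) * (1 - (1 - v) / (m + 1))) = v ^ (-e) * (m + v) := by
      field_simp; ring
    rw [this]
    nlinarith [mul_le_mul_of_nonneg_left hge hvp.le]
  have hmono : -(e * log v) - (1 - v) / (m + 1) ≤ -(e * log v₀) - (1 - v₀) / (m + 1) := by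
    have hlog : 1 - v₀ / v ≤ log v - log v₀ := by
      rw [← Real.log_div hvp.ne' hv0.ne']
      have := Real.one_sub_inv_le_log_of_pos (div_pos hvp hv0)
      rwa [inv_div] at this
    have he0 : 0 ≤ e := by positivity
    have h2 : (v - v₀) / (m + 1) ≤ e * (1 - v₀ / v) := by
      rw [he, one_sub_div hvp.ne', div_mul_div_comm, one_mul,
        div_le_div_iff₀ (by positivity) (by positivity)]
      refine mul_le_mul_of_nonneg_left ?_ (sub_nonneg.2 hvv)
      nlinarith
    have h3 := mul_le_mul_of_nonneg_left hlog he0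
    rw [show (1 - v) / (m + 1) = (1 - v₀) / (m + 1) - (v - v₀) / (m + 1) by ring]
    linarith
  have hlow : mass (p + 1) semi 1 ≤
      semi y * r * mass p semi 1 * exp (-(e * log v₀) - (1 - v₀) / (m + 1)) := by
    refine le_of_mul_le_mul_right ?_ (by positivity : (0 : ℝ) < m + 1)
    refine h.trans ((mul_le_mul_of_nonneg_left (hbr.trans
      (mul_le_mul_of_nonneg_left (exp_le_exp.2 hmono) (by positivity))) (by positivity)).trans
      (le_of_eq ?_))
    ring
  have hl := Real.log_le_log h1 hlow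
  rw [log_mul (by positivity) (exp_pos _).ne', log_exp, log_mul (by positivity) h0.ne',
    log_mul hs.ne' hr.ne'] at hl
  have hρ : log (mass p semi 1) - log (mass (p + 1) semi 1) ≤ 1 / (2 * m) := by
    rw [← Real.log_div h0.ne' h1.ne']
    exact (Real.log_le_iff_le_exp (div_pos h0 h1)).2 (mass_ratio_le p)
  refine (mul_le_mul_of_nonneg_left (show -log r ≤ log (semi y) + 1 / (2 * m) - log v₀ / m -
    (1 - v₀) / (m + 1) by
      rw [show log v₀ / m = e * log v₀ by rw [he]; ring]; linarith) (Nat.cast_nonneg p)).trans_eq' ?_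
  ring

/-- `Reach` bounds `w = r⁻ᵖ`. -/
theorem reach_log_le (p : ℕ) {y r : ℝ} (hy : y ∈ Ioo (0 : ℝ) 1) (hr : 0 < r) (h : Reach p y r) :
    -((p : ℝ) * log r) ≤ (p : ℝ) / ((p : ℝ) + 1) * (1 / 2 + log (tailDen p y) - log (semi y)) -
      (p : ℝ) / ((p : ℝ) + 2) * (1 - semi y ^ (p + 2) / tailDen p y) := by
  have hs := semi_pos (t := y) ⟨by linarith [hy.1], hy.2⟩
  have hD := tailDen_pos p hy.1.le
  refine (reach_log_le' p hy hr h (div_pos (pow_pos hs _) hD)
    (tail_ge p (Ioo_subset_Icc_self hy))).trans_eq ?_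
  rw [Real.log_div (pow_pos hs _).ne' hD.ne', Real.log_pow]
  push_cast
  field_simp
  ring

end Vale.Agent.P237.All.Transport
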