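import Vale.Agent.P237.All.Transport

/-!
P237, every dimension: the cap on `w` that knows the excess mass (`notes/P237h8/clever-02Dec.md`).
Concavity of `f ^ (p + 1)` in the tail mass, `semi ≤ f` and the total mass bound the profile from
below at the tail point of `y` through any point `u` of the sphere profile.
-/

noncomputable section

open MeasureTheory Set Filter Real intervalIntegral

namespace Vale.Agent.P237.All.Transport

variable {f : ℝ → ℝ}

/-- The cap: for every admissible comparison point `u`. -/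
def TailCap (p : ℕ) (y r lam : ℝ) : Prop :=
  ∀ u ∈ Ico (0 : ℝ) 1, mass p semi u ≤ lam ^ p * mass p semi y →
    semi u ^ (p + 1) * (lam ^ p * (mass p semi 1 - mass p semi y)) ≤
      (lam * semi y * r) ^ (p + 1) * (lam ^ p * mass p semi 1 - mass p semi u)

theorem semi_mass_le (hf : IsProfile f) (p : ℕ) {u : ℝ} (hu : u ∈ Icc (0 : ℝ) 1) :
    mass p semi u ≤ mass p f u :=
  intervalIntegral.integral_mono_on_of_le_Ioo hu.1
    ((semi_continuous.pow p).intervalIntegrable _ _)
    (int_pow hf p (by norm_num) ⟨by linarith [hu.1], hu.2⟩) fun v hv =>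
      pow_le_pow_left₀ (Real.sqrt_nonneg _) (hf.2.2 v ⟨by linarith [hv.1], hv.2.trans_le hu.2⟩) p

/-- The profile at `t` dominates the line through any earlier or later comparison point. -/
theorem tail_cap (hf : IsProfile f) (p : ℕ) {t u : ℝ} (ht : t ∈ Ico (0 : ℝ) 1) (hu : u ∈ Ico (0 : ℝ) 1)
    (h : mass p semi u ≤ mass p f t) :
    semi u ^ (p + 1) * (mass p f 1 - mass p f t) ≤ f t ^ (p + 1) * (mass p f 1 - mass p semi u) := by
  have hmem : ∀ v, 0 ≤ v → v < 1 → v ∈ Ioo (-1 : ℝ) 1 := fun v a b => ⟨by linarith, b⟩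
  have hsu : semi u ^ (p + 1) ≤ f u ^ (p + 1) :=
    pow_le_pow_left₀ (Real.sqrt_nonneg _) (hf.2.2 u (hmem u hu.1 hu.2)) _
  have hft := (profile_pos hf (hmem t ht.1 ht.2)).le
  have hT : 0 ≤ mass p f 1 - mass p f t := by
    rw [mass, mass, intervalIntegral.integral_interval_sub_left (int_pow hf p (by norm_num) (by norm_num))
      (int_pow hf p (by norm_num) ⟨by linarith [ht.1], ht.2.le⟩)]
    exact intervalIntegral.integral_nonneg_of_ae_restrict ht.2.le
      ((ae_restrict_iff' measurableSet_Icc).2 (by
        filter_upwards [compl_mem_ae_iff.2 (measure_singleton (1 : ℝ))] with v h1 hv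
        exact pow_nonneg (profile_pos hf (hmem v (ht.1.trans hv.1) (lt_of_le_of_ne hv.2 h1))).le _))
  rcases le_total u t with hut | htu
  · refine le_trans (mul_le_mul_of_nonneg_right hsu hT) ?_
    have h' := pow_tail_le hf p hu.1 hut ht.2
    have hm := mul_le_mul_of_nonneg_left (semi_mass_le hf p ⟨hu.1, hu.2.le⟩) (pow_nonneg hft (p + 1))
    linear_combination h' + hm
  · refine le_trans (mul_le_mul_of_nonneg_right (hsu.trans
      (pow_le_pow_left₀ (profile_pos hf (hmem u hu.1 hu.2)).le (profile_anti hf ht.1 htu hu.2) _)) hT) ?_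
    exact mul_le_mul_of_nonneg_left (by linarith) (pow_nonneg hft _)

/-- The cap along the transport. -/
theorem tailCap_transport (hf : IsProfile f) (p : ℕ) {t y r lam : ℝ} (ht : t ∈ Ico (0 : ℝ) 1)
    (hmy : lam ^ p * mass p semi y = mass p f t) (hF : mass p f 1 = lam ^ p * mass p semi 1)
    (hft : f t = lam * semi y * r) : TailCap p y r lam := by
  intro u hu h
  rw [mul_sub, ← hF, hmy, ← hft]
  exact tail_cap hf p ht hu (hmy ▸ h)

end Vale.Agent.P237.All.Transport
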