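import Vale.Agent.P237.All.Transport
import Vale.Agent.P237.All.TailCap

/-!
P237, every dimension: the profile bound from a pointwise certificate
(`notes/P237h7/k0-calibration-02Dec.md`).  A certificate at the common integral `J` is a test
`φ = (1 + β) Y - β t`, a multiplier `ell`, a potential `V (y, t)` and a bound `Pi (y)` with negative
integral; the pointwise inequality only has to hold at the `(y, t, r, lam)` that a profile failing
the bound can reach.
-/

noncomputable section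

open MeasureTheory Set Filter Real intervalIntegral
open scoped Topology

namespace Vale.Agent.P237.All.Transport

variable {f : ℝ → ℝ} {p : ℕ}

/-- The fraction of the mass of `semi ^ p` beyond `y`. -/
def tailFrac (p : ℕ) (y : ℝ) : ℝ := (mass p semi 1 - mass p semi y) / mass p semi 1

/-- What concavity and a failed bound leave possible for `r = f / (lam semi)` at `y`. -/
def Reach (p : ℕ) (y r : ℝ) : Prop :=
  mass (p + 1) semi 1 * ((p : ℝ) + 2) ≤ semi y * r * mass p semi 1 *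
    (tailFrac p y + ((p : ℝ) + 1) * tailFrac p y ^ (-(1 / ((p : ℝ) + 1))))

/-- The density of the combined inequality at `(y, t, r)`. -/
def density (p : ℕ) (a g d β ell lam c2 y t r : ℝ) : ℝ :=
  semi y ^ (p + 1) * (ell * (r - 1) +
    r * (a * (((p : ℝ) + 3) * t ^ 2 - lam ^ 2 * semi y ^ 2 * r ^ 2) +
      g * (((p : ℝ) + 4) * t ^ 2 - c2) -
      d * ((2 - 2 * t * ((1 + β) * y - β * t)) * ((1 + β) * r ^ p - β) -
        ((p : ℝ) + 2) * ((1 + β) * y - β * t) ^ 2 - 1)))

/-- A certificate in dimension `p + 1` at the common integral `J`. -/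
structure Cert (p : ℕ) (J a g d : ℝ) where
  β : ℝ
  ell : ℝ
  ell_nonneg : 0 ≤ ell
  V : ℝ → ℝ → ℝ
  Vy : ℝ → ℝ → ℝ
  Vt : ℝ → ℝ → ℝ
  Pi : ℝ → ℝ
  chain : ∀ (Z : ℝ → ℝ) (Z' t : ℝ), t ∈ Ioo (0 : ℝ) 1 → Z t ∈ Ioo (0 : ℝ) 1 → HasDerivAt Z Z' t →
    HasDerivAt (fun s => V (Z s) s) (Vy (Z t) t * Z' + Vt (Z t) t) t
  along : ∀ Z : ℝ → ℝ, ContinuousOn Z (Icc 0 1) → Z 0 = 0 → (∃ α > 0, ∀ t ∈ Icc (0 : ℝ) 1, α * t ≤ Z t) →
    (∀ t ∈ Icc (0 : ℝ) 1, Z t ≤ 1) → ContinuousOn (fun t => V (Z t) t) (Icc 0 1)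
  V_zero : V 0 0 = 0
  V_one : V 1 1 = 0
  Pi_cont : ContinuousOn Pi (Icc 0 1)
  Pi_neg : ∫ y in (0 : ℝ)..1, Pi y < 0
  point : ∀ y ∈ Ioo (0 : ℝ) 1, ∀ t ∈ Ioo (0 : ℝ) 1, ∀ r lam : ℝ, 0 < r → 1 ≤ lam →
    lam ^ (p + 1) * (2 * mass (p + 1) semi 1) ≤ J → semi t ≤ lam * semi y * r → Reach p y r →
    mass p semi t ≤ lam ^ p * mass p semi y →
    mass p semi 1 - mass p semi t ≤ lam ^ p * (mass p semi 1 - mass p semi y) →
    TailCap p y r lam →
    density p a g d β ell lam ((J / ∫ s in (-1 : ℝ)..1, semi s ^ (p + 1)) ^ (2 / ((p : ℝ) + 2))) y t r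
      + Vy y t + Vt y t / r ^ p ≤ Pi y

theorem isProfile_semi : IsProfile semi := by
  refine ⟨⟨convex_Ioo _ _, fun x hx y hy a b ha hb hab => ?_⟩,
    fun t _ => by simp [semi], fun t _ => le_rfl⟩
  have hx' : 0 ≤ 1 - x ^ 2 := by nlinarith [hx.1, hx.2]
  have hy' : 0 ≤ 1 - y ^ 2 := by nlinarith [hy.1, hy.2]
  simp only [smul_eq_mul, semi]
  have sx := sq_sqrt hx'
  have sy := sq_sqrt hy'
  have hxy : x * y + √(1 - x ^ 2) * √(1 - y ^ 2) ≤ 1 := by
    nlinarith [sq_nonneg (x - y), sq_nonneg (√(1 - x ^ 2) - √(1 - y ^ 2))]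
  refine Real.le_sqrt_of_sq_le ?_
  have hb' : b = 1 - a := by linarith
  subst hb'
  linear_combination 2 * mul_le_mul_of_nonneg_left hxy (mul_nonneg ha hb) + a ^ 2 * sx + (1 - a) ^ 2 * sy

section Approx

variable (hf : IsProfile f) (p)

/-- The derivative of the transport. -/
def dY (f : ℝ → ℝ) (t : ℝ) : ℝ := f t ^ p / (scale p f * semi (Y p f t) ^ p)

/-- A continuous cut of the derivative of the transport. -/
def cutY (f : ℝ → ℝ) (n : ℕ) (s : ℝ) : ℝ :=
  max 0 (min 1 (((n : ℝ) + 2) * (1 - |s|) - 1)) *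
    dY p f (max (-(1 - 1 / ((n : ℝ) + 2))) (min (1 - 1 / ((n : ℝ) + 2)) s))

include hf

theorem dY_nonneg {t : ℝ} (ht : t ∈ Ioo (-1 : ℝ) 1) : 0 ≤ dY p f t :=
  div_nonneg (pow_nonneg (profile_pos hf ht).le _)
    (mul_nonneg (scale_pos hf p).le (pow_nonneg (semi_pos (Y_mem hf p ht)).le _))

theorem dY_continuousOn : ContinuousOn (dY p f) (Ioo (-1) 1) :=
  ((profile_continuousOn hf).pow p).div
    (continuousOn_const.mul ((semi_continuous.comp_continuousOn
      ((Y_continuousOn hf p).mono Ioo_subset_Icc_self)).pow p))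
    fun t ht => (mul_pos (scale_pos hf p) (pow_pos (semi_pos (Y_mem hf p ht)) _)).ne'

theorem dY_integrable : IntervalIntegrable (dY p f) volume (-1) 1 := by
  have h := integrableOn_deriv_of_nonneg (Y_continuousOn hf p)
    (fun t ht => Y_hasDerivAt hf p ht) fun t ht => dY_nonneg p hf ht
  exact (intervalIntegrable_iff_integrableOn_Ioc_of_le (by norm_num)).2 h

theorem dY_integral {a b : ℝ} (ha : a ∈ Icc (-1 : ℝ) 1) (hb : b ∈ Icc (-1 : ℝ) 1) (hab : a ≤ b) :
    ∫ s in a..b, dY p f s = Y p f b - Y p f a :=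
  integral_eq_sub_of_hasDerivAt_of_le hab ((Y_continuousOn hf p).mono (Icc_subset_Icc ha.1 hb.2))
    (fun t ht => Y_hasDerivAt hf p ⟨ha.1.trans_lt ht.1, ht.2.trans_le hb.2⟩)
    ((dY_integrable p hf).mono_set (by
      rw [uIcc_of_le hab, uIcc_of_le (by norm_num : (-1 : ℝ) ≤ 1)]; exact Icc_subset_Icc ha.1 hb.2))

theorem cutY_continuous (n : ℕ) : Continuous (cutY p f n) := by
  refine Continuous.mul (by fun_prop) ((dY_continuousOn p hf).comp_continuous (by fun_prop) fun s => ?_)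
  have h : (0 : ℝ) < 1 / ((n : ℝ) + 2) := by positivity
  have h' : 1 / ((n : ℝ) + 2) < 1 := by
    rw [div_lt_one (by positivity)]; linarith [(Nat.cast_nonneg n : (0 : ℝ) ≤ n)]
  exact ⟨lt_of_lt_of_le (by linarith) (le_max_left _ _),
    max_lt (by linarith) (lt_of_le_of_lt (min_le_left _ _) (by linarith))⟩

theorem cutY_mem {n : ℕ} {s : ℝ} (hs : s ∈ Ioo (-1 : ℝ) 1) :
    0 ≤ cutY p f n s ∧ cutY p f n s ≤ dY p f s := by
  set c := max 0 (min 1 (((n : ℝ) + 2) * (1 - |s|) - 1)) with hc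
  have hc0 : 0 ≤ c := le_max_left _ _
  have hc1 : c ≤ 1 := max_le zero_le_one (min_le_left _ _)
  by_cases h : |s| ≤ 1 - 1 / ((n : ℝ) + 2)
  · have e : max (-(1 - 1 / ((n : ℝ) + 2))) (min (1 - 1 / ((n : ℝ) + 2)) s) = s := by
      rw [min_eq_right (le_abs_self s |>.trans h), max_eq_right (neg_le.1 ((neg_le_abs s).trans h))]
    rw [cutY, e, ← hc]
    exact ⟨mul_nonneg hc0 (dY_nonneg p hf hs), mul_le_of_le_one_left (dY_nonneg p hf hs) hc1⟩
  · have : ((n : ℝ) + 2) * (1 - |s|) - 1 ≤ 0 := by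
      push Not at h
      have hn : (0 : ℝ) < (n : ℝ) + 2 := by positivity
      have h2 : 1 - |s| < 1 / ((n : ℝ) + 2) := by linarith
      rw [lt_div_iff₀ hn] at h2
      linarith
    rw [cutY, max_eq_left ((min_le_right _ _).trans this), zero_mul]
    exact ⟨le_rfl, dY_nonneg p hf hs⟩

theorem cutY_tendsto {s : ℝ} (hs : s ∈ Ioo (-1 : ℝ) 1) :
    Tendsto (fun n => cutY p f n s) atTop (𝓝 (dY p f s)) := by
  have h1 : 0 < 1 - |s| := sub_pos.2 (abs_lt.2 hs)
  obtain ⟨N, hN⟩ := exists_nat_ge (2 / (1 - |s|))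
  refine tendsto_const_nhds.congr' ?_
  filter_upwards [eventually_ge_atTop N] with n hn
  have h2 : 2 ≤ ((n : ℝ) + 2) * (1 - |s|) := by
    rw [div_le_iff₀ h1] at hN
    have : (N : ℝ) ≤ n := Nat.cast_le.2 hn
    nlinarith
  have h3 : |s| ≤ 1 - 1 / ((n : ℝ) + 2) := by
    rw [le_sub_iff_add_le, ← le_sub_iff_add_le', div_le_iff₀ (by positivity)]
    linarith
  rw [cutY, min_eq_left (by linarith), max_eq_right zero_le_one, one_mul,
    min_eq_right (le_abs_self s |>.trans h3), max_eq_right (neg_le.1 ((neg_le_abs s).trans h3))]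

theorem cut_primitive {s : ℝ} (hs : s ∈ Icc (-1 : ℝ) 1) :
    (∀ n, |∫ u in (0 : ℝ)..s, cutY p f n u| ≤ 1) ∧
      Tendsto (fun n => ∫ u in (0 : ℝ)..s, cutY p f n u) atTop (𝓝 (Y p f s)) := by
  have hz : (0 : ℝ) ∈ Icc (-1 : ℝ) 1 := by norm_num
  have hsub : uIcc 0 s ⊆ uIcc (-1 : ℝ) 1 :=
    uIcc_subset_uIcc (by rw [uIcc_of_le (by norm_num : (-1 : ℝ) ≤ 1)]; exact hz)
      (by rw [uIcc_of_le (by norm_num : (-1 : ℝ) ≤ 1)]; exact hs)
  have hint := (dY_integrable p hf).mono_set hsub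
  have hmem : ∀ᵐ u, u ∈ uIoc 0 s → u ∈ Ioo (-1 : ℝ) 1 := by
    filter_upwards [compl_mem_ae_iff.2 (measure_singleton (1 : ℝ)),
      compl_mem_ae_iff.2 (measure_singleton (-1 : ℝ))] with u h1 h2 hu
    have := hsub (uIoc_subset_uIcc hu)
    rw [uIcc_of_le (by norm_num : (-1 : ℝ) ≤ 1)] at this
    exact ⟨lt_of_le_of_ne this.1 (Ne.symm h2), lt_of_le_of_ne this.2 h1⟩
  have e : ∫ u in (0 : ℝ)..s, dY p f u = Y p f s := by
    rcases le_total 0 s with h | h
    · rw [dY_integral p hf hz hs h, Y_zero hf, sub_zero]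
    · rw [intervalIntegral.integral_symm, dY_integral p hf hs hz h, Y_zero hf]; ring
  refine ⟨fun n => ?_, ?_⟩
  · have hY : |Y p f s| ≤ 1 := by
      have h1 := Y_one hf p
      have hn := Y_neg hf p (t := 1) (by norm_num)
      have hmono := (Y_strictMonoOn hf p).monotoneOn
      rw [abs_le]
      constructor
      · have := hmono (by norm_num) hs hs.1
        rwa [hn, h1] at this
      · have := hmono hs (by norm_num) hs.2
        rwa [h1] at this
    refine le_trans ?_ hY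
    rw [← e]
    rcases le_total 0 s with h | h
    · rw [abs_of_nonneg, abs_of_nonneg]
      · refine intervalIntegral.integral_mono_ae_restrict h ((cutY_continuous p hf n).intervalIntegrable _ _)
          hint ((ae_restrict_iff' measurableSet_Icc).2 ?_)
        filter_upwards [hmem, compl_mem_ae_iff.2 (measure_singleton (0 : ℝ))] with u hu h0 hI
        exact (cutY_mem p hf (hu (by rw [uIoc_of_le h]; exact ⟨lt_of_le_of_ne hI.1 (Ne.symm h0), hI.2⟩))).2
      · rw [dY_integral p hf hz hs h]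
        exact sub_nonneg.2 ((Y_strictMonoOn hf p).monotoneOn hz hs h)
      · refine intervalIntegral.integral_nonneg_of_ae_restrict h ((ae_restrict_iff' measurableSet_Icc).2 ?_)
        filter_upwards [hmem, compl_mem_ae_iff.2 (measure_singleton (0 : ℝ))] with u hu h0 hI
        exact (cutY_mem p hf (hu (by rw [uIoc_of_le h]; exact ⟨lt_of_le_of_ne hI.1 (Ne.symm h0), hI.2⟩))).1
    · rw [intervalIntegral.integral_symm, abs_neg, intervalIntegral.integral_symm s 0, abs_neg,
        abs_of_nonneg, abs_of_nonneg]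
      · refine intervalIntegral.integral_mono_ae_restrict h ((cutY_continuous p hf n).intervalIntegrable _ _)
          hint.symm ((ae_restrict_iff' measurableSet_Icc).2 ?_)
        filter_upwards [hmem, compl_mem_ae_iff.2 (measure_singleton s)] with u hu h0 hI
        exact (cutY_mem p hf (hu (by rw [uIoc_of_ge h]; exact ⟨lt_of_le_of_ne hI.1 (Ne.symm h0), hI.2⟩))).2
      · rw [dY_integral p hf hs hz h]
        exact sub_nonneg.2 ((Y_strictMonoOn hf p).monotoneOn hs hz h)
      · refine intervalIntegral.integral_nonneg_of_ae_restrict h ((ae_restrict_iff' measurableSet_Icc).2 ?_)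
        filter_upwards [hmem, compl_mem_ae_iff.2 (measure_singleton s)] with u hu h0 hI
        exact (cutY_mem p hf (hu (by rw [uIoc_of_ge h]; exact ⟨lt_of_le_of_ne hI.1 (Ne.symm h0), hI.2⟩))).1
  · rw [← e]
    refine intervalIntegral.tendsto_integral_filter_of_dominated_convergence (dY p f)
      (Eventually.of_forall fun n => (cutY_continuous p hf n).aestronglyMeasurable)
      (Eventually.of_forall fun n => ?_) hint ?_
    · filter_upwards [hmem] with u hu hI
      rw [Real.norm_eq_abs, abs_of_nonneg (cutY_mem p hf (hu hI)).1]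
      exact (cutY_mem p hf (hu hI)).2
    · filter_upwards [hmem] with u hu hI
      exact cutY_tendsto p hf (hu hI)

end Approx

/-- The integral of an even function. -/
theorem integral_of_even {h : ℝ → ℝ} (hi : IntervalIntegrable h volume (-1) 1)
    (he : ∀ t ∈ Ioo (-1 : ℝ) 1, h (-t) = h t) :
    (∫ t in (-1 : ℝ)..1, h t) = 2 * ∫ t in (0 : ℝ)..1, h t := by
  have h0 : (0 : ℝ) ∈ uIcc (-1 : ℝ) 1 := by rw [uIcc_of_le (by norm_num)]; norm_num
  rw [← integral_add_adjacent_intervals (hi.mono_set (uIcc_subset_uIcc left_mem_uIcc h0))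
    (hi.mono_set (uIcc_subset_uIcc h0 right_mem_uIcc))]
  have e := intervalIntegral.integral_comp_neg h (a := 0) (b := 1)
  rw [neg_zero] at e
  rw [← e, two_mul]
  congr 1
  refine intervalIntegral.integral_congr_ae ?_
  filter_upwards [compl_mem_ae_iff.2 (measure_singleton (1 : ℝ))] with t h1 ht
  rw [uIoc_of_le (by norm_num : (0 : ℝ) ≤ 1)] at ht
  exact he t ⟨by linarith [ht.1], lt_of_le_of_ne ht.2 h1⟩

/-- The test carried by the transport. -/
def testFn (p : ℕ) (f : ℝ → ℝ) (β t : ℝ) : ℝ := (1 + β) * Y p f t - β * t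

/-- Its derivative. -/
def testDer (p : ℕ) (f : ℝ → ℝ) (β t : ℝ) : ℝ := (1 + β) * dY p f t - β

/-- The integrand of the Fisher term at that test. -/
def fisherFn (p : ℕ) (f : ℝ → ℝ) (β t : ℝ) : ℝ :=
  (2 * testDer p f β t - ((p : ℝ) + 2) * testFn p f β t ^ 2 -
    2 * t * testFn p f β t * testDer p f β t) * f t ^ (p + 1)

/-- The mixed test at the test carried by the transport. -/
theorem mixed_limit {a b d : ℝ → ℝ} (hf : IsProfile f) (hmix : MixedTest (p + 1) a b d f) (β : ℝ) :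
    IntervalIntegrable (fisherFn p f β) volume (-1) 1 ∧
      0 ≤ a (∫ t in (-1 : ℝ)..1, f t ^ (p + 1)) * varTerm (p + 1) f +
        b (∫ t in (-1 : ℝ)..1, f t ^ (p + 1)) * globalTerm (p + 1) f -
        d (∫ t in (-1 : ℝ)..1, f t ^ (p + 1)) *
          ((∫ t in (-1 : ℝ)..1, fisherFn p f β t) - ∫ t in (-1 : ℝ)..1, f t ^ (p + 1)) := by
  set J := ∫ t in (-1 : ℝ)..1, f t ^ (p + 1) with hJdef
  show IntervalIntegrable (fun t => (2 * ((1 + β) * dY p f t - β) -
      ((p : ℝ) + 2) * ((1 + β) * Y p f t - β * t) ^ 2 -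
      2 * t * ((1 + β) * Y p f t - β * t) * ((1 + β) * dY p f t - β)) * f t ^ (p + 1)) volume (-1) 1 ∧
    0 ≤ a J * varTerm (p + 1) f + b J * globalTerm (p + 1) f -
      d J * ((∫ t in (-1 : ℝ)..1, (2 * ((1 + β) * dY p f t - β) -
        ((p : ℝ) + 2) * ((1 + β) * Y p f t - β * t) ^ 2 -
        2 * t * ((1 + β) * Y p f t - β * t) * ((1 + β) * dY p f t - β)) * f t ^ (p + 1)) - J)
  set ψ : ℝ → ℝ := fun t => (1 + β) * Y p f t - β * t with hψ
  set ψ' : ℝ → ℝ := fun t => (1 + β) * dY p f t - β with hψ'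
  set Fi : ℝ → ℝ := fun t =>
    (2 * ψ' t - ((p : ℝ) + 2) * ψ t ^ 2 - 2 * t * ψ t * ψ' t) * f t ^ (p + 1) with hFi
  have hab : uIcc (-1 : ℝ) 1 = Icc (-1) 1 := uIcc_of_le (by norm_num)
  have hae : ∀ᵐ t, t ∈ uIoc (-1 : ℝ) 1 → t ∈ Ioo (-1 : ℝ) 1 := by
    filter_upwards [compl_mem_ae_iff.2 (measure_singleton (1 : ℝ))] with t h1 ht
    rw [uIoc_of_le (by norm_num : (-1 : ℝ) ≤ 1)] at ht
    exact ⟨ht.1, lt_of_le_of_ne ht.2 h1⟩
  set B := |1 + β| + |β| with hB
  set bd : ℝ → ℝ := fun t =>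
    ((2 + 2 * B) * (|1 + β| * dY p f t + |β|) + ((p : ℝ) + 2) * B ^ 2) * f 0 ^ (p + 1) with hbd
  have hbdi : IntervalIntegrable bd volume (-1) 1 :=
    (((((dY_integrable p hf).const_mul _).add intervalIntegrable_const).const_mul _).add
      intervalIntegrable_const).mul_const _
  have hYabs : ∀ t ∈ Ioo (-1 : ℝ) 1, |Y p f t| ≤ 1 := fun t ht =>
    (abs_lt.2 (Y_mem hf p ht)).le
  have hbound : ∀ t ∈ Ioo (-1 : ℝ) 1, ∀ P Q : ℝ, |P| ≤ B → |Q| ≤ |1 + β| * dY p f t + |β| →
      ‖(2 * Q - ((p : ℝ) + 2) * P ^ 2 - 2 * t * P * Q) * f t ^ (p + 1)‖ ≤ bd t := by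
    intro t ht P Q hP hQ
    have hB0 : 0 ≤ B := (abs_nonneg P).trans hP
    have hQ0 : 0 ≤ |1 + β| * dY p f t + |β| := (abs_nonneg Q).trans hQ
    rw [Real.norm_eq_abs, abs_mul, abs_of_nonneg (pow_nonneg (profile_pos hf ht).le _)]
    refine mul_le_mul ?_ (pow_le_pow_left₀ (profile_pos hf ht).le (profile_le hf ht) _)
      (pow_nonneg (profile_pos hf ht).le _) (by positivity)
    have h2 : |2 * t * P * Q| ≤ 2 * B * (|1 + β| * dY p f t + |β|) := by
      rw [abs_mul, abs_mul, abs_mul, abs_two]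
      refine mul_le_mul ?_ hQ (abs_nonneg _) (by positivity)
      calc 2 * |t| * |P| ≤ 2 * 1 * B := by
            refine mul_le_mul ?_ hP (abs_nonneg _) (by norm_num)
            exact mul_le_mul_of_nonneg_left (abs_lt.2 ht).le (by norm_num)
        _ = 2 * B := by ring
    have h3 : P ^ 2 ≤ B ^ 2 := by
      rw [← sq_abs]; exact pow_le_pow_left₀ (abs_nonneg _) hP 2
    have h4 : (0 : ℝ) ≤ (p : ℝ) + 2 := by positivity
    rw [abs_le]
    constructor <;> nlinarith [abs_le.1 hQ, abs_le.1 h2, mul_le_mul_of_nonneg_left h3 h4,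
      mul_nonneg h4 (sq_nonneg P)]
  have hψB : ∀ t ∈ Ioo (-1 : ℝ) 1, ∀ u : ℝ, |u| ≤ 1 → |(1 + β) * u - β * t| ≤ B := by
    intro t ht u hu
    refine (abs_sub _ _).trans (add_le_add ?_ ?_) <;> rw [abs_mul]
    · exact mul_le_of_le_one_right (abs_nonneg _) hu
    · exact mul_le_of_le_one_right (abs_nonneg _) (abs_lt.2 ht).le
  have hQB : ∀ t ∈ Ioo (-1 : ℝ) 1, ∀ u : ℝ, 0 ≤ u → u ≤ dY p f t →
      |(1 + β) * u - β| ≤ |1 + β| * dY p f t + |β| := by
    intro t _ u h0 h1
    refine (abs_sub _ _).trans (add_le_add ?_ le_rfl)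
    rw [abs_mul, abs_of_nonneg h0]
    exact mul_le_mul_of_nonneg_left h1 (abs_nonneg _)
  have hψc : ContinuousOn ψ (Ioo (-1) 1) :=
    (continuousOn_const.mul ((Y_continuousOn hf p).mono Ioo_subset_Icc_self)).sub
      (continuousOn_const.mul continuousOn_id)
  have hψ'c : ContinuousOn ψ' (Ioo (-1) 1) :=
    (continuousOn_const.mul (dY_continuousOn p hf)).sub continuousOn_const
  have hFic : ContinuousOn Fi (Ioo (-1) 1) :=
    (((continuousOn_const.mul hψ'c).sub (continuousOn_const.mul (hψc.pow 2))).sub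
      (((continuousOn_const.mul continuousOn_id).mul hψc).mul hψ'c)).mul
      ((profile_continuousOn hf).pow _)
  have hFii : IntervalIntegrable Fi volume (-1) 1 := by
    refine hbdi.mono_fun' ?_ ?_
    · rw [uIoc_of_le (by norm_num : (-1 : ℝ) ≤ 1), ← restrict_Ioo_eq_restrict_Ioc]
      exact hFic.aestronglyMeasurable measurableSet_Ioo
    · refine (ae_restrict_iff' measurableSet_uIoc).2 ?_
      filter_upwards [hae] with t ht hI
      exact hbound t (ht hI) _ _ (hψB t (ht hI) _ (hYabs t (ht hI)))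
        (hQB t (ht hI) _ (dY_nonneg p hf (ht hI)) le_rfl)
  have hcut : ∀ n s, HasDerivAt (fun s => (1 + β) * (∫ u in (0 : ℝ)..s, cutY p f n u) - β * s)
      ((1 + β) * cutY p f n s - β) s := fun n s => by
    have h := (integral_hasDerivAt_right ((cutY_continuous p hf n).intervalIntegrable 0 s)
      ((cutY_continuous p hf n).stronglyMeasurableAtFilter _ _)
      (cutY_continuous p hf n).continuousAt).const_mul (1 + β)
    exact ((h.sub ((hasDerivAt_id s).const_mul β)).congr_deriv (by rw [mul_one])).congr_of_eventuallyEq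
      (Eventually.of_forall fun u => by simp)
  have hlim : Tendsto (fun n => fisherTerm (p + 1) f
      (fun s => (1 + β) * (∫ u in (0 : ℝ)..s, cutY p f n u) - β * s)
      (fun s => (1 + β) * cutY p f n s - β)) atTop (𝓝 ((∫ t in (-1 : ℝ)..1, Fi t) - J)) := by
    unfold fisherTerm
    refine Tendsto.sub_const ?_ _
    refine intervalIntegral.tendsto_integral_filter_of_dominated_convergence bd
      (Eventually.of_forall fun n => ?_) (Eventually.of_forall fun n => ?_) hbdi ?_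
    · have hc : Continuous fun s => (1 + β) * (∫ u in (0 : ℝ)..s, cutY p f n u) - β * s :=
        continuous_iff_continuousAt.2 fun s => (hcut n s).continuousAt
      have hc' := cutY_continuous p hf n
      have h1 : Continuous fun t => 2 * ((1 + β) * cutY p f n t - β) -
          (((p + 1 : ℕ) : ℝ) + 1) * ((1 + β) * (∫ u in (0 : ℝ)..t, cutY p f n u) - β * t) ^ 2 -
          2 * t * ((1 + β) * (∫ u in (0 : ℝ)..t, cutY p f n u) - β * t) *
            ((1 + β) * cutY p f n t - β) := by fun_prop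
      rw [uIoc_of_le (by norm_num : (-1 : ℝ) ≤ 1), ← restrict_Ioo_eq_restrict_Ioc]
      exact (h1.continuousOn.mul ((profile_continuousOn hf).pow _)).aestronglyMeasurable
        measurableSet_Ioo
    · filter_upwards [hae] with t ht hI
      push_cast
      rw [show (p : ℝ) + 1 + 1 = (p : ℝ) + 2 by ring]
      exact hbound t (ht hI) _ _
        (hψB t (ht hI) _ ((cut_primitive p hf (Ioo_subset_Icc_self (ht hI))).1 n))
        (hQB t (ht hI) _ (cutY_mem p hf (ht hI)).1 (cutY_mem p hf (ht hI)).2)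
    · filter_upwards [hae] with t ht hI
      have h1 := (((cut_primitive p hf (Ioo_subset_Icc_self (ht hI))).2.const_mul (1 + β)).sub_const
        (β * t))
      have h2 := ((cutY_tendsto p hf (ht hI)).const_mul (1 + β)).sub_const β
      have h3 := (((h2.const_mul 2).sub ((h1.pow 2).const_mul (((p + 1 : ℕ) : ℝ) + 1))).sub
        ((h1.const_mul (2 * t)).mul h2)).mul_const (f t ^ (p + 1))
      have e : Fi t = (2 * ((1 + β) * dY p f t - β) -
          (((p + 1 : ℕ) : ℝ) + 1) * ((1 + β) * Y p f t - β * t) ^ 2 -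
          2 * t * ((1 + β) * Y p f t - β * t) * ((1 + β) * dY p f t - β)) * f t ^ (p + 1) := by
        simp only [hFi, hψ, hψ']; push_cast; ring
      rw [e]; exact h3
  have hmain : 0 ≤ a J * varTerm (p + 1) f + b J * globalTerm (p + 1) f -
      d J * ((∫ t in (-1 : ℝ)..1, Fi t) - J) :=
    ge_of_tendsto' ((hlim.const_mul (d J)).const_sub _) fun n =>
      hmix _ _ (hcut n) (((continuous_const.mul (cutY_continuous p hf n))).sub continuous_const)
  exact ⟨hFii, hmain⟩

section Range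

variable (hf : IsProfile f) (p)

include hf

theorem Y_mapsTo : ContinuousOn (Y p f) (Icc 0 1) ∧ MapsTo (Y p f) (Icc 0 1) (Icc 0 1) := by
  have h01 : (1 : ℝ) ∈ Icc (-1 : ℝ) 1 := by norm_num
  have h00 : (0 : ℝ) ∈ Icc (-1 : ℝ) 1 := by norm_num
  have hYc : ContinuousOn (Y p f) (Icc 0 1) :=
    (Y_continuousOn hf p).mono (Icc_subset_Icc (by norm_num) le_rfl)
  have hmono := (Y_strictMonoOn hf p).monotoneOn
  have hY01 : MapsTo (Y p f) (Icc 0 1) (Icc 0 1) := fun t ht => by
    have h1 := hmono h00 ⟨by linarith [ht.1], ht.2⟩ ht.1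
    have h2 := hmono ⟨by linarith [ht.1], ht.2⟩ h01 ht.2
    rw [Y_zero hf] at h1
    rw [Y_one hf] at h2
    exact ⟨h1, h2⟩
  exact ⟨hYc, hY01⟩

theorem mass_Y {t : ℝ} (ht : t ∈ Icc (0 : ℝ) 1) :
    mass p semi (Y p f t) = mass p f t / scale p f := by
  rw [← semiMass_eq (Icc_subset_Icc (by norm_num) le_rfl ((Y_mapsTo p hf).2 ht)), Y, semiMass_massInv]

theorem Y_ge_line : ∃ α > 0, ∀ t ∈ Icc (0 : ℝ) 1, α * t ≤ Y p f t := by
  have h00 : (0 : ℝ) ∈ Icc (-1 : ℝ) 1 := by norm_num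
  have hsc := scale_pos hf p
  have hY01 := (Y_mapsTo p hf).2
  have hmassY := fun t (ht : t ∈ Icc (0 : ℝ) 1) => mass_Y p hf ht
  have hα : ∃ α > 0, ∀ t ∈ Icc (0 : ℝ) 1, α * t ≤ Y p f t := by
    have hh : (0 : ℝ) < f (1 / 2) := profile_pos hf (by norm_num)
    refine ⟨f (1 / 2) ^ p / 2 / scale p f, by positivity, fun t ht => ?_⟩
    have hy := hY01 ht
    have h1 : mass p semi (Y p f t) ≤ Y p f t := by
      have h := intervalIntegral.integral_mono_on hy.1
        ((semi_continuous.pow p).intervalIntegrable (μ := volume) 0 (Y p f t))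
        (intervalIntegrable_const (c := (1 : ℝ))) fun u _ =>
          pow_le_one₀ (Real.sqrt_nonneg _) (Real.sqrt_le_one.2 (by nlinarith [sq_nonneg u]))
      simpa [mass] using h
    refine le_trans ?_ h1
    rw [hmassY t ht, div_mul_eq_mul_div]
    refine div_le_div_of_nonneg_right ?_ hsc.le
    set q := min t (1 / 2) with hq
    have hq0 : 0 ≤ q := le_min ht.1 (by norm_num)
    have hqI : q ∈ Icc (-1 : ℝ) 1 := ⟨by linarith, (min_le_right _ _).trans (by norm_num)⟩
    have htI : t ∈ Icc (-1 : ℝ) 1 := ⟨by linarith [ht.1], ht.2⟩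
    have h2 : t / 2 ≤ q := le_min (by linarith [ht.1]) (by linarith [ht.2])
    calc f (1 / 2) ^ p / 2 * t = t / 2 * f (1 / 2) ^ p := by ring
      _ ≤ q * f (1 / 2) ^ p := mul_le_mul_of_nonneg_right h2 (by positivity)
      _ = ∫ _ in (0 : ℝ)..q, f (1 / 2) ^ p := by simp
      _ ≤ ∫ u in (0 : ℝ)..q, f u ^ p := intervalIntegral.integral_mono_on hq0
          intervalIntegrable_const (int_pow hf p h00 hqI) fun u hu =>
            pow_le_pow_left₀ hh.le (profile_anti hf hu.1 (hu.2.trans (min_le_right _ _)) (by norm_num)) p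
      _ ≤ mass p f t := by
          rw [mass, ← integral_add_adjacent_intervals (int_pow hf p h00 hqI) (int_pow hf p hqI htI)]
          exact le_add_of_nonneg_right (intervalIntegral.integral_nonneg_of_ae_restrict (min_le_left _ _)
            ((ae_restrict_iff' measurableSet_Icc).2 (by
              filter_upwards [compl_mem_ae_iff.2 (measure_singleton (1 : ℝ))] with u h1' hu
              exact pow_nonneg (profile_pos hf ⟨by linarith [hu.1],
                lt_of_le_of_ne (hu.2.trans ht.2) h1'⟩).le _)))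
  exact hα

theorem Y_pos_mem {t : ℝ} (ht : t ∈ Ioo (0 : ℝ) 1) : Y p f t ∈ Ioo (0 : ℝ) 1 := by
  have h1 := Y_strictMonoOn hf p (by norm_num : (0 : ℝ) ∈ Icc (-1 : ℝ) 1)
    ⟨by linarith [ht.1], ht.2.le⟩ ht.1
  rw [Y_zero hf] at h1
  exact ⟨h1, (Y_mem hf p ⟨by linarith [ht.1], ht.2⟩).2⟩

theorem substitute : ∀ h : ℝ → ℝ, ContinuousOn h (Icc 0 1) →
    IntervalIntegrable (fun t => h (Y p f t) * dY p f t) volume 0 1 ∧
      ∫ t in (0 : ℝ)..1, h (Y p f t) * dY p f t = ∫ y in (0 : ℝ)..1, h y := by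
  have h01 : (1 : ℝ) ∈ Icc (-1 : ℝ) 1 := by norm_num
  have h00 : (0 : ℝ) ∈ Icc (-1 : ℝ) 1 := by norm_num
  have hab : uIcc (-1 : ℝ) 1 = Icc (-1) 1 := uIcc_of_le (by norm_num)
  obtain ⟨hYc, hY01⟩ := Y_mapsTo p hf
  have hFTC : ∀ h : ℝ → ℝ, ContinuousOn h (Icc 0 1) →
      IntervalIntegrable (fun t => h (Y p f t) * dY p f t) volume 0 1 ∧
      ∫ t in (0 : ℝ)..1, h (Y p f t) * dY p f t = ∫ y in (0 : ℝ)..1, h y := by
    intro h hh
    have hi : IntervalIntegrable (fun t => h (Y p f t) * dY p f t) volume 0 1 :=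
      ((dY_integrable p hf).mono_set (by
        rw [uIcc_of_le zero_le_one, hab]; exact Icc_subset_Icc (by norm_num) le_rfl)).continuousOn_mul
        (by rw [uIcc_of_le zero_le_one]; exact hh.comp hYc hY01)
    refine ⟨hi, ?_⟩
    have hpc : ContinuousOn (fun y => ∫ u in (0 : ℝ)..y, h u) (Icc 0 1) := by
      have := continuousOn_primitive_interval' (hh.intervalIntegrable_of_Icc zero_le_one (μ := volume))
        (left_mem_uIcc)
      rwa [uIcc_of_le zero_le_one] at this
    rw [integral_eq_sub_of_hasDerivAt_of_le zero_le_one (hpc.comp hYc hY01) ?_ hi]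
    · simp [Y_one hf, Y_zero hf]
    · intro t ht
      have hy : Y p f t ∈ Ioo (0 : ℝ) 1 := by
        have h1 := Y_strictMonoOn hf p h00 ⟨by linarith [ht.1], ht.2.le⟩ ht.1
        rw [Y_zero hf] at h1
        exact ⟨h1, (Y_mem hf p ⟨by linarith [ht.1], ht.2⟩).2⟩
      exact (integral_hasDerivAt_right
        ((hh.mono (Icc_subset_Icc le_rfl hy.2.le)).intervalIntegrable_of_Icc hy.1.le)
        ((hh.mono Ioo_subset_Icc_self).stronglyMeasurableAtFilter isOpen_Ioo _ hy)
        ((hh.mono Ioo_subset_Icc_self).continuousAt (isOpen_Ioo.mem_nhds hy))).comp t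
        (Y_hasDerivAt hf p ⟨by linarith [ht.1], ht.2⟩)
  exact hFTC

/-- The transported derivative is at most the bound of the certificate. -/
theorem deriv_le {J a g d : ℝ} (C : Cert p J a g d) {lam c2 t : ℝ} (hp : 1 ≤ p)
    (hlam1 : 1 ≤ lam) (hlp : lam ^ p = scale p f) (hJ : J = 2 * mass (p + 1) f 1)
    (hJle : lam ^ (p + 1) * (2 * mass (p + 1) semi 1) ≤ J)
    (hc2 : c2 = (J / ∫ s in (-1 : ℝ)..1, semi s ^ (p + 1)) ^ (2 / ((p : ℝ) + 2)))
    (ht : t ∈ Ioo (0 : ℝ) 1) :
    C.Vy (Y p f t) t * dY p f t + C.Vt (Y p f t) t ≤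
      C.Pi (Y p f t) * dY p f t + C.ell * (semi (Y p f t) ^ (p + 1) * dY p f t) -
        (lam ^ (p + 1))⁻¹ * (a * (((p : ℝ) + 3) * (t ^ 2 * f t ^ (p + 1)) - f t ^ (p + 3)) +
          g * (((p : ℝ) + 4) * (t ^ 2 * f t ^ (p + 1)) - c2 * f t ^ (p + 1)) -
          d * (fisherFn p f C.β t - f t ^ (p + 1)) + C.ell * f t ^ (p + 1)) := by
  have hlam0 : 0 < lam := by linarith
  have hL : 0 < lam ^ (p + 1) := pow_pos hlam0 _
  have htm : t ∈ Ioo (-1 : ℝ) 1 := ⟨by linarith [ht.1], ht.2⟩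
  have hy := Y_pos_mem p hf ht
  set y := Y p f t with hydef
  have hSy : 0 < semi y := semi_pos ⟨by linarith [hy.1], hy.2⟩
  set r := f t / (lam * semi y) with hr
  have hr0 : 0 < r := div_pos (profile_pos hf htm) (by positivity)
  have hft : f t = lam * semi y * r := by rw [hr]; field_simp
  have hdY : dY p f t = r ^ p := by rw [dY, ← hydef, ← hlp, hr, div_pow, mul_pow]
  have hFp : mass p f 1 = lam ^ p * mass p semi 1 := by
    rw [hlp, scale, div_mul_cancel₀ _ (mass_one_pos isProfile_semi p).ne']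
  have hreach : Reach p y r := by
    have h := next_mass_le hf p ht.1.le ht.2
    have hv : (mass p f 1 - mass p f t) / mass p f 1 = tailFrac p y := by
      rw [tailFrac, mass_Y p hf ⟨ht.1.le, ht.2.le⟩, hFp, ← hlp]
      field_simp
    rw [hv, hft, hFp] at h
    refine le_of_mul_le_mul_left ?_ hL
    calc lam ^ (p + 1) * (mass (p + 1) semi 1 * ((p : ℝ) + 2))
        = lam ^ (p + 1) * mass (p + 1) semi 1 * ((p : ℝ) + 2) := by ring
      _ ≤ mass (p + 1) f 1 * ((p : ℝ) + 2) :=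
          mul_le_mul_of_nonneg_right (by linarith only [hJle, hJ]) (by positivity)
      _ ≤ _ := h.trans (le_of_eq (by rw [pow_succ]; ring))
  have h01' : (1 : ℝ) ∈ Icc (-1 : ℝ) 1 := by norm_num
  have h00' : (0 : ℝ) ∈ Icc (-1 : ℝ) 1 := by norm_num
  have htI : t ∈ Icc (-1 : ℝ) 1 := Ioo_subset_Icc_self htm
  have hmy : lam ^ p * mass p semi y = mass p f t := by
    rw [mass_Y p hf ⟨ht.1.le, ht.2.le⟩, hlp, mul_div_cancel₀ _ (scale_pos hf p).ne']
  have hm1 : mass p semi t ≤ lam ^ p * mass p semi y := hmy ▸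
    intervalIntegral.integral_mono_on_of_le_Ioo ht.1.le (int_pow isProfile_semi p h00' htI)
      (int_pow hf p h00' htI) fun u hu => pow_le_pow_left₀ (Real.sqrt_nonneg _)
        (hf.2.2 u ⟨by linarith [hu.1], hu.2.trans ht.2⟩) p
  have hm2 : mass p semi 1 - mass p semi t ≤ lam ^ p * (mass p semi 1 - mass p semi y) := by
    rw [mul_sub, ← hFp, hmy]
    simp only [mass]
    rw [intervalIntegral.integral_interval_sub_left (int_pow isProfile_semi p h00' h01')
      (int_pow isProfile_semi p h00' htI), intervalIntegral.integral_interval_sub_left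
      (int_pow hf p h00' h01') (int_pow hf p h00' htI)]
    exact intervalIntegral.integral_mono_on_of_le_Ioo ht.2.le (int_pow isProfile_semi p htI h01')
      (int_pow hf p htI h01') fun u hu => pow_le_pow_left₀ (Real.sqrt_nonneg _)
        (hf.2.2 u ⟨by linarith [hu.1, ht.1], hu.2⟩) p
  have h := C.point y hy t ⟨ht.1, ht.2⟩ r lam hr0 hlam1 hJle ((hf.2.2 t htm).trans_eq hft) hreach
    hm1 hm2 (tailCap_transport hf p ⟨ht.1.le, ht.2⟩ hmy hFp hft)
  rw [← hc2] at h
  have hrp : 0 < r ^ p := pow_pos hr0 p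
  have h' := mul_le_mul_of_nonneg_right h hrp.le
  rw [add_mul, add_mul, div_mul_cancel₀ _ hrp.ne'] at h'
  have hid : (lam ^ (p + 1))⁻¹ * (a * (((p : ℝ) + 3) * (t ^ 2 * f t ^ (p + 1)) - f t ^ (p + 3)) +
          g * (((p : ℝ) + 4) * (t ^ 2 * f t ^ (p + 1)) - c2 * f t ^ (p + 1)) -
          d * (fisherFn p f C.β t - f t ^ (p + 1)) + C.ell * f t ^ (p + 1)) -
        C.ell * (semi y ^ (p + 1) * r ^ p) =
      density p a g d C.β C.ell lam c2 y t r * r ^ p := by
    simp only [fisherFn, testFn, testDer, ← hydef, hdY, hft, density]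
    field_simp
    ring
  rw [hdY]
  linarith only [hid, h']

end Range

/-- The profile bound from a certificate at the common integral of the profile. -/
theorem profileBound_of_cert (hp : 1 ≤ p) {a b d : ℝ → ℝ} (hf : IsProfile f)
    (hmix : MixedTest (p + 1) a b d f)
    (C : Cert p (∫ t in (-1 : ℝ)..1, f t ^ (p + 1)) (a (∫ t in (-1 : ℝ)..1, f t ^ (p + 1)))
      (b (∫ t in (-1 : ℝ)..1, f t ^ (p + 1))) (d (∫ t in (-1 : ℝ)..1, f t ^ (p + 1)))) :
    ProfileBound (p + 1) f := by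
  set J := ∫ t in (-1 : ℝ)..1, f t ^ (p + 1) with hJdef
  have hs := isProfile_semi
  have hJ0 := integral_even hs (p + 1)
  have hI0 := integral_even hs p
  have hI := integral_even hf p
  have hJ : J = 2 * mass (p + 1) f 1 := integral_even hf (p + 1)
  simp only [ProfileBound, Nat.add_sub_cancel, ← hJdef, hI, hI0, hJ0]
  suffices h : (2 * mass p semi 1) ^ (p + 1) * J ^ p <
      (2 * mass p f 1) ^ (p + 1) * (2 * mass (p + 1) semi 1) ^ p from
    ⟨h.le, fun e => absurd e h.ne'⟩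
  by_contra hfail
  push Not at hfail
  have hGp := mass_one_pos hs p
  have hGm := mass_one_pos hs (p + 1)
  have hFm := mass_one_pos hf (p + 1)
  have hsc := scale_pos hf p
  set lam := scale p f ^ ((p : ℝ)⁻¹) with hlam
  have hlam0 : 0 < lam := Real.rpow_pos_of_pos hsc _
  have hlp : lam ^ p = scale p f := Real.rpow_inv_natCast_pow hsc.le (by omega)
  have hFp : mass p f 1 = lam ^ p * mass p semi 1 := by rw [hlp, scale, div_mul_cancel₀ _ hGp.ne']
  have h01 : (1 : ℝ) ∈ Icc (-1 : ℝ) 1 := by norm_num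
  have h00 : (0 : ℝ) ∈ Icc (-1 : ℝ) 1 := by norm_num
  have hlam1 : 1 ≤ lam := by
    refine (one_le_pow_iff_of_nonneg hlam0.le (by omega : p ≠ 0)).1 ?_
    rw [hlp, scale, one_le_div hGp]
    exact intervalIntegral.integral_mono_on_of_le_Ioo zero_le_one (int_pow hs p h00 h01)
      (int_pow hf p h00 h01) fun t ht => pow_le_pow_left₀ (Real.sqrt_nonneg _)
        (hf.2.2 t ⟨by linarith [ht.1], ht.2⟩) p
  have hJle : lam ^ (p + 1) * (2 * mass (p + 1) semi 1) ≤ J := by
    refine (pow_le_pow_iff_left₀ (by positivity) (by rw [hJ]; positivity) (by omega : p ≠ 0)).1 ?_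
    refine le_of_mul_le_mul_left ?_ (pow_pos (by positivity : (0 : ℝ) < 2 * mass p semi 1) (p + 1))
    refine le_trans (le_of_eq ?_) hfail
    rw [hFp, mul_pow, mul_pow, mul_pow, mul_pow, mul_pow, ← pow_mul, ← pow_mul, mul_comm (p + 1) p]
    ring
  -- the test
  set β := C.β
  set c2 := (J / ∫ s in (-1 : ℝ)..1, semi s ^ (p + 1)) ^ (2 / ((p : ℝ) + 2)) with hc2
  obtain ⟨hFii, hmain⟩ := mixed_limit hf hmix β
  rw [← hJdef] at hmain
  set Fi := fisherFn p f β with hFi
  have hab : uIcc (-1 : ℝ) 1 = Icc (-1) 1 := uIcc_of_le (by norm_num)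
  -- one combined integrand
  set Φ : ℝ → ℝ := fun t => a J * (((p : ℝ) + 3) * (t ^ 2 * f t ^ (p + 1)) - f t ^ (p + 3)) +
      b J * (((p : ℝ) + 4) * (t ^ 2 * f t ^ (p + 1)) - c2 * f t ^ (p + 1)) -
      d J * (Fi t - f t ^ (p + 1)) with hΦ
  have hn1 : (-1 : ℝ) ∈ Icc (-1 : ℝ) 1 := by norm_num
  have i1 := int_pow hf (p + 1) hn1 h01
  have i3 := int_pow hf (p + 3) hn1 h01
  have i2 : IntervalIntegrable (fun t => t ^ 2 * f t ^ (p + 1)) volume (-1) 1 :=
    i1.continuousOn_mul (by fun_prop)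
  have iA := ((i2.const_mul ((p : ℝ) + 3)).sub i3).const_mul (a J)
  have iB := ((i2.const_mul ((p : ℝ) + 4)).sub (i1.const_mul c2)).const_mul (b J)
  have iC := (hFii.sub i1).const_mul (d J)
  have hΦi : IntervalIntegrable Φ volume (-1) 1 := (iA.add iB).sub iC
  have hΦint : 0 ≤ ∫ t in (-1 : ℝ)..1, Φ t := by
    refine le_trans hmain (le_of_eq ?_)
    rw [hΦ, intervalIntegral.integral_sub (iA.add iB) iC, intervalIntegral.integral_add iA iB,
      intervalIntegral.integral_const_mul, intervalIntegral.integral_const_mul,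
      intervalIntegral.integral_const_mul, intervalIntegral.integral_sub (i2.const_mul _) i3,
      intervalIntegral.integral_sub (i2.const_mul _) (i1.const_mul _),
      intervalIntegral.integral_sub hFii i1, intervalIntegral.integral_const_mul,
      intervalIntegral.integral_const_mul, intervalIntegral.integral_const_mul]
    simp only [varTerm, globalTerm, hc2, ← hJdef]
    push_cast
    rw [show (p : ℝ) + 1 + 2 = (p : ℝ) + 3 by ring, show (p : ℝ) + 1 + 3 = (p : ℝ) + 4 by ring,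
      show (p : ℝ) + 1 + 1 = (p : ℝ) + 2 by ring]
  have heven : ∀ t ∈ Ioo (-1 : ℝ) 1, Φ (-t) = Φ t := by
    intro t ht
    have hY := Y_neg hf p (Ioo_subset_Icc_self ht)
    have hfn := hf.2.1 t ht
    have hS : semi (-Y p f t) = semi (Y p f t) := by simp [semi]
    simp only [hΦ, hFi, fisherFn, testFn, testDer, dY, hY, hfn, hS]
    ring
  rw [integral_of_even hΦi heven] at hΦint
  have hΦ0 : IntervalIntegrable Φ volume 0 1 := hΦi.mono_set (by
    rw [uIcc_of_le zero_le_one, hab]; exact Icc_subset_Icc (by norm_num) le_rfl)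
  -- comparison with the certificate
  obtain ⟨hYc, hY01⟩ := Y_mapsTo p hf
  have hgc := C.along _ hYc (Y_zero hf p) (Y_ge_line p hf) fun t ht => (hY01 ht).2
  obtain ⟨hPi1, hPi2⟩ := substitute p hf C.Pi C.Pi_cont
  obtain ⟨hSm1, hSm2⟩ := substitute p hf (fun y => semi y ^ (p + 1)) (semi_continuous.pow _).continuousOn
  have j1 := int_pow hf (p + 1) h00 h01
  have hL : 0 < lam ^ (p + 1) := pow_pos hlam0 _
  set G : ℝ → ℝ := fun t => C.Pi (Y p f t) * dY p f t +
      C.ell * (semi (Y p f t) ^ (p + 1) * dY p f t) -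
      (lam ^ (p + 1))⁻¹ * (Φ t + C.ell * f t ^ (p + 1)) with hG
  have hGi : IntervalIntegrable G volume 0 1 :=
    (hPi1.add (hSm1.const_mul _)).sub ((hΦ0.add (j1.const_mul _)).const_mul _)
  have hle := intervalIntegral.sub_le_integral_of_hasDeriv_right_of_le (g := fun t => C.V (Y p f t) t)
    (g' := fun t => C.Vy (Y p f t) t * dY p f t + C.Vt (Y p f t) t) (φ := G) zero_le_one hgc
    (fun t ht => ?_) ((intervalIntegrable_iff_integrableOn_Icc_of_le zero_le_one).1 hGi) (fun t ht => ?_)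
  · rw [Y_one hf, Y_zero hf, C.V_one, C.V_zero, sub_zero, hG,
      intervalIntegral.integral_sub (hPi1.add (hSm1.const_mul _)) ((hΦ0.add (j1.const_mul _)).const_mul _),
      intervalIntegral.integral_add hPi1 (hSm1.const_mul _), intervalIntegral.integral_const_mul,
      intervalIntegral.integral_const_mul, intervalIntegral.integral_add hΦ0 (j1.const_mul _),
      intervalIntegral.integral_const_mul, hPi2, hSm2] at hle
    change 0 ≤ (∫ y in (0 : ℝ)..1, C.Pi y) + C.ell * mass (p + 1) semi 1 -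
      (lam ^ (p + 1))⁻¹ * ((∫ t in (0 : ℝ)..1, Φ t) + C.ell * mass (p + 1) f 1) at hle
    have h1 : mass (p + 1) semi 1 ≤ (lam ^ (p + 1))⁻¹ * mass (p + 1) f 1 := by
      rw [le_inv_mul_iff₀ hL]; linarith only [hJle, hJ]
    have h2 := mul_nonneg (inv_nonneg.2 hL.le)
      (show 0 ≤ ∫ t in (0 : ℝ)..1, Φ t by linarith only [hΦint])
    have h3 := mul_le_mul_of_nonneg_left h1 C.ell_nonneg
    linarith only [C.Pi_neg, hle, h2, h3]
  · exact (C.chain _ _ t ht (Y_pos_mem p hf ht)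
      (Y_hasDerivAt hf p ⟨by linarith [ht.1], ht.2⟩)).hasDerivWithinAt
  · exact deriv_le p hf C hp hlam1 hlp hJ hJle hc2 ht

end Vale.Agent.P237.All.Transport
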