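import Vale.Agent.P237.All.Reduction
import Vale.Agent.P237.Three.Statement
import Vale.Agent.P237.Sharp.Ellipsoid
import Mathlib.Analysis.Convex.Topology

/-!
P237, every dimension: Petty's inequality with its equality case from the key lemma, and the
induction on the dimension from the base three.
-/

noncomputable section

open MeasureTheory Set Metric Real
open scoped RealInnerProductSpace Pointwise

namespace Vale.Agent.P237.All

open Three (IsBody IsSymm vol_pos)

variable {n : ℕ}

lemma pettyP_pos (n : ℕ) : 0 < pettyP n :=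
  mul_pos (pow_pos (Sharp.kappa_pos' _) _) (zpow_pos (Sharp.kappa_pos' _) _)

lemma supp_smul_set {c : ℝ} (hc : 0 ≤ c) (K : Set (E n)) (v : E n) :
    supp (c • K) v = c * supp K v := by
  have : (fun x => ⟪x, v⟫) '' (c • K) = c • ((fun x => ⟪x, v⟫) '' K) := by
    rw [← image_smul, ← image_smul, image_image, image_image]
    exact image_congr fun x _ => by simp [real_inner_smul_left]
  rw [supp, this, Real.sSup_smul_of_nonneg hc, smul_eq_mul, supp]

/-- A symmetric body has a positive support function. -/
lemma supp_pos {K : Set (E n)} (hK : IsBody K) (hs : IsSymm K) {v : E n} (hv : v ≠ 0) :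
    0 < supp K v := by
  obtain ⟨x, hx⟩ := hK.2.2
  have hneg : -K = K := Set.ext fun z => ⟨fun h => by simpa using hs _ h, fun h => hs z h⟩
  have hx' : -x ∈ interior K :=
    interior_maximal (neg_subset.2 (interior_subset.trans hneg.ge)) isOpen_interior.neg
      (by simpa using hx)
  have h0 : (0 : E n) ∈ interior K := by
    have := hK.2.1.interior hx hx' (by norm_num : (0 : ℝ) ≤ 1 / 2)
      (by norm_num : (0 : ℝ) ≤ 1 / 2) (by norm_num)
    simpa using this
  obtain ⟨ε, hε, hball⟩ := Metric.mem_nhds_iff.1 (mem_interior_iff_mem_nhds.1 h0)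
  have hn : 0 < ‖v‖ := norm_pos_iff.2 hv
  have hmem : (ε / 2 / ‖v‖) • v ∈ K := hball (by
    rw [mem_ball_zero_iff, norm_smul, norm_of_nonneg (by positivity), div_mul_cancel₀ _ hn.ne']
    linarith)
  have hpos : 0 < ⟪(ε / 2 / ‖v‖) • v, v⟫ := by
    rw [real_inner_smul_left, real_inner_self_eq_norm_sq]
    positivity
  exact hpos.trans_le (le_csSup (hK.1.image (by fun_prop)).bddAbove ⟨_, hmem, rfl⟩)

/-- Two symmetric bodies are translates only by zero. -/
lemma eq_of_translate {K C : Set (E n)} (hC : IsBody C) (hsC : IsSymm C) (hsK : IsSymm K) {g : E n}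
    (h : K = (fun x => g + x) '' C) : K = C := by
  obtain ⟨x, hx, hmax⟩ := hC.1.exists_isMaxOn (hC.2.2.mono interior_subset)
    (f := fun y => ⟪g, y⟫) (by fun_prop)
  obtain ⟨y, hy, hgy⟩ : -(g + x) ∈ (fun x => g + x) '' C := h ▸ hsK _ (h ▸ ⟨x, hx, rfl⟩)
  have hle : ⟪g, -y⟫ ≤ ⟪g, x⟫ := hmax (hsC _ hy)
  have hyy : -y = g + g + x := by
    rw [eq_sub_of_add_eq' hgy]
    abel
  rw [hyy, inner_add_right, inner_add_right] at hle
  have hg : g = 0 := inner_self_eq_zero.1 <| le_antisymm (by linarith) real_inner_self_nonneg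
  simp [h, hg]

/-- Petty's inequality for symmetric bodies: compare a minimiser with its projection body. -/
theorem petty_sym {k : ℕ} (hK : KeyStmt (k + 2)) {K : Set (E (k + 2))} (hb : IsBody K)
    (hs : IsSymm K) : pettyP (k + 2) * vol K ^ (k + 1) ≤ vol (projectionBody K) := by
  obtain ⟨K₀, hb₀, hs₀, hmin⟩ := minimiser (n := k + 2) (by omega)
  simp only [show k + 2 - 1 = k + 1 by omega] at hmin
  obtain ⟨hZ, hZs, -⟩ := support (by omega) hb₀
  obtain ⟨hL, hLs, -⟩ := support (by omega) hZ
  have hz := vol_pos hZ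
  have hk := vol_pos hb₀
  have hge : vol (projectionBody K₀) ^ (k + 2) ≤
      vol (projectionBody (projectionBody K₀)) * vol K₀ ^ (k + 2 - 1) := by
    calc vol (projectionBody K₀) ^ (k + 2)
        = vol (projectionBody K₀) * vol (projectionBody K₀) ^ (k + 1) := pow_succ' _ _
      _ ≤ vol (projectionBody (projectionBody K₀)) * vol K₀ ^ (k + 1) := hmin _ hZ hZs
  obtain ⟨hC, hCs, -, g, hg⟩ := eq_translate_smul_iter (by omega) hb₀ hge
  have hKC := eq_of_translate hC hCs hs₀ hg
  obtain ⟨e, he, hkey, -⟩ := hK K₀ hb₀ hs₀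
  have hpos := supp_pos hL hLs (show e ≠ 0 by rintro rfl; simp at he)
  have hsupp : supp K₀ e = vol K₀ / vol (projectionBody K₀) *
      supp (projectionBody (projectionBody K₀)) e := by
    conv_lhs => rw [hKC]
    exact supp_smul_set (div_pos hk hz).le _ _
  rw [hsupp, ← mul_assoc, Nat.add_sub_cancel] at hkey
  have h1 := (mul_le_iff_le_one_left hpos).1 hkey
  have h2 : pettyP (k + 2) * vol K₀ ^ (k + 1) ≤ vol (projectionBody K₀) := by
    rw [← mul_div_assoc, div_le_one hz] at h1
    rw [pow_succ, ← mul_assoc]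
    exact h1
  refine le_of_mul_le_mul_right ?_ (pow_pos hk (k + 1))
  calc pettyP (k + 2) * vol K ^ (k + 1) * vol K₀ ^ (k + 1)
      = pettyP (k + 2) * vol K₀ ^ (k + 1) * vol K ^ (k + 1) := by ring
    _ ≤ vol (projectionBody K₀) * vol K ^ (k + 1) :=
        mul_le_mul_of_nonneg_right h2 (pow_nonneg ENNReal.toReal_nonneg _)
    _ ≤ vol (projectionBody K) * vol K₀ ^ (k + 1) := hmin K hb hs

/-- Petty's inequality with its equality case in a dimension where the key lemma holds. -/
theorem petty_of_key {n : ℕ} (hn : 2 ≤ n) (hK : KeyStmt n) : PettyAt n ∧ PettyEqAt n := by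
  obtain ⟨k, rfl⟩ : ∃ k, n = k + 2 := ⟨n - 2, by omega⟩
  have hsub : k + 2 - 1 = k + 1 := by omega
  have hP := pettyP_pos (k + 2)
  constructor
  · intro K h1 h2 h3
    rw [hsub]
    have hb : IsBody K := ⟨h1, h2, h3⟩
    obtain ⟨hZ, hZs, -⟩ := support (by omega) hb
    have h := petty_sym hK hZ hZs
    have hr := reduction (by omega) hb
    rw [hsub] at hr
    refine le_of_mul_le_mul_right ?_ (pow_pos (vol_pos hZ) (k + 1))
    calc pettyP (k + 2) * vol K ^ (k + 1) * vol (projectionBody K) ^ (k + 1)
        = pettyP (k + 2) * vol (projectionBody K) ^ (k + 1) * vol K ^ (k + 1) := by ring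
      _ ≤ vol (projectionBody (projectionBody K)) * vol K ^ (k + 1) :=
          mul_le_mul_of_nonneg_right h (pow_nonneg ENNReal.toReal_nonneg _)
      _ ≤ vol (projectionBody K) ^ (k + 2) := hr
      _ = vol (projectionBody K) * vol (projectionBody K) ^ (k + 1) := pow_succ' _ _
  refine fun K h1 h2 h3 => ⟨fun heq => ?_, ?_⟩
  · rw [hsub] at heq
    have hb : IsBody K := ⟨h1, h2, h3⟩
    obtain ⟨hZ, hZs, -⟩ := support (by omega) hb
    obtain ⟨hL, hLs, -⟩ := support (by omega) hZ
    have hz := vol_pos hZ
    have hk := vol_pos hb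
    have hge : vol (projectionBody K) ^ (k + 2) ≤
        vol (projectionBody (projectionBody K)) * vol K ^ (k + 2 - 1) := by
      rw [hsub]
      calc vol (projectionBody K) ^ (k + 2)
          = vol (projectionBody K) * vol (projectionBody K) ^ (k + 1) := pow_succ' _ _
        _ = pettyP (k + 2) * vol (projectionBody K) ^ (k + 1) * vol K ^ (k + 1) := by
            conv_lhs => arg 1; rw [heq]
            ring
        _ ≤ vol (projectionBody (projectionBody K)) * vol K ^ (k + 1) :=
            mul_le_mul_of_nonneg_right (petty_sym hK hZ hZs) (pow_nonneg hk.le _)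
    obtain ⟨hC, hCs, hvC, g, hg⟩ := eq_translate_smul_iter (by omega) hb hge
    set C := (vol K / vol (projectionBody K)) • projectionBody (projectionBody K) with hCdef
    have hpb : projectionBody K = projectionBody C := by
      conv_lhs => rw [hg, Sharp.projectionBody_translate]
    obtain ⟨e, -, -, heqc⟩ := hK C hC hCs
    obtain ⟨S, hSC⟩ := heqc (by
      rw [← hpb, hvC]
      refine le_of_eq ?_
      rw [hCdef, supp_smul_set (div_pos hk hz).le, ← mul_assoc, ← mul_div_assoc,
        Nat.add_sub_cancel, mul_assoc (pettyP (k + 2)), ← pow_succ, ← heq, div_self hz.ne',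
        one_mul])
    exact ⟨g, S, by rw [hg, hSC, image_image]⟩
  · rintro ⟨g, S, rfl⟩
    exact Sharp.petty_eq_of_ellipsoid (by omega : 1 ≤ k + 2) g S

/-- The induction on the dimension from the base three. -/
theorem petty_all (h3 : Three.PettyThree ∧ Three.PettyThreeEquality)
    (hkey : ∀ m, 3 ≤ m → PettyAt m → KeyStmt (m + 1)) : PettyAll := by
  intro n hn
  induction n, hn using Nat.le_induction with
  | base => exact h3
  | succ m hm ih => exact petty_of_key (by omega) (hkey m hm ih.1)

end Vale.Agent.P237.All
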