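import Vale.Agent.P237.Statement
import Mathlib

/-!
P237, all dimensions: the averaged Fisher information inequality (F) of `notes/P237h6/alln.md`.

For a body `K` containing the unit ball and a decomposition `∑ cᵢ uᵢ ⊗ uᵢ = 1`, the vector field
`∑ cᵢ (2 φᵢ(⟪uᵢ, x⟫) uᵢ - φᵢ(⟪uᵢ, x⟫)² x) - x` points into `K`, so its flow does not increase the
volume and its divergence has nonpositive integral over `K`. No surface measure is used.
-/

noncomputable section

open MeasureTheory Set Filter Topology
open scoped RealInnerProductSpace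

namespace Vale.Agent.P237.All

variable {n : ℕ}

/-- The determinant of a continuous endomorphism in matrix coordinates. -/
theorem clm_det_eq (A : E n →L[ℝ] E n) :
    A.det = Matrix.det (Matrix.of fun i j => A (EuclideanSpace.single j (1 : ℝ)) i) := by
  rw [ContinuousLinearMap.det, ← LinearMap.det_toMatrix (EuclideanSpace.basisFun (Fin n) ℝ).toBasis]
  congr 1

/-- The trace of an endomorphism in matrix coordinates. -/
theorem clm_trace_eq (A : E n →L[ℝ] E n) :
    LinearMap.trace ℝ (E n) (A : E n →ₗ[ℝ] E n)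
      = Matrix.trace (Matrix.of fun i j => A (EuclideanSpace.single j (1 : ℝ)) i) := by
  rw [LinearMap.trace_eq_matrix_trace ℝ (EuclideanSpace.basisFun (Fin n) ℝ).toBasis]
  congr 1

theorem differentiable_clm_det : Differentiable ℝ fun A : E n →L[ℝ] E n => A.det := by
  simp only [clm_det_eq, Matrix.det_apply', Matrix.of_apply]
  fun_prop

/-- The derivative of the determinant at the identity is the trace. -/
theorem fderiv_clm_det_one (A : E n →L[ℝ] E n) :
    fderiv ℝ (fun B : E n →L[ℝ] E n => B.det) 1 A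
      = LinearMap.trace ℝ (E n) (A : E n →ₗ[ℝ] E n) := by
  set M : Matrix (Fin n) (Fin n) ℝ := Matrix.of fun i j => A (EuclideanSpace.single j (1 : ℝ)) i
    with hM
  set p := Matrix.det (1 + (Polynomial.X : Polynomial ℝ) • M.map Polynomial.C) with hp
  have e : ∀ r : ℝ, (1 + r • A).det = p.eval r := by
    intro r
    rw [clm_det_eq]
    have e1 : Matrix.of (fun i j => (1 + r • A) (EuclideanSpace.single j (1 : ℝ)) i) = 1 + r • M := by
      ext i j
      simp [hM, Matrix.one_apply]
    rw [e1, hp, ← Polynomial.coe_evalRingHom, RingHom.map_det]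
    congr 1
    ext i j
    by_cases h : i = j <;> simp [h] <;> ring
  have h1 : HasDerivAt (fun r : ℝ => (1 + r • A).det) (Matrix.trace M) 0 := by
    simp only [e]
    simpa [hp, Matrix.derivative_det_one_add_X_smul] using p.hasDerivAt 0
  have h2 : HasDerivAt (fun r : ℝ => (1 + r • A).det)
      (fderiv ℝ (fun B : E n →L[ℝ] E n => B.det) 1 A) 0 := by
    have hd := (differentiable_clm_det (n := n)).differentiableAt (x := 1).hasFDerivAt
    have hc : HasDerivAt (fun r : ℝ => 1 + r • A) A 0 := by
      simpa using ((hasDerivAt_id (0 : ℝ)).smul_const A).const_add (1 : E n →L[ℝ] E n)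
    exact hd.comp_hasDerivAt_of_eq 0 hc (by rw [zero_smul ℝ A, add_zero])
  rw [h2.unique h1, clm_trace_eq]

/-- Volume does not drop under a small flow into the body: the divergence integral is nonpositive. -/
theorem integral_trace_nonpos {K : Set (E n)} (hK : IsCompact K) (hc : Convex ℝ K)
    {V : E n → E n} {DV : E n → E n →L[ℝ] E n} (hV : ∀ x, HasFDerivAt V (DV x) x)
    (hDV : Continuous DV) {ε₀ : ℝ} (h0 : 0 < ε₀)
    (hin : ∀ ε, 0 < ε → ε ≤ ε₀ → ∀ x ∈ K, x + ε • V x ∈ K) :
    ∫ x in K, LinearMap.trace ℝ (E n) (DV x : E n →ₗ[ℝ] E n) ≤ 0 := by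
  have hvol : volume K < ⊤ := hK.measure_lt_top
  set T := fun x => LinearMap.trace ℝ (E n) (DV x : E n →ₗ[ℝ] E n) with hT
  have hTc : Continuous T := by
    simp only [hT, ← fderiv_clm_det_one]
    exact ((fderiv ℝ (fun B : E n →L[ℝ] E n => B.det) 1).continuous).comp hDV
  obtain ⟨L, hL⟩ := hK.exists_bound_of_continuousOn hDV.continuousOn
  set L' := max L 1 with hL'
  have hL'0 : 0 < L' := lt_of_lt_of_le one_pos (le_max_right _ _)
  by_contra hneg
  push Not at hneg
  set S := ∫ x in K, T x with hS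
  set η := S / (2 * ((volume K).toReal + 1) * L') with hη
  have hη0 : 0 < η := by positivity
  have hd := (differentiable_clm_det (n := n)).differentiableAt (x := 1).hasFDerivAt
  rw [hasFDerivAt_iff_isLittleO_nhds_zero] at hd
  obtain ⟨r, hr0, hr⟩ := Metric.eventually_nhds_iff.1 (hd.def hη0)
  set ε := min ε₀ (min (r / (2 * L')) (1 / (2 * L'))) with hε
  have he0 : 0 < ε := lt_min h0 (lt_min (by positivity) (by positivity))
  have he1 : ε ≤ r / (2 * L') := (min_le_right _ _).trans (min_le_left _ _)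
  have he2 : ε ≤ 1 / (2 * L') := (min_le_right _ _).trans (min_le_right _ _)
  rw [le_div_iff₀ (by positivity)] at he1 he2
  set F := fun x => x + ε • V x with hF
  have hF' : ∀ x ∈ K, HasFDerivWithinAt F (1 + ε • DV x) K x := fun x _ =>
    ((hasFDerivAt_id x).add ((hV x).const_smul ε)).hasFDerivWithinAt
  have hinj : InjOn F K := by
    intro x hx y hy he
    have hle := hc.norm_image_sub_le_of_norm_hasFDerivWithin_le
      (fun z hz => (hV z).hasFDerivWithinAt) (fun z hz => (hL z hz).trans (le_max_left L 1)) hx hy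
    have h1 : y - x = -(ε • (V y - V x)) := by
      simp only [hF] at he
      linear_combination (norm := module) -he
    have h2 : ‖y - x‖ ≤ ε * (L' * ‖y - x‖) := by
      calc ‖y - x‖ = ε * ‖V y - V x‖ := by
            conv_lhs => rw [h1]
            rw [norm_neg, norm_smul, Real.norm_of_nonneg he0.le]
        _ ≤ _ := mul_le_mul_of_nonneg_left hle he0.le
    have h3 : ‖y - x‖ = 0 := by nlinarith [norm_nonneg (y - x)]
    exact (sub_eq_zero.1 (norm_eq_zero.1 h3)).symm
  have himg : F '' K ⊆ K := by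
    rintro _ ⟨x, hx, rfl⟩
    exact hin ε he0 (min_le_left _ _) x hx
  have hdet : ∀ x ∈ K, 1 + ε * T x - η * (ε * L') ≤ |(1 + ε • DV x).det| := by
    intro x hx
    have hn : ‖ε • DV x‖ ≤ ε * L' := by
      rw [norm_smul, Real.norm_of_nonneg he0.le]
      exact mul_le_mul_of_nonneg_left ((hL x hx).trans (le_max_left L 1)) he0.le
    have h := hr (y := ε • DV x) (by rw [dist_zero_right]; nlinarith)
    rw [map_smul, fderiv_clm_det_one, smul_eq_mul, Real.norm_eq_abs] at h
    have h1 : (1 : E n →L[ℝ] E n).det = 1 := by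
      rw [clm_det_eq, show Matrix.of (fun i j => (1 : E n →L[ℝ] E n) (EuclideanSpace.single j (1 : ℝ)) i) = 1 by
        ext i j; simp [Matrix.one_apply], Matrix.det_one]
    rw [h1] at h
    have h2 := (abs_le.1 (h.trans (mul_le_mul_of_nonneg_left hn hη0.le))).1
    have h3 := le_abs_self ((1 + ε • DV x).det)
    simp only [hT]
    linarith
  have hm := hK.measurableSet
  have hcd : Continuous fun x => |(1 + ε • DV x).det| :=
    ((differentiable_clm_det (n := n)).continuous.comp
      (continuous_const.add (hDV.const_smul ε))).abs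
  have hle : ∫ x in K, |(1 + ε • DV x).det| ≤ (volume K).toReal := by
    have e := integral_image_eq_integral_abs_det_fderiv_smul volume hm hF' hinj (fun _ => (1 : ℝ))
    simp only [smul_eq_mul, mul_one] at e
    rw [← e, setIntegral_const, smul_eq_mul, mul_one, measureReal_def]
    exact ENNReal.toReal_mono hvol.ne (measure_mono himg)
  have hint : ∀ g : E n → ℝ, Continuous g → IntegrableOn g K := fun g hg =>
    hg.continuousOn.integrableOn_compact hK
  have hlow := setIntegral_mono_on (hint (fun x => 1 + ε * T x - η * (ε * L')) (by fun_prop))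
    (hint _ hcd) hm hdet
  have e : ∫ x in K, (1 + ε * T x - η * (ε * L'))
      = (volume K).toReal + ε * S - η * (ε * L') * (volume K).toReal := by
    rw [integral_sub (hint (fun x => 1 + ε * T x) (by fun_prop)) (hint _ continuous_const),
      integral_add (hint _ continuous_const) (hint (fun x => ε * T x) (by fun_prop)),
      integral_const_mul, setIntegral_const, setIntegral_const]
    simp only [smul_eq_mul, measureReal_def, hS]
    ring
  rw [e] at hlow
  have hkey : η * (ε * L') * (volume K).toReal < ε * S := by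
    have h1 : η * L' * (volume K).toReal = S / 2 * ((volume K).toReal / ((volume K).toReal + 1)) := by
      rw [hη]; field_simp
    have h2 : (volume K).toReal / ((volume K).toReal + 1) ≤ 1 := by
      rw [div_le_one (by positivity)]; linarith
    nlinarith [mul_le_mul_of_nonneg_left h2 (half_pos hneg).le]
  linarith [hlow.trans hle]

section Fisher

variable {K : Set (E n)} {k : ℕ} {u : Fin k → E n} {c : Fin k → ℝ}

/-- The test field of the Fisher inequality. -/
def fisherField (u : Fin k → E n) (c : Fin k → ℝ) (φ : Fin k → ℝ → ℝ) (x : E n) : E n :=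
  ∑ i, c i • ((2 * φ i ⟪u i, x⟫) • u i - φ i ⟪u i, x⟫ ^ 2 • x) - x

/-- The field points into the body. -/
theorem fisherField_inward (hK : IsCompact K) (hcv : Convex ℝ K)
    (hball : Metric.closedBall (0 : E n) 1 ⊆ K) (hc : ∀ i, 0 ≤ c i)
    (hres : ∀ x, ∑ i, (c i * ⟪u i, x⟫) • u i = x) (φ : Fin k → ℝ → ℝ)
    {M : ℝ} (hM : ∀ x ∈ K, ‖fisherField u c φ x‖ ≤ M) {ε : ℝ} (h0 : 0 < ε)
    (h1 : ε ≤ 1 / 3) (h2 : ε * M ≤ 1 / 2) {x : E n} (hx : x ∈ K) :
    x + ε • fisherField u c φ x ∈ K := by
  by_contra hy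
  obtain ⟨f, a, ha, hb⟩ := geometric_hahn_banach_closed_point hcv hK.isClosed hy
  have hK0 : (0 : E n) ∈ K := hball (by simp)
  have ha0 : 0 < a := by simpa using ha 0 hK0
  set g := a⁻¹ • (InnerProductSpace.toDual ℝ (E n)).symm f with hg
  have hgz : ∀ z, ⟪g, z⟫ = f z / a := fun z => by
    rw [hg, real_inner_smul_left, InnerProductSpace.toDual_symm_apply]
    ring
  have hgK : ∀ z ∈ K, ⟪g, z⟫ < 1 := fun z hz => by
    rw [hgz, div_lt_one ha0]; exact ha z hz
  have hgy : 1 < ⟪g, x + ε • fisherField u c φ x⟫ := by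
    rw [hgz, lt_div_iff₀ ha0, one_mul]; exact hb
  have hg1 : ‖g‖ ≤ 1 := by
    by_contra hc1
    push Not at hc1
    have hz := hgK (‖g‖⁻¹ • g) (hball (by
      rw [mem_closedBall_zero_iff, norm_smul, norm_inv, norm_norm,
        inv_mul_cancel₀ (by linarith)]))
    rw [real_inner_smul_right, real_inner_self_eq_norm_sq, sq, ← mul_assoc,
      inv_mul_cancel₀ (by linarith), one_mul] at hz
    linarith
  set s := ⟪g, x⟫ with hs
  have hs1 : s < 1 := hgK x hx
  rw [inner_add_right, real_inner_smul_right, ← hs] at hgy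
  rcases le_or_gt (1 / 2) s with h | h
  · have hsum : ∑ i, c i * ⟪u i, g⟫ ^ 2 = ‖g‖ ^ 2 := by
      rw [← real_inner_self_eq_norm_sq]
      nth_rewrite 2 [← hres g]
      rw [sum_inner]
      exact Finset.sum_congr rfl fun i _ => by
        rw [real_inner_smul_left, real_inner_comm g (u i)]; ring
    have hW : ⟪g, fisherField u c φ x⟫ ≤ 1 / s - s := by
      simp only [fisherField, inner_sub_right, inner_sum, real_inner_smul_right, ← hs]
      refine sub_le_sub_right ((Finset.sum_le_sum (g := fun i => c i * ⟪u i, g⟫ ^ 2 * (1 / s))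
        fun i _ => ?_).trans ?_) _
      · rw [mul_assoc (c i)]
        refine mul_le_mul_of_nonneg_left ?_ (hc i)
        rw [real_inner_comm g (u i), mul_one_div, le_div_iff₀ (by linarith)]
        nlinarith [sq_nonneg (⟪g, u i⟫ - s * φ i ⟪u i, x⟫)]
      · rw [← Finset.sum_mul, hsum]
        exact mul_le_of_le_one_left (by positivity) (pow_le_one₀ (norm_nonneg g) hg1)
    have h3 : ε * (1 / s - s) ≤ 1 - s := by
      have e : 1 / s - s = (1 - s) * ((1 + s) / s) := by field_simp; ring
      rw [e, mul_left_comm]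
      refine mul_le_of_le_one_right (by linarith) ?_
      rw [mul_div_assoc', div_le_one (by linarith)]
      nlinarith
    nlinarith [mul_le_mul_of_nonneg_left hW h0.le]
  · have h3 : ⟪g, fisherField u c φ x⟫ ≤ M :=
      (real_inner_le_norm _ _).trans
        ((mul_le_of_le_one_left (norm_nonneg _) hg1).trans (hM x hx))
    nlinarith [mul_le_mul_of_nonneg_left h3 h0.le]

/-- The averaged Fisher inequality. -/
theorem fisher_le (hK : IsCompact K) (hcv : Convex ℝ K)
    (hball : Metric.closedBall (0 : E n) 1 ⊆ K) (hc : ∀ i, 0 ≤ c i) (hu : ∀ i, ‖u i‖ = 1)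
    (hres : ∀ x, ∑ i, (c i * ⟪u i, x⟫) • u i = x) (φ φ' : Fin k → ℝ → ℝ)
    (hφ : ∀ i t, HasDerivAt (φ i) (φ' i t) t) (hφ' : ∀ i, Continuous (φ' i)) :
    ∑ i, c i * ∫ x in K, (2 * φ' i ⟪u i, x⟫ - n * φ i ⟪u i, x⟫ ^ 2
        - 2 * ⟪u i, x⟫ * φ i ⟪u i, x⟫ * φ' i ⟪u i, x⟫) ≤ n * vol K := by
  have hφc : ∀ i, Continuous (φ i) := fun i =>
    continuous_iff_continuousAt.2 fun t => (hφ i t).continuousAt
  set D : Fin k → E n → E n →L[ℝ] E n := fun i x =>
    ((2 * φ' i ⟪u i, x⟫) • innerSL ℝ (u i)).smulRight (u i)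
      - (φ i ⟪u i, x⟫ ^ 2 • (1 : E n →L[ℝ] E n)
        + ((2 * φ i ⟪u i, x⟫ * φ' i ⟪u i, x⟫) • innerSL ℝ (u i)).smulRight x) with hD
  set DV : E n → E n →L[ℝ] E n := fun x => (∑ i, c i • D i x) - 1 with hDV
  have hV : ∀ x, HasFDerivAt (fisherField u c φ) (DV x) x := by
    intro x
    refine (HasFDerivAt.fun_sum fun i _ => ?_).sub (hasFDerivAt_id x)
    have ht : HasFDerivAt (fun y : E n => φ i ⟪u i, y⟫) (φ' i ⟪u i, x⟫ • innerSL ℝ (u i)) x :=
      (hφ i _).comp_hasFDerivAt x (innerSL ℝ (u i)).hasFDerivAt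
    refine ((((ht.const_mul 2).smul_const (u i)).sub
      ((ht.pow 2).smul (hasFDerivAt_id x))).congr_fderiv ?_).const_smul (c i)
    ext v
    simp [hD]
    ring
  have hcont : Continuous DV := by
    have e : DV = fun x => fderiv ℝ (fisherField u c φ) x := funext fun x => (hV x).fderiv.symm
    rw [e]
    refine ContDiff.continuous_fderiv ?_ (n := 1) (by norm_num)
    have h1 : ∀ i, ContDiff ℝ 1 (φ i) := fun i => contDiff_one_iff_deriv.2
      ⟨fun t => (hφ i t).differentiableAt, by
        rw [show deriv (φ i) = φ' i from funext fun t => (hφ i t).deriv]; exact hφ' i⟩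
    unfold fisherField
    have hi : ∀ i, ContDiff ℝ 1 fun x : E n => ⟪u i, x⟫ := fun i => (innerSL ℝ (u i)).contDiff
    fun_prop
  have hVc : Continuous (fisherField u c φ) :=
    continuous_iff_continuousAt.2 fun x => (hV x).continuousAt
  obtain ⟨M, hM⟩ := hK.exists_bound_of_continuousOn hVc.continuousOn
  set M' := max M 1
  have hM' : 0 < M' := lt_of_lt_of_le one_pos (le_max_right _ _)
  have h := integral_trace_nonpos hK hcv hV hcont (ε₀ := min (1 / 3) (1 / (2 * M')))
    (lt_min (by norm_num) (by positivity)) fun ε he0 he x hx =>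
      fisherField_inward hK hcv hball hc hres φ (fun y hy => (hM y hy).trans (le_max_left M 1)) he0
        (he.trans (min_le_left _ _)) (by
          have h2 := he.trans (min_le_right _ _)
          rw [le_div_iff₀ (by positivity)] at h2
          linarith) hx
  have htr : ∀ x, LinearMap.trace ℝ (E n) (DV x : E n →ₗ[ℝ] E n)
      = ∑ i, c i * (2 * φ' i ⟪u i, x⟫ - n * φ i ⟪u i, x⟫ ^ 2
        - 2 * ⟪u i, x⟫ * φ i ⟪u i, x⟫ * φ' i ⟪u i, x⟫) - n := by
    intro x
    have e1 : ∀ (f : E n →L[ℝ] ℝ) (v : E n),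
        LinearMap.trace ℝ (E n) (f.smulRight v : E n →ₗ[ℝ] E n) = f v := fun f v => by
      exact LinearMap.trace_smulRight (f : E n →ₗ[ℝ] ℝ) v
    have e2 : LinearMap.trace ℝ (E n) ((1 : E n →L[ℝ] E n) : E n →ₗ[ℝ] E n) = n := by
      rw [ContinuousLinearMap.toLinearMap_one, LinearMap.trace_one]; simp
    simp only [hDV, hD, ContinuousLinearMap.toLinearMap_sub, ContinuousLinearMap.toLinearMap_sum,
      ContinuousLinearMap.toLinearMap_smul, ContinuousLinearMap.toLinearMap_add, map_sub, map_sum,
      map_add, map_smul, e1, e2]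
    congr 1
    refine Finset.sum_congr rfl fun i _ => ?_
    simp [hu i]
    left
    ring
  simp only [htr] at h
  have hint : ∀ g : E n → ℝ, Continuous g → IntegrableOn g K := fun g hg =>
    hg.continuousOn.integrableOn_compact hK
  have hg : ∀ i, Continuous fun x : E n => c i * (2 * φ' i ⟪u i, x⟫ - n * φ i ⟪u i, x⟫ ^ 2
      - 2 * ⟪u i, x⟫ * φ i ⟪u i, x⟫ * φ' i ⟪u i, x⟫) := fun i => by
    have := hφc i; have := hφ' i; fun_prop
  rw [integral_sub (hint _ (continuous_finsetSum _ fun i _ => hg i)) (hint _ continuous_const),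
    integral_finsetSum _ fun i _ => hint _ (hg i), setIntegral_const, smul_eq_mul] at h
  simp only [integral_const_mul] at h
  rw [vol, mul_comm]
  simpa [measureReal_def] using h

end Fisher

end Vale.Agent.P237.All
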