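import Vale.Agent.P237.Statement
import Vale.Agent.P084.Finite.Frame
import Mathlib.Topology.ContinuousMap.Compact

/-!
P237, all dimensions: John position of a symmetric convex body, from the optimal frame of a
finite dimensional normed space.
-/

noncomputable section

open MeasureTheory Set Metric
open scoped Pointwise RealInnerProductSpace

namespace Vale.Agent.P237.All

variable {n : ℕ}

/-- A symmetric body contains a ball about the origin. -/
theorem exists_ball_subset {K : Set (E n)} (hc : Convex ℝ K) (hi : (interior K).Nonempty)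
    (hs : ∀ x ∈ K, -x ∈ K) : ∃ r : ℝ, 0 < r ∧ closedBall (0 : E n) r ⊆ K := by
  obtain ⟨x₀, hx₀⟩ := hi
  obtain ⟨r, hr, hb⟩ := nhds_basis_closedBall.mem_iff.1 (mem_interior_iff_mem_nhds.1 hx₀)
  refine ⟨r / 2, half_pos hr, fun v hv => ?_⟩
  have h1 : x₀ + (2 : ℝ) • v ∈ K := hb (by
    rw [mem_closedBall, dist_eq_norm, add_sub_cancel_left, norm_smul]
    rw [mem_closedBall, dist_zero_right] at hv
    simp only [Real.norm_eq_abs, abs_two]; linarith)
  refine mem_of_eq_of_mem ?_ (hc h1 (hs _ (interior_subset hx₀)) (a := 1 / 2) (b := 1 / 2)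
    (by norm_num) (by norm_num) (by norm_num))
  simp [smul_add, smul_smul, add_comm]

/-- John position: a linear image contains the unit ball and the identity is a combination of the
squares of unit normals of supporting slabs of width two. -/
theorem exists_john {K : Set (E n)} (hK : IsCompact K) (hc : Convex ℝ K)
    (hi : (interior K).Nonempty) (hs : ∀ x ∈ K, -x ∈ K) :
    ∃ (S : E n ≃ₗ[ℝ] E n) (m : ℕ) (u : Fin m → E n) (c : Fin m → ℝ),
      closedBall (0 : E n) 1 ⊆ S '' K ∧ (∀ i, ‖u i‖ = 1) ∧ (∀ i, 0 < c i) ∧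
      (∀ i, ∀ x ∈ S '' K, |⟪x, u i⟫| ≤ 1) ∧ (∀ x, ∑ i, (c i * ⟪x, u i⟫) • u i = x) ∧
      ∑ i, c i = n := by
  classical
  obtain ⟨r, hr, hball⟩ := exists_ball_subset hc hi hs
  set P : Set (E n) := {y | ∀ x ∈ K, ⟪x, y⟫ ≤ 1} with hP
  have hPb : P ⊆ closedBall 0 r⁻¹ := fun y hy => by
    rw [mem_closedBall, dist_zero_right]
    rcases eq_or_ne y 0 with rfl | h0
    · simp [hr.le]
    have hn0 : 0 < ‖y‖ := norm_pos_iff.2 h0
    have := hy ((r / ‖y‖) • y) (hball (by
      rw [mem_closedBall, dist_zero_right, norm_smul, Real.norm_of_nonneg (by positivity),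
        div_mul_cancel₀ _ hn0.ne']))
    rw [real_inner_smul_left, real_inner_self_eq_norm_sq] at this
    field_simp at this ⊢
    linarith
  have hPcl : IsClosed P := by
    simp only [hP, setOf_forall]
    exact isClosed_iInter fun x => isClosed_iInter fun _ =>
      isClosed_le (by fun_prop) continuous_const
  have : CompactSpace P := isCompact_iff_compactSpace.1
    ((isCompact_closedBall 0 r⁻¹).of_isClosed_subset hPcl hPb)
  let L : E n →ₗ[ℝ] C(P, ℝ) :=
    { toFun := fun x => ⟨fun y => ⟪x, (y : E n)⟫, by fun_prop⟩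
      map_add' := fun x y => by ext; simp [inner_add_left]
      map_smul' := fun a x => by ext; simp [real_inner_smul_left] }
  have hLbd : ∀ x ∈ K, ∀ y : P, |⟪x, (y : E n)⟫| ≤ 1 := fun x hx y =>
    abs_le.2 ⟨by have := y.2 _ (hs x hx); rw [inner_neg_left] at this; linarith, y.2 x hx⟩
  obtain ⟨R, hR⟩ := hK.isBounded.exists_norm_le
  have hR0 : 0 ≤ R := le_trans (norm_nonneg _) (hR _ (hball (mem_closedBall_self hr.le)))
  have hLinj : Function.Injective L := by
    refine (injective_iff_map_eq_zero L).2 fun x hx => ?_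
    by_contra h0
    set y := (1 / ((R + 1) * ‖x‖)) • x
    have hx0 : 0 < ‖x‖ := norm_pos_iff.2 h0
    have hy : y ∈ P := fun z hz => by
      refine (real_inner_le_norm _ _).trans ?_
      rw [norm_smul, Real.norm_of_nonneg (by positivity)]
      calc ‖z‖ * (1 / ((R + 1) * ‖x‖) * ‖x‖) ≤ R * (1 / ((R + 1) * ‖x‖) * ‖x‖) := by
            gcongr; exact hR z hz
        _ ≤ 1 := by field_simp; linarith
    have h := congrArg (fun f : C(P, ℝ) => f ⟨y, hy⟩) hx
    simp [L, y, real_inner_smul_right] at h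
    rcases h with (h | h) | h <;> first | exact h0 h | linarith
  set X := LinearMap.range L
  have hX : Module.finrank ℝ X = n := by
    rw [LinearMap.finrank_range_of_inj hLinj, finrank_euclideanSpace_fin]
  obtain ⟨m, e, φ, c, hφ, hc0, hsum, hres, hge⟩ := P084.Finite.exists_frame X hX
  set J := LinearEquiv.ofInjective L hLinj
  set S : E n ≃ₗ[ℝ] E n := J.trans e.toLinearEquiv
  set u₀ : Fin m → E n := fun i => (InnerProductSpace.toDual ℝ (E n)).symm
    (LinearMap.toContinuousLinearMap ((φ i : X →ₗ[ℝ] ℝ) ∘ₗ e.symm.toLinearEquiv.toLinearMap))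
  have hu₀ : ∀ i y, ⟪y, u₀ i⟫ = φ i (e.symm y) := fun i y => by
    rw [real_inner_comm, InnerProductSpace.toDual_symm_apply]; rfl
  have hslab : ∀ i, ∀ x ∈ S '' K, |⟪x, u₀ i⟫| ≤ 1 := by
    rintro i _ ⟨x, hx, rfl⟩
    rw [hu₀, show e.symm (S x) = J x from e.symm_apply_apply _, ← Real.norm_eq_abs]
    refine ((φ i).le_opNorm _).trans (mul_le_one₀ (hφ i) (norm_nonneg _) ?_)
    exact (ContinuousMap.norm_le _ zero_le_one).2 fun y => hLbd x hx y
  have hB : closedBall (0 : E n) 1 ⊆ S '' K := by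
    intro y hy
    refine ⟨S.symm y, ?_, S.apply_symm_apply y⟩
    by_contra hxK
    obtain ⟨f, s, hs', hfy⟩ := geometric_hahn_banach_closed_point hc hK.isClosed hxK
    have hs0 : 0 < s := by
      have := hs' 0 (hball (mem_closedBall_self hr.le)); simpa using this
    set p := s⁻¹ • (InnerProductSpace.toDual ℝ (E n)).symm f
    have hp : ∀ z, ⟪z, p⟫ = s⁻¹ * f z := fun z => by
      rw [real_inner_smul_right, real_inner_comm, InnerProductSpace.toDual_symm_apply]
    have hpP : p ∈ P := fun z hz => by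
      rw [hp, inv_mul_le_iff₀ hs0, mul_one]; exact (hs' z hz).le
    have h1 : |⟪S.symm y, p⟫| ≤ 1 := by
      refine le_trans ?_ ((hge (J (S.symm y))).trans (?_ : ‖e (J (S.symm y))‖ ≤ 1))
      · exact ContinuousMap.norm_coe_le_norm (L (S.symm y)) ⟨p, hpP⟩
      · rw [show e (J (S.symm y)) = y from S.apply_symm_apply y]
        exact mem_closedBall_zero_iff.1 hy
    rw [hp] at h1
    have := (le_abs_self _).trans h1
    rw [inv_mul_le_iff₀ hs0] at this
    linarith
  have hres' : ∀ y z : E n, ∑ i, c i * ⟪y, u₀ i⟫ * ⟪z, u₀ i⟫ = ⟪y, z⟫ := fun y z => by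
    simp only [hu₀]
    rw [hres, e.apply_symm_apply, e.apply_symm_apply]
  have hu1 : ∀ i, ‖u₀ i‖ ≤ 1 := fun i => by
    rcases eq_or_ne (u₀ i) 0 with h | h
    · simp [h]
    have hn0 : 0 < ‖u₀ i‖ := norm_pos_iff.2 h
    have := (le_abs_self _).trans (hslab i (‖u₀ i‖⁻¹ • u₀ i) (hB (by
      simp [norm_smul, inv_mul_cancel₀ hn0.ne'])))
    rw [real_inner_smul_left, real_inner_self_eq_norm_sq, sq, ← mul_assoc,
      inv_mul_cancel₀ hn0.ne', one_mul] at this
    exact this
  have htr : ∑ i, c i * ‖u₀ i‖ ^ 2 = n := by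
    set b := EuclideanSpace.basisFun (Fin n) ℝ
    calc ∑ i, c i * ‖u₀ i‖ ^ 2 = ∑ i, ∑ k, c i * ⟪b k, u₀ i⟫ * ⟪b k, u₀ i⟫ := by
          refine Finset.sum_congr rfl fun i _ => ?_
          rw [← b.sum_sq_norm_inner_right (u₀ i), Finset.mul_sum]
          exact Finset.sum_congr rfl fun k _ => by rw [Real.norm_eq_abs, sq_abs]; ring
      _ = ∑ k : Fin n, (1 : ℝ) := by
          rw [Finset.sum_comm]
          exact Finset.sum_congr rfl fun k _ => by
            rw [hres', real_inner_self_eq_norm_sq, b.orthonormal.1, one_pow]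
      _ = n := by simp
  have heq : ∀ i, c i ≠ 0 → ‖u₀ i‖ = 1 := fun i hi' => by
    have h0 : ∑ j, c j * (1 - ‖u₀ j‖ ^ 2) = 0 := by
      simp only [mul_sub, mul_one, Finset.sum_sub_distrib, hsum, htr, sub_self]
    have hsq : ∀ j, ‖u₀ j‖ ^ 2 ≤ 1 := fun j => pow_le_one₀ (norm_nonneg _) (hu1 j)
    have h1 := (Finset.sum_eq_zero_iff_of_nonneg fun j _ =>
      mul_nonneg (hc0 j) (sub_nonneg.2 (hsq j))).1 h0 i (Finset.mem_univ i)
    rcases mul_eq_zero.1 h1 with h | h
    · exact absurd h hi'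
    · nlinarith [norm_nonneg (u₀ i)]
  set T := Finset.univ.filter fun i => c i ≠ 0
  set σ := T.equivFin
  refine ⟨S, T.card, fun j => u₀ (σ.symm j), fun j => c (σ.symm j), hB,
    fun j => heq _ (Finset.mem_filter.1 (σ.symm j).2).2,
    fun j => (hc0 _).lt_of_ne' (Finset.mem_filter.1 (σ.symm j).2).2,
    fun j => hslab _, fun x => ?_, ?_⟩
  · refine ext_inner_right ℝ fun z => ?_
    rw [σ.symm.sum_comp (fun i : T => (c i * ⟪x, u₀ i⟫) • u₀ i),
      T.sum_coe_sort (fun i => (c i * ⟪x, u₀ i⟫) • u₀ i), sum_inner,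
      Finset.sum_filter_of_ne, ← hres' x z]
    · exact Finset.sum_congr rfl fun i _ => by
        rw [real_inner_smul_left, real_inner_comm z]
    · intro i _ h hzero
      exact h (by simp [hzero])
  · rw [σ.symm.sum_comp (fun i : T => c i), T.sum_coe_sort c, Finset.sum_filter_ne_zero, hsum]

end Vale.Agent.P237.All
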