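import Vale.Agent.P237.Statement

/-!
P237: the statement of Petty's projection inequality in every dimension at least three.
-/

noncomputable section

open MeasureTheory Set
open scoped Pointwise

namespace Vale.Agent.P237.All

/-- The value of the projection volume ratio at the ball. -/
def pettyP (n : ℕ) : ℝ := kappa (n - 1) ^ n * kappa n ^ ((2 : ℤ) - n)

/-- Petty's inequality in dimension `n`. -/
def PettyAt (n : ℕ) : Prop :=
  ∀ K : Set (E n), IsCompact K → Convex ℝ K → (interior K).Nonempty →
    pettyP n * vol K ^ (n - 1) ≤ vol (projectionBody K)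

/-- In dimension `n` Petty's inequality is an equality exactly for ellipsoids. -/
def PettyEqAt (n : ℕ) : Prop :=
  ∀ K : Set (E n), IsCompact K → Convex ℝ K → (interior K).Nonempty →
    (vol (projectionBody K) = pettyP n * vol K ^ (n - 1) ↔
      ∃ (g : E n) (S : E n ≃ₗ[ℝ] E n), K = (fun x => g + S x) '' Metric.closedBall (0 : E n) 1)

/-- Petty's projection volume conjecture. -/
def PettyAll : Prop := ∀ n, 3 ≤ n → PettyAt n ∧ PettyEqAt n

end Vale.Agent.P237.All
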