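import Vale.Agent.P237.All.Profile
import Vale.Agent.P237.All.Statement
import Vale.Agent.P237.Three.Minimiser
import Vale.Agent.P237.Sharp.SliceEquality
import Mathlib.Analysis.SpecialFunctions.Log.NegMulLog

/-!
P237, every dimension: interfaces between the modules of the induction in `notes/P237h6/alln.md`.
Throughout, a body lives in dimension `m + 1` and its slices in dimension `m`.
-/

noncomputable section

open MeasureTheory Set Real
open scoped Pointwise RealInnerProductSpace

namespace Vale.Agent.P237.All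

open Three (IsBody IsSymm)

variable {n m : ℕ}

/-- The support function. -/
def supp (K : Set (E n)) (v : E n) : ℝ := sSup ((fun x => ⟪x, v⟫) '' K)

/-- The body in plain coordinates. -/
def coords (K : Set (E n)) : Set (Fin n → ℝ) := WithLp.toLp 2 ⁻¹' K

/-- The radius of an `m`-ball with the volume of the slice at height `t`. -/
def profile (K : Set (E (m + 1))) (t : ℝ) : ℝ :=
  (Sharp.area (coords K) t / kappa m) ^ ((m : ℝ)⁻¹)

/-- The unnormalised law of a coordinate under the density `exp (-‖y‖²/2)` of the gauge of a body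
with profile `f` in that direction. -/
def gaussMarg (m : ℕ) (f : ℝ → ℝ) (s : ℝ) : ℝ :=
  ∫ w in Ioi |s|, w ^ (m + 1) * exp (-w ^ 2 / 2) * f (s / w) ^ m

/-- The differential entropy of the normalised density. -/
def entropy (q : ℝ → ℝ) : ℝ := ∫ s, negMulLog (q s / ∫ r, q r)

/-- The entropy of the coordinate exceeds that of a standard normal one by the share of the
direction in the logarithm of the volume. -/
def EntropyBig (m : ℕ) (f : ℝ → ℝ) : Prop :=
  log ((∫ t in (-1 : ℝ)..1, f t ^ m) / ∫ t in (-1 : ℝ)..1, semi t ^ m) / (m + 1) ≤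
    entropy (gaussMarg m f) - log (2 * π * exp 1) / 2

/-- Step 5: the one dimensional lemma. -/
def LemmaStmt (m : ℕ) : Prop :=
  ∀ f : ℝ → ℝ, IsProfile f → EntropyBig m f →
    (∫ t in (-1 : ℝ)..1, semi t ^ (m - 1)) ^ m * (∫ t in (-1 : ℝ)..1, f t ^ m) ^ (m - 1) ≤
        (∫ t in (-1 : ℝ)..1, f t ^ (m - 1)) ^ m * (∫ t in (-1 : ℝ)..1, semi t ^ m) ^ (m - 1) ∧
      ((∫ t in (-1 : ℝ)..1, f t ^ (m - 1)) ^ m * (∫ t in (-1 : ℝ)..1, semi t ^ m) ^ (m - 1) =
          (∫ t in (-1 : ℝ)..1, semi t ^ (m - 1)) ^ m * (∫ t in (-1 : ℝ)..1, f t ^ m) ^ (m - 1) →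
        ∀ t ∈ Ioo (-1 : ℝ) 1, f t = semi t)

/-- A symmetric body containing the unit ball, between the tangent planes at `± e₀`. -/
def Supported (K : Set (E (m + 1))) : Prop :=
  IsBody K ∧ IsSymm K ∧ Metric.closedBall (0 : E (m + 1)) 1 ⊆ K ∧ ∀ x ∈ K, |x 0| ≤ 1

/-- Unit contact directions of `K` and the ball inside it, decomposing the identity. -/
def JohnPos (K : Set (E n)) : Prop :=
  IsBody K ∧ IsSymm K ∧ Metric.closedBall (0 : E n) 1 ⊆ K ∧
    ∃ (k : ℕ) (u : Fin k → E n) (c : Fin k → ℝ),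
      (∀ i, 0 < c i ∧ ‖u i‖ = 1 ∧ ∀ x ∈ K, |⟪u i, x⟫| ≤ 1) ∧
        ∀ x : E n, ∑ i, (c i * ⟪u i, x⟫) • u i = x

/-- Step 3: John position. -/
def JohnStmt (n : ℕ) : Prop :=
  ∀ K : Set (E n), IsBody K → IsSymm K → ∃ S : E n ≃ₗ[ℝ] E n, JohnPos (S '' K)

/-- Step 4: in some contact direction, turned to `e₀`, the entropy is big. -/
def EntropyStmt (m : ℕ) : Prop :=
  ∀ K : Set (E (m + 1)), JohnPos K →
    ∃ S : E (m + 1) ≃ₗ[ℝ] E (m + 1), Supported (S '' K) ∧ EntropyBig m (profile (S '' K))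

/-- The slices of a supported body. -/
def SlicesStmt (m : ℕ) : Prop :=
  ∀ K : Set (E (m + 1)), Supported K →
    IsProfile (profile K) ∧ vol K = kappa m * ∫ t in (-1 : ℝ)..1, profile K t ^ m ∧
      ((∀ t ∈ Ioo (-1 : ℝ) 1, profile K t = semi t) → K = Metric.closedBall (0 : E (m + 1)) 1)

/-- Step 2: the shadow bound from Petty's inequality one dimension down. -/
def ShadowStmt (m : ℕ) : Prop :=
  PettyAt m → ∀ K : Set (E (m + 1)), Supported K →
    pettyP m * kappa m ^ (m - 1) * (∫ t in (-1 : ℝ)..1, profile K t ^ (m - 1)) ^ m ≤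
      supp (projectionBody (projectionBody K)) (EuclideanSpace.single 0 1)

/-- Some direction in which the second projection body is large. -/
def KeyStmt (n : ℕ) : Prop :=
  ∀ K : Set (E n), IsBody K → IsSymm K → ∃ e : E n, ‖e‖ = 1 ∧
    pettyP n * vol K ^ (n - 2) * supp K e ≤ supp (projectionBody (projectionBody K)) e ∧
    (supp (projectionBody (projectionBody K)) e ≤ pettyP n * vol K ^ (n - 2) * supp K e →
      ∃ S : E n ≃ₗ[ℝ] E n, K = S '' Metric.closedBall (0 : E n) 1)

end Vale.Agent.P237.All
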