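import Vale.Agent.P237.All.John
import Vale.Agent.P237.All.Pins

/-!
P237, all dimensions: `JohnStmt` from the John position.
-/

noncomputable section

open MeasureTheory Set Metric
open scoped RealInnerProductSpace

namespace Vale.Agent.P237.All

/-- Every symmetric body has a John position. -/
theorem johnStmt (n : ℕ) : JohnStmt n := by
  intro K ⟨hK, hc, hi⟩ hs
  obtain ⟨S, m, u, c, hB, hu, hc0, hslab, hres, -⟩ := exists_john hK hc hi hs
  refine ⟨S, ⟨hK.image S.toContinuousLinearEquiv.continuous, hc.linear_image S.toLinearMap,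
    (hi.image S).mono (S.toContinuousLinearEquiv.toHomeomorph.isOpenMap.image_interior_subset K)⟩,
    ?_, hB, m, u, c, fun i => ⟨hc0 i, hu i, fun x hx => ?_⟩, fun x => ?_⟩
  · rintro _ ⟨x, hx, rfl⟩
    exact ⟨-x, hs x hx, map_neg S x⟩
  · rw [real_inner_comm]; exact hslab i x hx
  · conv_rhs => rw [← hres x]
    exact Finset.sum_congr rfl fun i _ => by rw [real_inner_comm]

end Vale.Agent.P237.All
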