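import Vale.Agent.P237.All.Pins
import Vale.Agent.P237.Three.Reduction
import Mathlib.Analysis.LocallyConvex.Separation

/-!
P237, every dimension: the induction step from the slices.

Every slice below height `b` contains a homothetic copy of the slice at height `b`, so lower sums
along a geometric partition bound both the shadow volumes and the integral of the slice volumes.
Brunn-Minkowski then bounds the shadow of the projection body by the induction hypothesis.
-/

noncomputable section

open MeasureTheory Set Metric Filter Topology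
open scoped RealInnerProductSpace Pointwise

namespace Vale.Agent.P237.All

variable {m : ℕ}

/-- A point from its height and its horizontal part. -/
def lift (t : ℝ) (y : E m) : E (m + 1) := WithLp.toLp 2 (Fin.cons t (⇑y))

/-- The slice of a set at height `t`. -/
def slice (K : Set (E (m + 1))) (t : ℝ) : Set (E m) := {y | lift t y ∈ K}

/-- The integral of the slice volumes to the power `(m-1)/m`. -/
def sliceInt (K : Set (E (m + 1))) : ℝ := ∫ t, vol (slice K t) ^ (((m : ℝ) - 1) / m)

theorem lift_inner (t s : ℝ) (y v : E m) : ⟪lift t y, lift s v⟫ = t * s + ⟪y, v⟫ := by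
  simp [lift, PiLp.inner_apply, Fin.sum_univ_succ, mul_comm]

theorem lift_norm {w : E m} (hw : ‖w‖ = 1) : ‖lift 0 w‖ = 1 := by
  rw [← sq_eq_sq₀ (norm_nonneg _) zero_le_one, ← real_inner_self_eq_norm_sq, lift_inner,
    real_inner_self_eq_norm_sq, hw]
  ring

theorem norm_le_lift (t : ℝ) (y : E m) : |t| ≤ ‖lift t y‖ ∧ ‖y‖ ≤ ‖lift t y‖ := by
  have h : ‖lift t y‖ ^ 2 = t ^ 2 + ‖y‖ ^ 2 := by
    rw [← real_inner_self_eq_norm_sq, lift_inner, real_inner_self_eq_norm_sq]; ring
  constructor
  · rw [← abs_norm (lift t y), ← sq_le_sq, h]; nlinarith [sq_nonneg ‖y‖]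
  · exact (abs_norm y).symm.trans_le ((sq_le_sq.1 (by rw [h]; nlinarith [sq_nonneg t])).trans_eq
      (abs_norm _))

theorem lift_add (t s : ℝ) (y v : E m) : lift t y + lift s v = lift (t + s) (y + v) := by
  ext i; refine Fin.cases ?_ (fun j => ?_) i <;> simp [lift]

theorem lift_smul (c t : ℝ) (y : E m) : c • lift t y = lift (c * t) (c • y) := by
  ext i; refine Fin.cases ?_ (fun j => ?_) i <;> simp [lift]

theorem lift_neg (t : ℝ) (y : E m) : -lift t y = lift (-t) (-y) := by
  ext i; refine Fin.cases ?_ (fun j => ?_) i <;> simp [lift]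

theorem continuous_lift (t : ℝ) : Continuous (lift (m := m) t) := by
  unfold lift
  refine (PiLp.continuous_toLp 2 _).comp (continuous_pi fun i => ?_)
  refine Fin.cases ?_ (fun j => ?_) i
  · simpa using continuous_const
  · simpa using (PiLp.continuous_apply 2 (fun _ : Fin m => ℝ) j)

section Slices

variable {K : Set (E (m + 1))}

theorem isCompact_slice (hK : IsCompact K) (t : ℝ) : IsCompact (slice K t) := by
  obtain ⟨R, hR⟩ := hK.isBounded.exists_norm_le
  exact (isCompact_closedBall (0 : E m) R).of_isClosed_subset (hK.isClosed.preimage (continuous_lift t))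
    fun y hy => mem_closedBall_zero_iff.2 ((norm_le_lift t y).2.trans (hR _ hy))

theorem convex_slice (hK : Convex ℝ K) (t : ℝ) : Convex ℝ (slice K t) := by
  intro y hy v hv p q hp hq hpq
  have h := hK hy hv hp hq hpq
  rw [lift_smul, lift_smul, lift_add, ← add_mul, hpq, one_mul] at h
  exact h

/-- Slices nearer the centre contain homothetic copies. -/
theorem smul_slice_subset (hK : Convex ℝ K) (h0 : (0 : E (m + 1)) ∈ K) {c : ℝ} (hc : 0 ≤ c)
    (hc1 : c ≤ 1) (t : ℝ) : c • slice K t ⊆ slice K (c * t) := by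
  rintro _ ⟨y, hy, rfl⟩
  show lift (c * t) (c • y) ∈ K
  rw [← lift_smul]
  exact hK.smul_mem_of_zero_mem h0 hy ⟨hc, hc1⟩

theorem slice_neg (hs : ∀ x ∈ K, -x ∈ K) (t : ℝ) :
    slice K (-t) = (LinearEquiv.neg ℝ (M := E m)) '' slice K t := by
  ext y
  constructor
  · intro hy
    exact ⟨-y, by
      have := hs _ hy
      rwa [lift_neg, neg_neg] at this, by simp⟩
  · rintro ⟨v, hv, rfl⟩
    have := hs _ hv
    rwa [lift_neg] at this

end Slices

theorem abs_det_neg : |LinearMap.det ((LinearEquiv.neg ℝ (M := E m)) : E m →ₗ[ℝ] E m)| = 1 := by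
  rw [show ((LinearEquiv.neg ℝ (M := E m)) : E m →ₗ[ℝ] E m) = (-1 : ℝ) • LinearMap.id by
    ext v; simp, LinearMap.det_smul, finrank_euclideanSpace_fin, LinearMap.det_id, mul_one,
    abs_pow, abs_neg, abs_one, one_pow]

theorem vol_neg_image (S : Set (E m)) : vol ((LinearEquiv.neg ℝ (M := E m)) '' S) = vol S := by
  rw [show (LinearEquiv.neg ℝ (M := E m)) '' S
    = ((LinearEquiv.neg ℝ (M := E m)) : E m →ₗ[ℝ] E m) '' S from rfl, vol,
    Measure.addHaar_image_linearMap, abs_det_neg, ENNReal.ofReal_one, one_mul, vol]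

theorem projArea_neg_image {S : Set (E m)} (hS : IsCompact S) {w : E m} (hw : ‖w‖ = 1) :
    projArea ((LinearEquiv.neg ℝ (M := E m)) '' S) w = projArea S w := by
  have hc : IsCompact ((LinearEquiv.neg ℝ (M := E m)) '' S) :=
    hS.image (LinearEquiv.neg ℝ (M := E m)).toLinearMap.continuous_of_finiteDimensional
  rw [← vol_shadowCylinder hc hw, Sharp.vol_shadowCylinder_image hS _ hw, abs_det_neg]
  simp [hw, Three.projArea_neg]

section Coordinates

/-- The set in coordinates. -/
def cds (K : Set (E (m + 1))) : Set (Fin (m + 1) → ℝ) := WithLp.toLp 2 ⁻¹' K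

theorem area_cds {K : Set (E (m + 1))} (hK : IsCompact K) (t : ℝ) :
    Sharp.area (cds K) t = vol (slice K t) := by
  rw [Sharp.area, vol, ← (PiLp.volume_preserving_toLp (Fin m)).measure_preimage
    (isCompact_slice hK t).measurableSet.nullMeasurableSet]
  rfl

theorem isCompact_cds {K : Set (E (m + 1))} (hK : IsCompact K) : IsCompact (cds K) :=
  (PiLp.homeomorph 2 _).symm.isCompact_preimage.2 hK

theorem integral_area {K : Set (E (m + 1))} (hK : IsCompact K) :
    ∫ t, Sharp.area (cds K) t = vol K := by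
  have hc := isCompact_cds hK
  have h := Sharp.volume_below_eq hc.isClosed.measurableSet univ MeasurableSet.univ
  rw [Measure.restrict_univ] at h
  simp only [mem_univ, ofPred_true, inter_univ] at h
  rw [vol, ← (PiLp.volume_preserving_toLp _).measure_preimage hK.measurableSet.nullMeasurableSet,
    show WithLp.toLp 2 ⁻¹' K = cds K from rfl, h]
  refine integral_toReal ?_ (Eventually.of_forall fun t => (Sharp.isCompact_slice0 hc t).measure_lt_top)
  refine ((Sharp.integrable_area hc).1.aemeasurable.ennreal_ofReal).congr (Eventually.of_forall fun t => ?_)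
  exact ENNReal.ofReal_toReal (Sharp.isCompact_slice0 hc t).measure_lt_top.ne

end Coordinates

theorem isCompact_shadowCylinder {n : ℕ} {K : Set (E n)} (hK : IsCompact K) {w : E n}
    (hw : ‖w‖ = 1) : IsCompact (shadowCylinder K w) := by
  have heq : shadowCylinder K w =
      (fun q : E n × ℝ => q.1 - ⟪w, q.1⟫ • w + q.2 • w) '' (K ×ˢ Icc (0 : ℝ) 1) := by
    ext x
    constructor
    · rintro ⟨hx, s, hs⟩
      refine ⟨(x + s • w, ⟪w, x⟫), ⟨hs, hx⟩, ?_⟩
      simp only [inner_add_right, real_inner_smul_right, real_inner_self_eq_norm_sq, hw]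
      module
    · rintro ⟨⟨k, t⟩, ⟨hk, ht⟩, rfl⟩
      refine ⟨?_, ⟪w, k⟫ - t, ?_⟩
      · simp [inner_add_right, inner_sub_right, real_inner_smul_right, hw]
        exact ht
      · convert hk using 1
        simp only
        module
  rw [heq]
  exact (hK.prod isCompact_Icc).image (by fun_prop)

/-- The slices of a shadow cylinder are the shadow cylinders of the slices. -/
theorem slice_shadowCylinder (K : Set (E (m + 1))) (w : E m) (t : ℝ) :
    slice (shadowCylinder K (lift 0 w)) t = shadowCylinder (slice K t) w := by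
  ext y
  show (⟪lift 0 w, lift t y⟫ ∈ Icc (0 : ℝ) 1 ∧ ∃ s : ℝ, lift t y + s • lift 0 w ∈ K) ↔ _
  simp only [lift_inner, lift_smul, lift_add, zero_mul, mul_zero, zero_add, add_zero]
  rfl

theorem shadow_eq_integral {K : Set (E (m + 1))} (hK : IsCompact K) {w : E m} (hw : ‖w‖ = 1) :
    Integrable (fun t => projArea (slice K t) w) ∧
      ∫ t, projArea (slice K t) w = vol (shadowCylinder K (lift 0 w)) := by
  have hc := isCompact_shadowCylinder hK (lift_norm hw)
  have he : (fun t => projArea (slice K t) w)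
      = Sharp.area (cds (shadowCylinder K (lift 0 w))) := funext fun t => by
    rw [area_cds hc, slice_shadowCylinder, vol_shadowCylinder (isCompact_slice hK t) hw]
  exact ⟨he ▸ Sharp.integrable_area (isCompact_cds hc), by rw [← integral_area hc, ← he]⟩

theorem integral_even {f : ℝ → ℝ} (hf : Integrable f) (he : ∀ t, f (-t) = f t) :
    ∫ t, f t = 2 * ∫ t in Ioi 0, f t := by
  rw [← intervalIntegral.integral_Iic_add_Ioi (b := 0) hf.integrableOn hf.integrableOn]
  have h : ∫ t in Iic 0, f t = ∫ t in Ioi 0, f t := by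
    conv_lhs => rw [← funext he]
    rw [integral_comp_neg_Iic 0 f, neg_zero]
  linarith

section BM

/-- The root of the volume is superadditive. -/
theorem root_add (hm : m ≠ 0) {A B : Set (E m)} (hA : IsCompact A) (hB : IsCompact B)
    (hAc : Convex ℝ A) (hBc : Convex ℝ B) (ha : A.Nonempty) (hb : B.Nonempty) :
    vol A ^ ((m : ℝ)⁻¹) + vol B ^ ((m : ℝ)⁻¹) ≤ vol (A + B) ^ ((m : ℝ)⁻¹) := by
  obtain ⟨a, ha⟩ := ha
  obtain ⟨b, hb⟩ := hb
  have hm0 : ((m : ℝ)⁻¹) ≠ 0 := by positivity
  have hAB : IsCompact (A + B) := hA.add hB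
  rcases (ENNReal.toReal_nonneg (a := volume A)).eq_or_lt' with hA0 | hA0
  · rw [show vol A = 0 from hA0, Real.zero_rpow hm0, zero_add]
    refine Real.rpow_le_rpow ENNReal.toReal_nonneg ?_ (by positivity)
    rw [show vol B = vol (a +ᵥ B) by simp [vol, measure_vadd]]
    exact ENNReal.toReal_mono hAB.measure_lt_top.ne
      (measure_mono (by rintro _ ⟨x, hx, rfl⟩; exact add_mem_add ha hx))
  rcases (ENNReal.toReal_nonneg (a := volume B)).eq_or_lt' with hB0 | hB0
  · rw [show vol B = 0 from hB0, Real.zero_rpow hm0, add_zero]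
    refine Real.rpow_le_rpow ENNReal.toReal_nonneg ?_ (by positivity)
    rw [show vol A = vol (b +ᵥ A) by simp [vol, measure_vadd]]
    exact ENNReal.toReal_mono hAB.measure_lt_top.ne (measure_mono (by
      rintro _ ⟨x, hx, rfl⟩
      simpa [add_comm] using add_mem_add hx hb))
  have h := Sharp.bm_euclid hm (hA.smul (2 : ℝ)) (hB.smul (2 : ℝ)) hAB (hAc.smul 2) (hBc.smul 2)
    (by rw [Sharp.vol_smul zero_le_two]; exact mul_pos (by positivity) hA0)
    (by rw [Sharp.vol_smul zero_le_two]; exact mul_pos (by positivity) hB0)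
    (l := 1 / 2) (μ := 1 / 2) (by norm_num) (by norm_num) (by norm_num)
    (by
      rintro _ ⟨x, hx, rfl⟩ _ ⟨y, hy, rfl⟩
      simpa [smul_smul] using add_mem_add hx hy)
  rw [Sharp.vol_smul zero_le_two, Sharp.vol_smul zero_le_two,
    Real.mul_rpow (x := (2 : ℝ) ^ m) (z := (m : ℝ)⁻¹) (by positivity) (show (0 : ℝ) ≤ vol A from ENNReal.toReal_nonneg),
    Real.mul_rpow (x := (2 : ℝ) ^ m) (z := (m : ℝ)⁻¹) (by positivity) (show (0 : ℝ) ≤ vol B from ENNReal.toReal_nonneg),
    Real.pow_rpow_inv_natCast zero_le_two hm] at h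
  have h' : (vol A ^ ((m : ℝ)⁻¹) + vol B ^ ((m : ℝ)⁻¹)) ^ m ≤ vol (A + B) := by
    refine le_trans (le_of_eq ?_) h
    ring
  have hnn : 0 ≤ vol A ^ ((m : ℝ)⁻¹) + vol B ^ ((m : ℝ)⁻¹) :=
    add_nonneg (Real.rpow_nonneg ENNReal.toReal_nonneg _) (Real.rpow_nonneg ENNReal.toReal_nonneg _)
  have h2 := Real.rpow_le_rpow (pow_nonneg hnn m) h' (by positivity : (0 : ℝ) ≤ (m : ℝ)⁻¹)
  rwa [Real.pow_rpow_inv_natCast hnn hm] at h2

theorem pettyP_nonneg (m : ℕ) : 0 ≤ pettyP m :=
  mul_nonneg (pow_nonneg ENNReal.toReal_nonneg _) (zpow_nonneg ENNReal.toReal_nonneg _)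

theorem petty_compact (hm : 2 ≤ m) (hP : PettyAt m) {S : Set (E m)} (hS : IsCompact S)
    (hc : Convex ℝ S) : pettyP m * vol S ^ (m - 1) ≤ vol (projectionBody S) := by
  by_cases hi : (interior S).Nonempty
  · exact hP S hS hc hi
  · have h0 : vol S = 0 := by
      rw [vol, measure_mono_null (s := S) (t := frontier S) ?_ (hc.addHaar_frontier _), ENNReal.toReal_zero]
      rw [hS.isClosed.frontier_eq, not_nonempty_iff_eq_empty.1 hi, sdiff_empty]
    rw [h0, zero_pow (by omega), mul_zero]
    exact ENNReal.toReal_nonneg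

theorem root_projectionBody (hm : 2 ≤ m) (hP : PettyAt m) {S : Set (E m)} (hS : IsCompact S)
    (hc : Convex ℝ S) :
    pettyP m ^ ((m : ℝ)⁻¹) * vol S ^ (((m : ℝ) - 1) / m) ≤ vol (projectionBody S) ^ ((m : ℝ)⁻¹) := by
  have hv : 0 ≤ vol S := ENNReal.toReal_nonneg
  have h := Real.rpow_le_rpow (mul_nonneg (pettyP_nonneg m) (pow_nonneg hv _))
    (petty_compact hm hP hS hc) (by positivity : (0 : ℝ) ≤ (m : ℝ)⁻¹)
  rwa [Real.mul_rpow (pettyP_nonneg m) (pow_nonneg hv _), ← Real.rpow_natCast (vol S) (m - 1),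
    ← Real.rpow_mul hv, Nat.cast_sub (by omega : 1 ≤ m), Nat.cast_one, ← div_eq_mul_inv] at h

end BM

section Rings

variable {K : Set (E (m + 1))}

/-- Lower sums of projection bodies of slices along a geometric partition of `(0, a]`. -/
def ring (K : Set (E (m + 1))) (a s : ℝ) : ℕ → Set (E m)
  | 0 => {0}
  | i + 1 => ring K a s i +
      (2 * s ^ (m - 1) * (a * s ^ i * (1 - s))) • projBody (slice K (a * s ^ i))

/-- The integrand of the goal. -/
def gfun (K : Set (E (m + 1))) (t : ℝ) : ℝ := vol (slice K t) ^ (((m : ℝ) - 1) / m)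

theorem gfun_nonneg (t : ℝ) : 0 ≤ gfun K t := Real.rpow_nonneg ENNReal.toReal_nonneg _

theorem expo_nonneg (hm : 2 ≤ m) : (0 : ℝ) ≤ ((m : ℝ) - 1) / m :=
  div_nonneg (by linarith [(Nat.ofNat_le_cast.2 hm : (2 : ℝ) ≤ m)]) (by positivity)

theorem gfun_scale (hm : 2 ≤ m) (hK : IsCompact K) (hc : Convex ℝ K) (h0 : (0 : E (m + 1)) ∈ K)
    {c : ℝ} (hc0 : 0 ≤ c) (hc1 : c ≤ 1) (t : ℝ) : c ^ (m - 1) * gfun K t ≤ gfun K (c * t) := by
  have hv : 0 ≤ vol (slice K t) := ENNReal.toReal_nonneg
  have h : c ^ m * vol (slice K t) ≤ vol (slice K (c * t)) := by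
    rw [← Sharp.vol_smul hc0]
    exact ENNReal.toReal_mono (isCompact_slice hK _).measure_lt_top.ne
      (measure_mono (smul_slice_subset hc h0 hc0 hc1 t))
  have h2 := Real.rpow_le_rpow (mul_nonneg (pow_nonneg hc0 _) hv) h (expo_nonneg hm)
  have hmp : (m : ℝ) ≠ 0 := by positivity
  rwa [Real.mul_rpow (pow_nonneg hc0 _) hv, ← Real.rpow_natCast c m, ← Real.rpow_mul hc0,
    mul_div_cancel₀ _ hmp,
    show (m : ℝ) - 1 = ((m - 1 : ℕ) : ℝ) by rw [Nat.cast_sub (by omega : 1 ≤ m), Nat.cast_one],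
    Real.rpow_natCast, show ((m - 1 : ℕ) : ℝ) = (m : ℝ) - 1 by
      rw [Nat.cast_sub (by omega : 1 ≤ m), Nat.cast_one]] at h2

theorem integrable_gfun (hm : 2 ≤ m) (hK : IsCompact K) : Integrable (gfun K) := by
  obtain ⟨R, hR⟩ := hK.isBounded.exists_norm_le
  have hA := Sharp.integrable_area (isCompact_cds hK)
  have he : gfun K = fun t => Sharp.area (cds K) t ^ (((m : ℝ) - 1) / m) :=
    funext fun t => by rw [area_cds hK]; rfl
  have hb : Integrable (fun t => Sharp.area (cds K) t + (Icc (-R) R).indicator (fun _ => (1 : ℝ)) t) :=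
    hA.add ((integrable_indicator_iff measurableSet_Icc).2 (integrableOn_const measure_Icc_lt_top.ne))
  refine Integrable.mono' hb (he ▸ (hA.1.aemeasurable.pow_const _).aestronglyMeasurable)
    (Eventually.of_forall fun t => ?_)
  rw [Real.norm_of_nonneg (gfun_nonneg t), area_cds hK, gfun]
  set v := vol (slice K t)
  have hv : 0 ≤ v := ENNReal.toReal_nonneg
  have hp0 : 0 < ((m : ℝ) - 1) / m :=
    div_pos (by linarith [(Nat.ofNat_le_cast.2 hm : (2 : ℝ) ≤ m)]) (by positivity)
  by_cases ht : t ∈ Icc (-R) R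
  · rw [indicator_of_mem ht]
    rcases le_or_gt v 1 with h | h
    · linarith [Real.rpow_le_one hv h hp0.le]
    · have := Real.rpow_le_rpow_of_exponent_le h.le (show ((m : ℝ) - 1) / m ≤ 1 by
        rw [div_le_one (by positivity)]; linarith)
      rw [Real.rpow_one] at this
      linarith
  · have : slice K t = ∅ := eq_empty_iff_forall_notMem.2 fun y hy =>
      ht (abs_le.1 ((norm_le_lift t y).1.trans (hR _ hy)))
    rw [indicator_of_notMem ht, show v = 0 by simp [v, this, vol], Real.zero_rpow hp0.ne']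
    simp

theorem ring_props (hm : 2 ≤ m) (hP : PettyAt m) (hK : IsCompact K) (hc : Convex ℝ K) {a s : ℝ}
    (ha : 0 ≤ a) (hs : 0 ≤ s) (hs1 : s ≤ 1) : ∀ i : ℕ,
      IsCompact (ring K a s i) ∧ Convex ℝ (ring K a s i) ∧ (ring K a s i).Nonempty ∧
        pettyP m ^ ((m : ℝ)⁻¹) * ∑ l ∈ Finset.range i,
            2 * s ^ (m - 1) * (a * s ^ l * (1 - s)) * gfun K (a * s ^ l)
          ≤ vol (ring K a s i) ^ ((m : ℝ)⁻¹) := by
  intro i
  induction i with
  | zero =>
    exact ⟨isCompact_singleton, convex_singleton 0, singleton_nonempty 0, by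
      simp [Real.rpow_nonneg, vol]⟩
  | succ i ih =>
    obtain ⟨hRc, hRv, hRn, hR⟩ := ih
    set c := 2 * s ^ (m - 1) * (a * s ^ i * (1 - s))
    have hc0 : 0 ≤ c := mul_nonneg (by positivity) (mul_nonneg (by positivity) (sub_nonneg.2 hs1))
    set Q := projBody (slice K (a * s ^ i))
    have hQ : IsCompact Q ∧ Convex ℝ Q ∧ Q.Nonempty :=
      ⟨Three.Iter.isCompact_projBody _, Three.Iter.convex_projBody _,
        ⟨0, Three.Iter.zero_mem_projBody _⟩⟩
    refine ⟨hRc.add (hQ.1.smul c), hRv.add (hQ.2.1.smul c), hRn.add hQ.2.2.smul_set, ?_⟩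
    refine le_trans ?_ (root_add (by omega) hRc (hQ.1.smul c) hRv (hQ.2.1.smul c) hRn hQ.2.2.smul_set)
    rw [Finset.sum_range_succ, mul_add]
    refine add_le_add hR ?_
    rw [Sharp.vol_smul hc0, Real.mul_rpow (x := c ^ m) (y := vol Q) (pow_nonneg hc0 _) ENNReal.toReal_nonneg,
      Real.pow_rpow_inv_natCast hc0 (by omega), mul_left_comm]
    refine mul_le_mul_of_nonneg_left ?_ hc0
    have h := root_projectionBody hm hP (isCompact_slice hK (a * s ^ i)) (convex_slice hc _)
    rwa [projectionBody_eq (isCompact_slice hK _)] at h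

theorem ring_le (hm : 2 ≤ m) (hK : IsCompact K) (hc : Convex ℝ K) (h0 : (0 : E (m + 1)) ∈ K)
    (hsym : ∀ x ∈ K, -x ∈ K) {a s : ℝ} (ha : 0 < a) (hs : 0 < s) (hs1 : s ≤ 1) {w : E m}
    (hw : ‖w‖ = 1) (i : ℕ) :
    ∀ y ∈ ring K a s i, ⟪y, w⟫ ≤ vol (shadowCylinder K (lift 0 w)) := by
  set F := fun t => projArea (slice K t) w
  obtain ⟨hFi, hFv⟩ := shadow_eq_integral hK hw
  have hFe : ∀ t, F (-t) = F t := fun t => by
    simp only [F, slice_neg hsym, projArea_neg_image (isCompact_slice hK t) hw]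
  have hFn : ∀ t, 0 ≤ F t := fun t => ENNReal.toReal_nonneg
  have key : ∀ i : ℕ, ∀ y ∈ ring K a s i, ⟪y, w⟫ ≤ 2 * ∫ t in Ioc (a * s ^ i) a, F t := by
    intro i
    induction i with
    | zero => rintro y rfl; simp
    | succ i ih =>
      rintro _ ⟨y, hy, _, ⟨q, hq, rfl⟩, rfl⟩
      have h1 := ih y hy
      have hb : a * s ^ (i + 1) ≤ a * s ^ i :=
        mul_le_mul_of_nonneg_left (pow_le_pow_of_le_one hs.le hs1 (Nat.le_succ i)) ha.le
      have hba : a * s ^ i ≤ a := mul_le_of_le_one_right ha.le (pow_le_one₀ hs.le hs1)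
      rw [← Ioc_union_Ioc_eq_Ioc hb hba, setIntegral_union (Ioc_disjoint_Ioc_of_le le_rfl)
        measurableSet_Ioc hFi.integrableOn hFi.integrableOn]
      have hlow : ∀ t ∈ Ioc (a * s ^ (i + 1)) (a * s ^ i), s ^ (m - 1) * F (a * s ^ i) ≤ F t :=
        fun t ht => by
        have hb0 : 0 < a * s ^ i := by positivity
        set c := t / (a * s ^ i)
        have hc1 : c ≤ 1 := (div_le_one hb0).2 ht.2
        have hcs : s ≤ c := by
          rw [le_div_iff₀ hb0]
          refine le_trans (le_of_eq ?_) ht.1.le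
          ring
        have hct : c * (a * s ^ i) = t := div_mul_cancel₀ _ hb0.ne'
        calc s ^ (m - 1) * F (a * s ^ i) ≤ c ^ (m - 1) * F (a * s ^ i) :=
              mul_le_mul_of_nonneg_right (pow_le_pow_left₀ hs.le hcs _) (hFn _)
          _ = projArea (c • slice K (a * s ^ i)) w :=
              (Three.Iter.projArea_smul _ hw (hs.le.trans hcs)).symm
          _ ≤ F t := by
              rw [← hct]
              exact Three.Iter.projArea_mono (isCompact_slice hK _)
                (smul_slice_subset hc h0 (hs.le.trans hcs) hc1 _) w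
      have hI := setIntegral_ge_of_const_le_real measurableSet_Ioc measure_Ioc_lt_top.ne hlow
        hFi.integrableOn
      rw [measureReal_def, Real.volume_Ioc, ENNReal.toReal_ofReal (sub_nonneg.2 hb)] at hI
      have h2 : ⟪q, w⟫ ≤ F (a * s ^ i) := hq w hw
      rw [inner_add_left, real_inner_smul_left]
      have h3 : 2 * s ^ (m - 1) * (a * s ^ i * (1 - s)) * ⟪q, w⟫
          ≤ 2 * (s ^ (m - 1) * F (a * s ^ i) * (a * s ^ i - a * s ^ (i + 1))) := by
        refine (mul_le_mul_of_nonneg_left h2 (mul_nonneg (by positivity)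
          (mul_nonneg (by positivity) (sub_nonneg.2 hs1)))).trans (le_of_eq ?_)
        ring
      linarith
  intro y hy
  rw [← hFv, integral_even hFi hFe]
  refine (key i y hy).trans (mul_le_mul_of_nonneg_left ?_ zero_le_two)
  exact setIntegral_mono_set hFi.integrableOn (Eventually.of_forall hFn)
    (Eventually.of_forall fun t ht => lt_of_le_of_lt (by positivity : (0 : ℝ) ≤ a * s ^ i) ht.1)

/-- A set with support values below the shadow volumes lies in the shadow of the projection body. -/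
theorem vol_le_shadow (hm : 1 ≤ m) (hK : IsCompact K) (hc : Convex ℝ K)
    (hi : (interior K).Nonempty) {P : Set (E m)} (hPc : IsCompact P)
    (hP : ∀ y ∈ P, ∀ w : E m, ‖w‖ = 1 → ⟪y, w⟫ ≤ vol (shadowCylinder K (lift 0 w))) :
    vol P ≤ vol (shadowCylinder (projectionBody K) (EuclideanSpace.single 0 1)) := by
  rw [projectionBody_eq hK]
  set Z := projBody K
  obtain ⟨hZc, hZx, -⟩ := Three.body_projBody (by omega) hK hi
  set e : E (m + 1) := EuclideanSpace.single 0 1
  have he : ‖e‖ = 1 := by simp [e]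
  set τ : E (m + 1) →ₗ[ℝ] E m :=
    { toFun := fun z => WithLp.toLp 2 fun i => z i.succ
      map_add' := fun z z' => by ext i; simp
      map_smul' := fun c z => by ext i; simp }
  have hτ : ∀ (t : ℝ) (y : E m), τ (lift t y) = y := fun t y => by ext i; simp [τ, lift]
  have hlift : ∀ z : E (m + 1), lift (z 0) (τ z) = z := fun z => by
    ext i; refine Fin.cases ?_ (fun j => ?_) i <;> simp [τ, lift]
  set T := τ '' Z
  have hTc : IsCompact T := hZc.image τ.continuous_of_finiteDimensional
  have hPT : P ⊆ T := fun y hy => by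
    by_contra hyT
    obtain ⟨f, u, hu, hfy⟩ := geometric_hahn_banach_closed_point (hZx.linear_image τ) hTc.isClosed hyT
    set a := (InnerProductSpace.toDual ℝ (E m)).symm f
    have hf : ∀ x, f x = ⟪x, a⟫ := fun x => by
      rw [real_inner_comm, InnerProductSpace.toDual_symm_apply]
    have ha : a ≠ 0 := fun h => by
      have h1 := hu (τ 0) ⟨0, Three.Iter.zero_mem_projBody K, rfl⟩
      rw [hf, h, inner_zero_right] at h1
      rw [hf, h, inner_zero_right] at hfy
      linarith
    set w := ‖a‖⁻¹ • a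
    have hw : ‖w‖ = 1 := by
      rw [norm_smul, norm_inv, norm_norm, inv_mul_cancel₀ (norm_ne_zero_iff.2 ha)]
    have hlub := Three.isLUB_projBody (by omega) hK hc hi (lift_norm hw)
    have h1 := hP y hy w hw
    rw [vol_shadowCylinder hK (lift_norm hw)] at h1
    have h2 : projArea K (lift 0 w) ≤ ‖a‖⁻¹ * u := by
      refine (isLUB_le_iff hlub).2 ?_
      rintro _ ⟨z, hz, rfl⟩
      show ⟪z, lift 0 w⟫ ≤ _
      rw [← hlift z, lift_inner, mul_zero, zero_add, real_inner_smul_right, ← hf]
      exact mul_le_mul_of_nonneg_left (hu _ ⟨z, hz, rfl⟩).le (by positivity)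
    rw [real_inner_smul_right, ← hf] at h1
    have h3 := le_of_mul_le_mul_left (h1.trans h2) (inv_pos.2 (norm_pos_iff.2 ha))
    linarith
  have hcyl := isCompact_shadowCylinder hZc he
  rw [← integral_area hcyl]
  have h01 : ∀ t ∈ Icc (0 : ℝ) 1, vol P ≤ Sharp.area (cds (shadowCylinder Z e)) t := fun t ht => by
    rw [area_cds hcyl]
    refine ENNReal.toReal_mono (isCompact_slice hcyl t).measure_lt_top.ne (measure_mono fun y hy => ?_)
    obtain ⟨z, hz, hzy⟩ := hPT hy
    have hel : e = lift 1 0 := by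
      ext i; refine Fin.cases ?_ (fun j => ?_) i <;> simp [e, lift]
    refine ⟨?_, z 0 - t, ?_⟩
    · rw [hel, lift_inner]; simpa using ht
    · rw [hel, lift_smul, lift_add, smul_zero, add_zero, mul_one, add_sub_cancel, ← hzy, hlift]
      exact hz
  have h := setIntegral_ge_of_const_le_real measurableSet_Icc measure_Icc_lt_top.ne h01
    (Sharp.integrable_area (isCompact_cds hcyl)).integrableOn
  rw [measureReal_def, Real.volume_Icc] at h
  simp only [sub_zero, ENNReal.ofReal_one, ENNReal.toReal_one, mul_one] at h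
  exact h.trans (setIntegral_le_integral (Sharp.integrable_area (isCompact_cds hcyl))
    (Eventually.of_forall fun t => ENNReal.toReal_nonneg))

theorem sum_ge_integral (hm : 2 ≤ m) (hK : IsCompact K) (hc : Convex ℝ K) (h0 : (0 : E (m + 1)) ∈ K)
    {a s : ℝ} (ha : 0 < a) (hs : 0 < s) (hs1 : s ≤ 1) (i : ℕ) :
    s ^ m * ∫ t in Ioc (a * s ^ i) a, gfun K t
      ≤ ∑ l ∈ Finset.range i, a * s ^ (l + 1) * (1 - s) * gfun K (a * s ^ (l + 1)) := by
  have hgi := integrable_gfun hm hK
  induction i with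
  | zero => simp
  | succ i ih =>
    have hb : a * s ^ (i + 1) ≤ a * s ^ i :=
      mul_le_mul_of_nonneg_left (pow_le_pow_of_le_one hs.le hs1 (Nat.le_succ i)) ha.le
    have hba : a * s ^ i ≤ a := mul_le_of_le_one_right ha.le (pow_le_one₀ hs.le hs1)
    rw [← Ioc_union_Ioc_eq_Ioc hb hba, setIntegral_union (Ioc_disjoint_Ioc_of_le le_rfl)
      measurableSet_Ioc hgi.integrableOn hgi.integrableOn, Finset.sum_range_succ, mul_add,
      add_comm]
    refine add_le_add ih ?_
    have hb1 : 0 < a * s ^ (i + 1) := by positivity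
    have hlow : ∀ t ∈ Ioc (a * s ^ (i + 1)) (a * s ^ i),
        s ^ (m - 1) * gfun K t ≤ gfun K (a * s ^ (i + 1)) := fun t ht => by
      have ht0 : 0 < t := hb1.trans ht.1
      set c := a * s ^ (i + 1) / t
      have hc1 : c ≤ 1 := (div_le_one ht0).2 ht.1.le
      have hcs : s ≤ c := by
        rw [le_div_iff₀ ht0]
        refine (mul_le_mul_of_nonneg_left ht.2 hs.le).trans (le_of_eq ?_)
        ring
      calc s ^ (m - 1) * gfun K t ≤ c ^ (m - 1) * gfun K t :=
            mul_le_mul_of_nonneg_right (pow_le_pow_left₀ hs.le hcs _) (gfun_nonneg t)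
        _ ≤ gfun K (c * t) := gfun_scale hm hK hc h0 (hs.le.trans hcs) hc1 t
        _ = _ := by rw [div_mul_cancel₀ _ ht0.ne']
    have h := setIntegral_mono_on (g := fun _ => gfun K (a * s ^ (i + 1)))
      (hgi.integrableOn.const_mul _) (integrableOn_const measure_Ioc_lt_top.ne) measurableSet_Ioc hlow
    rw [integral_const_mul, setIntegral_const, Real.volume_real_Ioc_of_le hb, smul_eq_mul] at h
    obtain ⟨j, rfl⟩ : ∃ j, m = j + 1 := ⟨m - 1, by omega⟩
    rw [Nat.add_sub_cancel] at h
    have h2 := mul_le_mul_of_nonneg_left h hs.le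
    refine le_trans (le_of_eq ?_) (h2.trans (le_of_eq ?_)) <;> ring

end Rings

/-- Petty's inequality in dimension `m` bounds the shadow of the projection body one dimension up. -/
theorem shadowStep (hm : 2 ≤ m) (hP : PettyAt m) {K : Set (E (m + 1))} (hK : IsCompact K)
    (hc : Convex ℝ K) (hi : (interior K).Nonempty) (hsym : ∀ x ∈ K, -x ∈ K) :
    pettyP m * sliceInt K ^ m ≤
      vol (shadowCylinder (projectionBody K) (EuclideanSpace.single 0 1)) := by
  obtain ⟨x₀, hx₀⟩ := hi
  have h0 : (0 : E (m + 1)) ∈ K := by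
    have h := hc (interior_subset hx₀) (hsym _ (interior_subset hx₀))
      (by norm_num : (0 : ℝ) ≤ 1 / 2) (by norm_num : (0 : ℝ) ≤ 1 / 2) (by norm_num)
    simpa using h
  set T := vol (shadowCylinder (projectionBody K) (EuclideanSpace.single 0 1))
  obtain ⟨R, hR, hKR⟩ := hK.isBounded.subset_closedBall_lt 0 (0 : E (m + 1))
  have hgi := integrable_gfun hm hK
  have hge : ∀ t, gfun K (-t) = gfun K t := fun t => by
    simp only [gfun, slice_neg hsym, vol_neg_image]
  have hG : sliceInt K = 2 * ∫ t in Ioi 0, gfun K t := integral_even hgi hge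
  set p := pettyP m ^ ((m : ℝ)⁻¹)
  have hp : 0 ≤ p := Real.rpow_nonneg (pettyP_nonneg m) _
  set I := ∫ t in Ioi 0, gfun K t
  have hroot : ∀ s : ℝ, 0 < s → s < 1 → ∀ i : ℕ,
      p * (2 * s ^ (m - 1) * (s ^ m * ∫ t in Ioc (R * s ^ i) R, gfun K t)) ≤ T ^ ((m : ℝ)⁻¹) := by
    intro s hs hs1 i
    obtain ⟨hc', -, -, hlow⟩ := ring_props hm hP hK hc hR.le hs.le hs1.le (i + 1)
    have hvol := vol_le_shadow (by omega) hK hc ⟨x₀, hx₀⟩ hc'
      fun y hy w hw => ring_le hm hK hc h0 hsym hR hs hs1.le hw (i + 1) y hy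
    refine le_trans ?_ (hlow.trans (Real.rpow_le_rpow ENNReal.toReal_nonneg hvol (by positivity)))
    refine mul_le_mul_of_nonneg_left ?_ hp
    rw [Finset.sum_range_succ']
    refine le_add_of_le_of_nonneg ?_ (mul_nonneg (mul_nonneg (by positivity)
      (mul_nonneg (by positivity) (by linarith))) (gfun_nonneg _))
    refine (mul_le_mul_of_nonneg_left (sum_ge_integral hm hK hc h0 hR hs hs1.le i)
      (by positivity)).trans (le_of_eq ?_)
    rw [Finset.mul_sum]
    exact Finset.sum_congr rfl fun l _ => by ring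
  have hlim1 : ∀ s : ℝ, 0 < s → s < 1 → p * (2 * s ^ (m - 1) * (s ^ m * I)) ≤ T ^ ((m : ℝ)⁻¹) := by
    intro s hs hs1
    have hI : I = ∫ t in Ioc 0 R, gfun K t := by
      refine setIntegral_eq_of_subset_of_forall_sdiff_eq_zero measurableSet_Ioi Ioc_subset_Ioi_self
        fun t ht => ?_
      have htR : R < t := not_le.1 fun h => ht.2 ⟨ht.1, h⟩
      have : slice K t = ∅ := eq_empty_iff_forall_notMem.2 fun y hy => by
        have := ((le_abs_self t).trans (norm_le_lift t y).1).trans (mem_closedBall_zero_iff.1 (hKR hy))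
        linarith
      simp only [gfun, this, vol, measure_empty, ENNReal.toReal_zero]
      exact Real.zero_rpow (div_pos (by linarith [(Nat.ofNat_le_cast.2 hm : (2 : ℝ) ≤ m)])
        (by positivity)).ne'
    have hcont : Continuous fun b => ∫ t in b..R, gfun K t := by
      simp only [intervalIntegral.integral_symm R]
      exact (hgi.continuous_primitive R).neg
    have ht : Tendsto (fun i : ℕ => ∫ t in R * s ^ i..R, gfun K t) atTop (𝓝 I) := by
      rw [hI, ← intervalIntegral.integral_of_le hR.le]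
      refine (hcont.tendsto 0).comp ?_
      simpa using (tendsto_pow_atTop_nhds_zero_of_lt_one hs.le hs1).const_mul R
    refine le_of_tendsto' (((ht.const_mul (s ^ m)).const_mul _).const_mul p) fun i => ?_
    rw [intervalIntegral.integral_of_le (mul_le_of_le_one_right hR.le (pow_le_one₀ hs.le hs1.le))]
    exact hroot s hs hs1 i
  have hlim2 : p * (2 * I) ≤ T ^ ((m : ℝ)⁻¹) := by
    have hc : Continuous fun s : ℝ => p * (2 * s ^ (m - 1) * (s ^ m * I)) := by fun_prop
    have := le_of_tendsto ((hc.tendsto 1).mono_left (nhdsWithin_le_nhds (s := Iio 1)))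
      ((Ioo_mem_nhdsLT zero_lt_one : Ioo (0 : ℝ) 1 ∈ 𝓝[<] 1) |> mem_of_superset <| fun s hs =>
        hlim1 s hs.1 hs.2)
    simpa using this
  have hI0 : 0 ≤ I := setIntegral_nonneg measurableSet_Ioi fun t _ => gfun_nonneg t
  rw [hG]
  calc pettyP m * (2 * I) ^ m = (p * (2 * I)) ^ m := by
        rw [mul_pow p, Real.rpow_inv_natCast_pow (pettyP_nonneg m) (by omega)]
    _ ≤ (T ^ ((m : ℝ)⁻¹)) ^ m := pow_le_pow_left₀ (by positivity) hlim2 m
    _ = T := Real.rpow_inv_natCast_pow ENNReal.toReal_nonneg (by omega)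

/-- `ShadowStmt`. -/
theorem shadowStmt (hm : 2 ≤ m) : ShadowStmt m := by
  rintro hP K ⟨⟨hK, hc, hi⟩, hsym, -, hwidth⟩
  set e : E (m + 1) := EuclideanSpace.single 0 1
  have he : ‖e‖ = 1 := by simp [e]
  refine le_trans ?_ ((shadowStep hm hP hK hc hi hsym).trans ?_)
  · have hk : 0 < kappa m := Sharp.kappa_pos' m
    set ex := ((m : ℝ) - 1) / m
    have hcd : coords K = cds K := rfl
    have hsupp : ∀ t, t ∉ Icc (-1 : ℝ) 1 → gfun K t = 0 := fun t ht => by
      have : slice K t = ∅ := eq_empty_iff_forall_notMem.2 fun y hy => by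
        refine ht (abs_le.1 ?_)
        simpa [lift] using hwidth _ hy
      simp only [gfun, this, vol, measure_empty, ENNReal.toReal_zero]
      exact Real.zero_rpow (div_pos (by linarith [(Nat.ofNat_le_cast.2 hm : (2 : ℝ) ≤ m)])
        (by positivity)).ne'
    have hprof : ∀ t, profile K t ^ (m - 1) = (kappa m ^ ex)⁻¹ * gfun K t := fun t => by
      have hv : 0 ≤ vol (slice K t) := ENNReal.toReal_nonneg
      rw [profile, hcd, area_cds hK, ← Real.rpow_natCast, ← Real.rpow_mul (div_nonneg hv hk.le),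
        show (m : ℝ)⁻¹ * ((m - 1 : ℕ) : ℝ) = ex by
          rw [Nat.cast_sub (by omega : 1 ≤ m), Nat.cast_one]; ring,
        Real.div_rpow hv hk.le, gfun, div_eq_inv_mul]
    have hint : ∫ t in (-1 : ℝ)..1, profile K t ^ (m - 1) = (kappa m ^ ex)⁻¹ * sliceInt K := by
      rw [intervalIntegral.integral_of_le (by norm_num), ← integral_Icc_eq_integral_Ioc]
      simp only [hprof]
      rw [integral_const_mul, setIntegral_eq_integral_of_forall_compl_eq_zero hsupp]
      rfl
    rw [hint, mul_pow, mul_assoc, ← mul_assoc (kappa m ^ (m - 1))]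
    refine le_of_eq ?_
    rw [inv_pow, ← Real.rpow_natCast (kappa m ^ ex), ← Real.rpow_mul hk.le,
      show ex * (m : ℝ) = ((m - 1 : ℕ) : ℝ) by
        simp only [ex]
        rw [Nat.cast_sub (by omega : 1 ≤ m), Nat.cast_one]
        field_simp,
      Real.rpow_natCast, mul_inv_cancel₀ (pow_ne_zero _ hk.ne'), one_mul]
  · obtain ⟨hZc, hZx, hZi⟩ := Three.body_projBody (by omega) hK hi
    rw [projectionBody_eq hK, projectionBody_eq hZc, vol_shadowCylinder hZc he]
    exact ((Three.isLUB_projBody (by omega) hZc hZx hZi he).csSup_eq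
      ⟨0, 0, Three.Iter.zero_mem_projBody _, inner_zero_left _⟩).ge

end Vale.Agent.P237.All
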