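import Vale.Agent.P237.All.Final
import Vale.Agent.P237.All.Shadow
import Vale.Agent.P237.All.JohnPos

/-!
P237, every dimension: some direction in which the second projection body is large, from a
selected contact direction in which the profile bound holds (`notes/P237h6/alln.md`).
-/

noncomputable section

open MeasureTheory Set Metric Real
open scoped Pointwise RealInnerProductSpace

namespace Vale.Agent.P237.All

open Three (IsBody IsSymm vol_pos)

variable {n m : ℕ}

/-- The second projection body is covariant. -/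
theorem projectionBody_twice (hn : 2 ≤ n) {K : Set (E n)} (hK : IsBody K) (S : E n ≃ₗ[ℝ] E n) :
    projectionBody (projectionBody (S '' K)) =
      |LinearMap.det (S : E n →ₗ[ℝ] E n)| ^ (n - 2) •
        (S '' projectionBody (projectionBody K)) := by
  set S' := (S : E n →ₗ[ℝ] E n)
  set D := |LinearMap.det S'|
  have hD : 0 < D := abs_pos.2 (LinearEquiv.isUnit_det' S).ne_zero
  have hdet : LinearMap.det (D⁻¹ • LinearMap.adjoint S') = D⁻¹ ^ n * LinearMap.det S' := by
    set b := EuclideanSpace.basisFun (Fin n) ℝ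
    rw [LinearMap.det_smul, finrank_euclideanSpace_fin,
      ← LinearMap.det_toMatrix b.toBasis (LinearMap.adjoint S'),
      LinearMap.toMatrix_adjoint b b, Matrix.det_conjTranspose, LinearMap.det_toMatrix,
      star_trivial]
  have hT0 : LinearMap.det (D⁻¹ • LinearMap.adjoint S') ≠ 0 := by
    rw [hdet]
    exact mul_ne_zero (pow_ne_zero _ (inv_ne_zero hD.ne')) (LinearEquiv.isUnit_det' S).ne_zero
  set T := (D⁻¹ • LinearMap.adjoint S').equivOfDetNeZero hT0
  have hTcoe : ∀ x, T x = D⁻¹ • LinearMap.adjoint S' x := fun x => rfl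
  have h1 : projectionBody (S '' K) = T.symm '' projectionBody K := by
    rw [Three.projectionBody_image hK.1]
    exact (Equiv.image_symm_eq_preimage T.toEquiv _).symm
  rw [h1, Three.projectionBody_image (support (by omega) hK).1.1 T.symm]
  set M := |LinearMap.det (T.symm : E n →ₗ[ℝ] E n)|
  have hM : M = D ^ (n - 2) * D := by
    show |LinearMap.det (T.symm : E n →ₗ[ℝ] E n)| = _
    rw [LinearEquiv.det_coe_symm, show (T : E n →ₗ[ℝ] E n) = D⁻¹ • LinearMap.adjoint S' from rfl,
      hdet, abs_inv, abs_mul, abs_pow, abs_inv, abs_of_pos hD]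
    change (D⁻¹ ^ n * D)⁻¹ = D ^ (n - 2) * D
    obtain ⟨k, rfl⟩ : ∃ k, n = k + 2 := ⟨n - 2, by omega⟩
    simp only [Nat.add_sub_cancel, inv_pow]
    field_simp
    ring
  have hadj : ∀ y, LinearMap.adjoint (T.symm : E n →ₗ[ℝ] E n) y = D • S.symm y := fun y => by
    refine ext_inner_right ℝ fun x => ?_
    obtain ⟨z, rfl⟩ := T.surjective x
    rw [LinearMap.adjoint_inner_left, LinearEquiv.coe_coe, T.symm_apply_apply, hTcoe,
      inner_smul_left, inner_smul_right, LinearMap.adjoint_inner_right]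
    simp [S', ← mul_assoc, mul_inv_cancel₀ hD.ne']
  have hDp : 0 < D ^ (n - 2) := pow_pos hD _
  ext y
  rw [mem_preimage, LinearMap.smul_apply, hadj, hM, smul_smul,
    mem_smul_set_iff_inv_smul_mem₀ hDp.ne',
    show (D ^ (n - 2) * D)⁻¹ * D = (D ^ (n - 2))⁻¹ by field_simp,
    LinearEquiv.image_eq_preimage_symm, mem_preimage, map_smul]

theorem supp_image (S : E n →ₗ[ℝ] E n) (K : Set (E n)) (v : E n) :
    supp (S '' K) v = supp K (LinearMap.adjoint S v) := by
  rw [supp, supp, image_image]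
  congr 1
  exact image_congr fun x _ => (LinearMap.adjoint_inner_right S x v).symm

theorem supp_smul {c : ℝ} (hc : 0 ≤ c) (K : Set (E n)) (v : E n) :
    supp K (c • v) = c * supp K v := by
  rw [← supp_smul_set hc, supp, supp, ← image_smul, image_image]
  congr 1
  exact image_congr fun x _ => by rw [real_inner_smul_left, real_inner_smul_right]

/-- A supported body has support one along the first axis. -/
theorem supp_supported {K : Set (E (m + 1))} (hK : Supported K) :
    supp K (EuclideanSpace.single 0 1) = 1 := by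
  obtain ⟨hb, -, hball, hw⟩ := hK
  set e : E (m + 1) := EuclideanSpace.single 0 1
  have hin : ∀ x : E (m + 1), ⟪x, e⟫ = x 0 := fun x => by
    simp [e, EuclideanSpace.inner_single_right]
  have he : e ∈ K := hball (by simp [e])
  refine le_antisymm (csSup_le (Set.Nonempty.image _ ⟨e, he⟩) ?_) ?_
  · rintro _ ⟨x, hx, rfl⟩
    exact (hin x).trans_le ((le_abs_self _).trans (hw x hx))
  · refine le_csSup (hb.1.image (by fun_prop)).bddAbove ⟨e, he, ?_⟩
    simp only [hin]; simp [e]

/-- The volume of the ball from the ball one dimension down. -/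
theorem kappa_succ (hm : 1 ≤ m) :
    kappa (m + 1) = kappa m * ∫ t in (-1 : ℝ)..1, semi t ^ m := by
  have : Nonempty (Fin m) := ⟨⟨0, hm⟩⟩
  have hsq : ∀ (t : ℝ) (y : E m), ‖lift t y‖ ^ 2 = t ^ 2 + ‖y‖ ^ 2 := fun t y => by
    rw [← real_inner_self_eq_norm_sq, lift_inner, real_inner_self_eq_norm_sq]; ring
  have hout : ∀ t, t ∉ Icc (-1 : ℝ) 1 → Sharp.area (cds (closedBall (0 : E (m + 1)) 1)) t = 0 :=
    fun t ht => by
      have : slice (closedBall (0 : E (m + 1)) 1) t = ∅ := eq_empty_iff_forall_notMem.2 fun y hy =>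
        ht (abs_le.1 ((norm_le_lift t y).1.trans (mem_closedBall_zero_iff.1 hy)))
      rw [area_cds (isCompact_closedBall _ _), this, vol, measure_empty, ENNReal.toReal_zero]
  have harea : ∀ t ∈ Icc (-1 : ℝ) 1, Sharp.area (cds (closedBall (0 : E (m + 1)) 1)) t =
      kappa m * semi t ^ m := fun t ht => by
    have hp : 0 ≤ 1 - t ^ 2 := by nlinarith [ht.1, ht.2]
    have : slice (closedBall (0 : E (m + 1)) 1) t = closedBall (0 : E m) (semi t) := by
      ext y
      show lift t y ∈ closedBall (0 : E (m + 1)) 1 ↔ _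
      rw [mem_closedBall_zero_iff, mem_closedBall_zero_iff, semi,
        Real.le_sqrt (norm_nonneg _) hp, ← sq_le_one_iff₀ (norm_nonneg _), hsq]
      constructor <;> intro h <;> linarith
    rw [area_cds (isCompact_closedBall _ _), this, vol,
      Measure.addHaar_closedBall volume _ (show (0 : ℝ) ≤ semi t from Real.sqrt_nonneg _),
      finrank_euclideanSpace_fin,
      ENNReal.toReal_mul, ENNReal.toReal_ofReal (pow_nonneg (show (0 : ℝ) ≤ semi t from Real.sqrt_nonneg _) _), kappa,
      mul_comm]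
  have hk : kappa (m + 1) = vol (closedBall (0 : E (m + 1)) 1) := by
    rw [kappa, vol, Measure.addHaar_closedBall_eq_addHaar_ball]
  rw [hk, ← integral_area (isCompact_closedBall _ _),
    ← setIntegral_eq_integral_of_forall_compl_eq_zero hout,
    setIntegral_congr_fun measurableSet_Icc harea, integral_const_mul,
    intervalIntegral.integral_of_le (by norm_num : (-1 : ℝ) ≤ 1), integral_Icc_eq_integral_Ioc]

/-- The constants of consecutive dimensions agree on the ball. -/
theorem pettyP_succ (hm : 2 ≤ m) :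
    pettyP (m + 1) * (∫ t in (-1 : ℝ)..1, semi t ^ m) ^ (m - 1) =
      pettyP m * (∫ t in (-1 : ℝ)..1, semi t ^ (m - 1)) ^ m := by
  obtain ⟨k, rfl⟩ : ∃ k, m = k + 2 := ⟨m - 2, by omega⟩
  have h1 := kappa_succ (m := k + 1) (by omega)
  have h2 := kappa_succ (m := k + 2) (by omega)
  simp only [show k + 2 - 1 = k + 1 by omega]
  set I := ∫ t in (-1 : ℝ)..1, semi t ^ (k + 1)
  set J := ∫ t in (-1 : ℝ)..1, semi t ^ (k + 2)
  have hI : I = kappa (k + 2) / kappa (k + 1) := by
    rw [h1, mul_comm, mul_div_cancel_right₀ _ (Sharp.kappa_pos' _).ne']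
  have hJ : J = kappa (k + 3) / kappa (k + 2) := by
    rw [h2, mul_comm, mul_div_cancel_right₀ _ (Sharp.kappa_pos' _).ne']
  have ha := Sharp.kappa_pos' (k + 1)
  have hb := Sharp.kappa_pos' (k + 2)
  have hc := Sharp.kappa_pos' (k + 3)
  simp only [pettyP, show k + 2 + 1 - 1 = k + 2 by omega, show k + 2 - 1 = k + 1 by omega,
    show ((2 : ℤ) - ((k + 2 + 1 : ℕ) : ℤ)) = -((k + 1 : ℕ) : ℤ) by push_cast; ring,
    show ((2 : ℤ) - ((k + 2 : ℕ) : ℤ)) = -((k : ℕ) : ℤ) by push_cast; ring,
    zpow_neg, zpow_natCast, show k + 2 + 1 = k + 3 by omega, hI, hJ, div_pow]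
  field_simp
  ring

/-- The key statement from the selection of a direction and the profile bound. -/
theorem keyStmt_of (hm : 2 ≤ m) {P : (ℝ → ℝ) → Prop} (hpetty : PettyAt m)
    (hsl : SlicesStmt m)
    (hsel : ∀ K : Set (E (m + 1)), JohnPos K →
      ∃ S : E (m + 1) ≃ₗ[ℝ] E (m + 1), Supported (S '' K) ∧ P (profile (S '' K)))
    (hlem : ∀ f : ℝ → ℝ, IsProfile f → P f → ProfileBound m f) : KeyStmt (m + 1) := by
  intro K hK hs
  obtain ⟨S₁, hJ⟩ := johnStmt (m + 1) K hK hs
  obtain ⟨S₂, hP, hPf⟩ := hsel _ hJ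
  set S := S₁.trans S₂
  have hKS : S₂ '' (S₁ '' K) = S '' K := image_image _ _ _
  rw [hKS] at hP hPf
  set S' := (S : E (m + 1) →ₗ[ℝ] E (m + 1))
  set D := |LinearMap.det S'|
  have hD : 0 < D := abs_pos.2 (LinearEquiv.isUnit_det' S).ne_zero
  obtain ⟨hprof, hvol, hball⟩ := hsl _ hP
  obtain ⟨hlem', hlemeq⟩ := hlem _ hprof hPf
  have hsh := shadowStmt hm hpetty _ hP
  have hid := pettyP_succ hm
  set f := profile (S '' K)
  set I := ∫ t in (-1 : ℝ)..1, f t ^ (m - 1)
  set J := ∫ t in (-1 : ℝ)..1, f t ^ m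
  set I₀ := ∫ t in (-1 : ℝ)..1, semi t ^ (m - 1)
  set J₀ := ∫ t in (-1 : ℝ)..1, semi t ^ m
  set e₀ : E (m + 1) := EuclideanSpace.single 0 1
  set a := LinearMap.adjoint S' e₀
  set L := projectionBody (projectionBody K)
  have hJ₀ : 0 < J₀ := pos_of_mul_pos_right
    ((kappa_succ (by omega : 1 ≤ m)) ▸ Sharp.kappa_pos' (m + 1)) (Sharp.kappa_pos' m).le
  have hsuppL : supp (projectionBody (projectionBody (S '' K))) e₀ = D ^ (m - 1) * supp L a := by
    rw [projectionBody_twice (by omega) hK S, show m + 1 - 2 = m - 1 by omega,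
      supp_smul_set (pow_nonneg hD.le _), show (S '' L) = S' '' L from rfl, supp_image]
  have hsuppK : supp K a = 1 := by
    rw [← supp_image]
    exact supp_supported hP
  have hvK : kappa m * J = D * vol K := by rw [← hvol]; exact Three.vol_image_equiv S K
  -- the bound on the turned body, and its equality case
  set R := pettyP (m + 1) * vol K ^ (m - 1)
  have hkey : R * D ^ (m - 1) * J₀ ^ (m - 1) ≤
      pettyP m * kappa m ^ (m - 1) * I ^ m * J₀ ^ (m - 1) := by
    calc R * D ^ (m - 1) * J₀ ^ (m - 1)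
        = pettyP (m + 1) * (D * vol K) ^ (m - 1) * J₀ ^ (m - 1) := by
          simp only [R, mul_pow]; ring
      _ = pettyP (m + 1) * J₀ ^ (m - 1) * kappa m ^ (m - 1) * J ^ (m - 1) := by
          rw [← hvK, mul_pow]; ring
      _ = pettyP m * kappa m ^ (m - 1) * (I₀ ^ m * J ^ (m - 1)) := by rw [hid]; ring
      _ ≤ pettyP m * kappa m ^ (m - 1) * (I ^ m * J₀ ^ (m - 1)) :=
          mul_le_mul_of_nonneg_left hlem'
            (mul_nonneg (pettyP_nonneg m) (pow_nonneg (Sharp.kappa_pos' m).le _))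
      _ = _ := by ring
  have hR : R * D ^ (m - 1) ≤ D ^ (m - 1) * supp L a :=
    (le_of_mul_le_mul_right hkey (pow_pos hJ₀ _)).trans (hsuppL ▸ hsh)
  have ha : a ≠ 0 := fun h => by
    rw [h, show (0 : E (m + 1)) = (0 : ℝ) • (0 : E (m + 1)) by simp,
      supp_smul le_rfl, zero_mul] at hsuppK
    exact zero_ne_one hsuppK
  have hn : 0 < ‖a‖ := norm_pos_iff.2 ha
  refine ⟨‖a‖⁻¹ • a, by rw [norm_smul, norm_inv, norm_norm, inv_mul_cancel₀ hn.ne'], ?_⟩
  rw [supp_smul (inv_nonneg.2 hn.le), supp_smul (inv_nonneg.2 hn.le), hsuppK, mul_one,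
    show m + 1 - 2 = m - 1 by omega, show pettyP (m + 1) * vol K ^ (m - 1) = R from rfl,
    mul_comm R]
  refine ⟨mul_le_mul_of_nonneg_left ?_ (inv_nonneg.2 hn.le), fun h => ?_⟩
  · exact le_of_mul_le_mul_left (by rwa [mul_comm] at hR) (pow_pos hD _)
  have h1 : supp L a ≤ R := le_of_mul_le_mul_left h (inv_pos.2 hn)
  have h2 : I ^ m * J₀ ^ (m - 1) = I₀ ^ m * J ^ (m - 1) := by
    refine le_antisymm ?_ hlem'
    have h3 : pettyP m * kappa m ^ (m - 1) * I ^ m ≤ R * D ^ (m - 1) :=
      (hsuppL ▸ hsh).trans (by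
        rw [mul_comm R]; exact mul_le_mul_of_nonneg_left h1 (pow_nonneg hD.le _))
    refine le_of_mul_le_mul_left ?_
      (mul_pos (pettyP_pos m) (pow_pos (Sharp.kappa_pos' m) (m - 1)))
    calc pettyP m * kappa m ^ (m - 1) * (I ^ m * J₀ ^ (m - 1))
        ≤ R * D ^ (m - 1) * J₀ ^ (m - 1) := by
          rw [← mul_assoc]; exact mul_le_mul_of_nonneg_right h3 (pow_nonneg hJ₀.le _)
      _ = pettyP (m + 1) * (D * vol K) ^ (m - 1) * J₀ ^ (m - 1) := by
          simp only [R, mul_pow]; ring
      _ = pettyP (m + 1) * J₀ ^ (m - 1) * kappa m ^ (m - 1) * J ^ (m - 1) := by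
          rw [← hvK, mul_pow]; ring
      _ = _ := by rw [hid]; ring
  refine ⟨S.symm, ?_⟩
  rw [← hball (hlemeq h2), image_image]
  simp

end Vale.Agent.P237.All
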