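import Vale.Agent.P237.All.TailMajorant

/-!
P237, every dimension: the pointwise bound in the tail (`notes/P237h8/tail-02Dec.md`).  Beyond the
bulk the quadratic part of the majorant is negative definite once `w` is capped, and what survives
is first order in the excess mass: `Re εL + |Le| η + Cx² η² / (2 Km)`, where `εL` bounds `p log lam`
and `η` bounds `y - t`.
-/

noncomputable section

open Real Set

namespace Vale.Agent.P237.All.Transport

/-- A quadratic form that is nonpositive by its discriminant. -/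
theorem quad_form_nonpos {K q C W a b : ℝ} (hK : 0 ≤ K) (hq : 0 ≤ q) (hW : 0 < W)
    (hdet : C ^ 2 * W ≤ 4 * K * q) : -K * (a ^ 2 / W) + C * b * a - q * b ^ 2 ≤ 0 := by
  rcases eq_or_lt_of_le hK with rfl | hK'
  · have hC : C ^ 2 * W ≤ 0 := by linarith
    have : C = 0 := pow_eq_zero_iff two_ne_zero |>.1
      (le_antisymm (nonpos_of_mul_nonpos_left hC hW) (sq_nonneg C))
    subst this
    nlinarith [mul_nonneg hq (sq_nonneg b)]
  · refine nonpos_of_mul_nonpos_left (b := 4 * K * W) ?_ (by positivity)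
    have e : (-K * (a ^ 2 / W) + C * b * a - q * b ^ 2) * (4 * K * W) =
        -(2 * K * a - C * W * b) ^ 2 - W * b ^ 2 * (4 * K * q - C ^ 2 * W) := by
      field_simp; ring
    rw [e]
    nlinarith [sq_nonneg (2 * K * a - C * W * b),
      mul_nonneg (mul_nonneg hW.le (sq_nonneg b)) (sub_nonneg.2 hdet)]

/-- The constraint `semi t ≤ lam semi y r` bounds `log w`, quadratically in `t - y`, given any cap. -/
theorem ridge_log_le (p : ℕ) {y t r lam εL ℓ : ℝ} (hy : y ∈ Ioo (0 : ℝ) 1) (ht : t ∈ Ioo (0 : ℝ) 1)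
    (hr : 0 < r) (hlam : 0 < lam) (hridge : semi t ≤ lam * semi y * r)
    (hεL : (p : ℝ) * log lam ≤ εL) (hε0 : 0 ≤ εL) (hℓ : -((p : ℝ) * log r) ≤ ℓ) (hℓ0 : 0 ≤ ℓ) :
    -((p : ℝ) * log r) ≤ εL + ((p : ℝ) / 2 + ℓ) * max 0 ((t ^ 2 - y ^ 2) / (1 - y ^ 2)) := by
  have hy2 : 0 < 1 - y ^ 2 := by nlinarith [hy.1, hy.2]
  have ht2 : 0 < 1 - t ^ 2 := by nlinarith [ht.1, ht.2]
  have hst : 0 < semi t := Real.sqrt_pos.2 ht2
  have hsy : 0 < semi y := Real.sqrt_pos.2 hy2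
  set u := (t ^ 2 - y ^ 2) / (1 - y ^ 2) with hu
  have hu1 : 1 - u = (1 - t ^ 2) / (1 - y ^ 2) := by rw [hu]; field_simp; ring
  have hlog : log (1 - u) = 2 * log (semi t) - 2 * log (semi y) := by
    rw [hu1, Real.log_div ht2.ne' hy2.ne', semi, semi, Real.log_sqrt ht2.le, Real.log_sqrt hy2.le]
    ring
  have h1 : -((p : ℝ) * log r) ≤ εL - (p : ℝ) / 2 * log (1 - u) := by
    have := Real.log_le_log hst hridge
    rw [log_mul (by positivity) hr.ne', log_mul hlam.ne' hsy.ne'] at this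
    rw [hlog]
    nlinarith [mul_le_mul_of_nonneg_left this (Nat.cast_nonneg p : (0 : ℝ) ≤ p)]
  have hpos : 0 < 1 - u := by rw [hu1]; positivity
  have hp0 : (0 : ℝ) ≤ p := Nat.cast_nonneg p
  have hcoef : 0 ≤ (p : ℝ) / 2 + ℓ := by positivity
  rcases le_total u 0 with hu0 | hu0
  · have h2 : 0 ≤ log (1 - u) := Real.log_nonneg (by linarith)
    rw [max_eq_left hu0]
    nlinarith [mul_nonneg hp0 h2]
  · rw [max_eq_right hu0]
    have h2 : -log (1 - u) ≤ u / (1 - u) := by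
      have := Real.one_sub_inv_le_log_of_pos hpos
      have e : u / (1 - u) = (1 - u)⁻¹ - 1 := by field_simp; ring
      linarith
    rcases le_total ℓ (((p : ℝ) / 2 + ℓ) * u) with hcase | hcase
    · linarith
    · -- here `u` is small, so `1 / (1 - u)` is close to one
      refine h1.trans ?_
      have h3 : (p : ℝ) / 2 * (u / (1 - u)) ≤ ((p : ℝ) / 2 + ℓ) * u := by
        rw [← mul_div_assoc, div_le_iff₀ hpos]
        nlinarith [mul_le_mul_of_nonneg_right hcase hu0]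
      nlinarith [mul_le_mul_of_nonneg_left h2 (by positivity : (0 : ℝ) ≤ (p : ℝ) / 2)]

/-- `excessLow` is at most `1/2 + 1/(2p)`. -/
theorem excessLow_le (p : ℕ) (hp : 2 ≤ p) {u : ℝ} (hu : 0 ≤ u) (hu1 : u ≤ 1) :
    excessLow p u ≤ 1 / 2 + 1 / (2 * (p : ℝ)) := by
  have hp2 : (2 : ℝ) ≤ p := by exact_mod_cast hp
  have a : 0 ≤ 1 - 2 / (p : ℝ) := by rw [sub_nonneg, div_le_one (by linarith)]; exact hp2
  have b1 : u / (1 + u) ≤ 1 / 2 := by rw [div_le_iff₀ (by linarith)]; linarith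
  have b2 : u * (2 + u) / (1 + u) ^ 2 ≤ 3 / 4 := by
    rw [div_le_iff₀ (by positivity)]; nlinarith
  have e : excessLow p u = (1 - 2 / (p : ℝ)) * (u / (1 + u)) + 2 / (p : ℝ) * (u * (2 + u) / (1 + u) ^ 2) := by
    rw [excessLow]; ring
  rw [e]
  refine (add_le_add (mul_le_mul_of_nonneg_left b1 a) (mul_le_mul_of_nonneg_left b2 (by positivity))).trans
    (le_of_eq ?_)
  field_simp; ring

/-- The deficit on the side `w ≤ 1`. -/
theorem pow_excess_ge_of_one_le (p : ℕ) (hp : 2 ≤ p) {r : ℝ} (hr1 : 1 ≤ r) :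
    ((r ^ p)⁻¹ - 1) ^ 2 / 2 ≤ r ^ (p + 1) - 1 - ((p : ℝ) + 1) * (r - 1) := by
  have hr : 0 < r := lt_of_lt_of_le one_pos hr1
  have hid := pow_mul_id p hr
  have hv1 : 1 ≤ r ^ p := one_le_pow₀ hr1
  have hw1 : (r ^ p)⁻¹ ≤ 1 := inv_le_one_of_one_le₀ hv1
  have hW := excess_le_le_one p hp hr1
  have hlo := excessLow_le p hp (Real.sqrt_nonneg ((r ^ p)⁻¹)) (Real.sqrt_le_one.2 hw1)
  have hs0 : 0 ≤ ((r ^ p)⁻¹ - 1) ^ 2 / (r ^ p)⁻¹ := by positivity
  have hW' := hW.trans (mul_le_mul_of_nonneg_right hlo hs0)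
  have hD : 1 / (p : ℝ) * (((r ^ p)⁻¹ - 1) ^ 2 / (r ^ p)⁻¹) ≤ (r - 1) * (r ^ p - 1) := by
    have hp0 : (0 : ℝ) < p := Nat.cast_pos.2 (by omega)
    have hv0 : 0 < r ^ p := pow_pos hr p
    have hS0 := one_sub_inv_pow_le p hr
    have e : 1 / (p : ℝ) * (((r ^ p)⁻¹ - 1) ^ 2 / (r ^ p)⁻¹) = (1 - (r ^ p)⁻¹) / p * (r ^ p - 1) := by
      field_simp; ring
    rw [e]
    exact mul_le_mul_of_nonneg_right ((div_le_iff₀ hp0).2 (by linarith)) (by linarith)
  have hs : ((r ^ p)⁻¹ - 1) ^ 2 ≤ ((r ^ p)⁻¹ - 1) ^ 2 / (r ^ p)⁻¹ :=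
    le_div_self (sq_nonneg _) (by positivity) hw1
  have e2 : (1 / 2 + 1 / (2 * (p : ℝ))) = 1 / 2 + 1 / (p : ℝ) * (1 / 2) := by ring
  rw [e2] at hW'
  have hq : 0 ≤ 1 / (p : ℝ) * (((r ^ p)⁻¹ - 1) ^ 2 / (r ^ p)⁻¹) := by positivity
  nlinarith

/-- The tail form on the side `w ≤ 1`. -/
theorem tail_low {Re Le Cx Km θ s η εL P : ℝ} (hRe : 0 ≤ Re) (hs : s ≤ 0) (hLe : Le ≤ 0)
    (hCx : 0 ≤ Cx) (hKm : 0 < Km) (hθ : -η ≤ θ) (hη : 0 ≤ η) (hε : 0 ≤ εL) (hP : s ^ 2 / 2 ≤ P) :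
    Re * s + Le * θ + Cx * θ * s - Km * P ≤
      Re * εL + |Le| * η + Cx ^ 2 * η ^ 2 / (2 * Km) := by
  have h1 : Re * s ≤ Re * εL :=
    mul_le_mul_of_nonneg_left (by linarith) hRe
  have h2 : Le * θ ≤ |Le| * η := by
    rw [abs_of_nonpos hLe, neg_mul, ← mul_neg]
    exact mul_le_mul_of_nonpos_left hθ hLe
  have h3 : Cx * θ * s ≤ Cx * η * -s := by
    have : θ * s ≤ η * -s := by
      rw [mul_neg, ← neg_mul]; exact mul_le_mul_of_nonpos_right hθ hs
    rw [mul_assoc, mul_assoc]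
    exact mul_le_mul_of_nonneg_left this hCx
  have h4 : Cx * η * -s - Km * P ≤ Cx ^ 2 * η ^ 2 / (2 * Km) := by
    have h5 := mul_le_mul_of_nonneg_left hP hKm.le
    rw [le_div_iff₀ (by positivity)]
    nlinarith [sq_nonneg (Cx * η + Km * s), mul_le_mul_of_nonneg_left h5 hKm.le]
  linarith

/-- The tail form on the side `w ≥ 1`; `Cl` is the part of `Cx` that the linear term absorbs. -/
theorem tail_high {Re Le Cx Cl Km K1 c θ s η εL P W Q w E a b L : ℝ} (hRe : 0 ≤ Re) (hs : 0 ≤ s)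
    (hw : 0 < w) (hwE : w ≤ E) (hsE : s ≤ E - 1) (hKm : 0 < Km) (hK1 : 0 ≤ K1) (hθ : -η ≤ θ)
    (hη : 0 ≤ η) (hP : s ^ 2 / w / (E + 1) ≤ P) (hW : W ≤ c * (s ^ 2 / w)) (hlog : s - L ≤ s ^ 2 / w)
    (hLp : 0 ≤ θ → L ≤ εL + a * θ + b * θ ^ 2) (hLn : θ ≤ 0 → L ≤ εL)
    (hLea : Le + a * Re + Cl * (E - 1) ≤ 0) (hLe : Le ≤ 0) (hQb : Q + b * Re ≤ 0) (hQ : Q ≤ 0)
    (hCl : 0 ≤ Cl) (hCx : Cl ≤ Cx) (hK : Re + K1 * c ≤ Km / (E + 1))
    (hdet : (Cx - Cl) ^ 2 * E ≤ 4 * (Km / (E + 1) - K1 * c - Re) * -(Q + b * Re)) :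
    Re * s + Le * θ + Cx * θ * s - Km * P + K1 * W + Q * θ ^ 2 ≤
      Re * εL + |Le| * η + Cx ^ 2 * η ^ 2 / (2 * Km) := by
  have hE : 0 < E := lt_of_lt_of_le hw hwE
  have hrest : 0 ≤ Cx ^ 2 * η ^ 2 / (2 * Km) := by positivity
  have hA : Re * s ≤ Re * L + Re * (s ^ 2 / w) := by
    rw [← mul_add]; exact mul_le_mul_of_nonneg_left (by linarith) hRe
  have hB : Km / (E + 1) * (s ^ 2 / w) ≤ Km * P := by
    rw [div_mul_eq_mul_div, mul_div_assoc]; exact mul_le_mul_of_nonneg_left hP hKm.le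
  have hB' := mul_le_mul_of_nonneg_left hW hK1
  have hK' : 0 ≤ Km / (E + 1) - K1 * c - Re := by linarith
  have hC : (Km / (E + 1) - K1 * c - Re) * (s ^ 2 / E) ≤
      (Km / (E + 1) - K1 * c - Re) * (s ^ 2 / w) :=
    mul_le_mul_of_nonneg_left (div_le_div_of_nonneg_left (sq_nonneg s) hw hwE) hK'
  rcases le_total 0 θ with h | h
  · have h1 := mul_le_mul_of_nonneg_left (hLp h) hRe
    have h2 := quad_form_nonpos (a := s) (b := θ) hK' (neg_nonneg.2 hQb) hE hdet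
    have h3 : (Le + a * Re + Cl * (E - 1)) * θ ≤ 0 := mul_nonpos_of_nonpos_of_nonneg hLea h
    have h4 : 0 ≤ |Le| * η := by positivity
    have h5 : Cl * θ * s ≤ Cl * θ * (E - 1) := mul_le_mul_of_nonneg_left hsE (mul_nonneg hCl h)
    linarith
  · have h1 := mul_le_mul_of_nonneg_left (hLn h) hRe
    have h2 : Cx * θ * s ≤ 0 :=
      mul_nonpos_of_nonpos_of_nonneg (mul_nonpos_of_nonneg_of_nonpos (hCl.trans hCx) h) hs
    have h3 : Q * θ ^ 2 ≤ 0 := mul_nonpos_of_nonpos_of_nonneg hQ (sq_nonneg θ)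
    have h4 : Le * θ ≤ |Le| * η := by
      rw [abs_of_nonpos hLe, neg_mul, ← mul_neg]
      exact mul_le_mul_of_nonpos_left hθ hLe
    have h5 : 0 ≤ (Km / (E + 1) - K1 * c - Re) * (s ^ 2 / E) :=
      mul_nonneg hK' (by positivity)
    linarith

/-- On the side `w ≤ 1` the excess is at most the deficit. -/
theorem excess_le_deficit (p : ℕ) {r : ℝ} (hr1 : 1 ≤ r) :
    (r ^ p)⁻¹ - 1 + (p : ℝ) * (r - 1) ≤ r ^ (p + 1) - 1 - ((p : ℝ) + 1) * (r - 1) := by
  have hr : 0 < r := lt_of_lt_of_le one_pos hr1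
  have hv : 0 < r ^ p := pow_pos hr p
  have hsum : (2 * (p : ℝ) + 1) * r ^ p ≤ ∑ i ∈ Finset.range (2 * p + 1), r ^ i := by
    have e : ∑ i ∈ Finset.range (2 * p + 1), (r ^ i + r ^ (2 * p - i)) =
        2 * ∑ i ∈ Finset.range (2 * p + 1), r ^ i := by
      have h := Finset.sum_range_reflect (fun i => r ^ i) (2 * p + 1)
      simp only [Nat.add_sub_cancel] at h
      rw [Finset.sum_add_distrib, h]; ring
    have h2 : ∑ _i ∈ Finset.range (2 * p + 1), 2 * r ^ p ≤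
        ∑ i ∈ Finset.range (2 * p + 1), (r ^ i + r ^ (2 * p - i)) :=
      Finset.sum_le_sum fun i hi => by
        have hi' := Finset.mem_range.1 hi
        have hab : r ^ i * r ^ (2 * p - i) = r ^ p * r ^ p := by
          rw [← pow_add, ← pow_add]; congr 1; omega
        nlinarith [sq_nonneg (r ^ i - r ^ (2 * p - i)), pow_pos hr i, pow_pos hr (2 * p - i)]
    rw [e, Finset.sum_const, Finset.card_range, nsmul_eq_mul] at h2
    push_cast at h2
    linarith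
  have hd := mul_le_mul_of_nonneg_right hsum (sub_nonneg.2 hr1)
  rw [geom_sum_mul, show r ^ (2 * p + 1) = r ^ (p + 1) * r ^ p by rw [← pow_add]; congr 1; omega] at hd
  refine le_of_mul_le_mul_right ?_ hv
  have := inv_mul_cancel₀ hv.ne'
  linear_combination hd + this

/-- The coefficient of `θ s`. -/
def majCross (p : ℕ) (g d β U y : ℝ) : ℝ := 2 * U - majX p g d β y / p

/-- The coefficient of `s`. -/
def majRe (p : ℕ) (g d β ell c2 A y : ℝ) : ℝ := A - majLr p g d β ell c2 y / p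

/-- The coefficient of `θ`. -/
def majLe (p : ℕ) (g d β LA y : ℝ) : ℝ := LA + majLt p g d β y

/-- The density with the potential in the tail. -/
theorem density_tail (p : ℕ) (hp : 2 ≤ p) {g d β ell lam c2 A LA U LU εL ℓ η K1 Cl : ℝ} {y t r : ℝ}
    (hy : y ∈ Ioo (0 : ℝ) 1) (ht : t ∈ Ioo (0 : ℝ) 1) (hr : 0 < r) (hlam : 0 < lam)
    (hridge : semi t ≤ lam * semi y * r) (hεL : (p : ℝ) * log lam ≤ εL) (hε0 : 0 ≤ εL)
    (hℓ : -((p : ℝ) * log r) ≤ ℓ) (hℓ0 : 0 ≤ ℓ) (hη : y - t ≤ η) (hη0 : 0 ≤ η)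
    (hg : 0 ≤ g) (hd : 0 ≤ d) (hβ : 1 ≤ β)
    (hK2 : (g + d * β ^ 2) * ((p : ℝ) + 4) ≤ ((p : ℝ) + 1) * (β * majC β d))
    (hK1 : majLr p g d β ell c2 y / p + majX p g d β y * (t - y) / p ≤ K1) (hK10 : 0 ≤ K1)
    (hRe : 0 ≤ majRe p g d β ell c2 A y) (hCl : 0 ≤ Cl) (hCx : Cl ≤ majCross p g d β U y)
    (hLe : majLe p g d β LA y + ((p : ℝ) + 2 * ℓ) * y / (1 - y ^ 2) * majRe p g d β ell c2 A y +
      Cl * (exp ℓ - 1) ≤ 0)
    (hKm : K1 < majC β d * (1 - y ^ 2 - (β - 1) * y * η))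
    (hK : majRe p g d β ell c2 A y + K1 * (exp ℓ / (exp ℓ + 1) + 1 / (2 * (p : ℝ))) ≤
      majC β d * (1 - y ^ 2 - (β - 1) * y * η) / (exp ℓ + 1))
    (hQ : (g + d * β ^ 2) * ((p : ℝ) + 4) + LU +
      majRe p g d β ell c2 A y * ((p : ℝ) / 2 + ℓ) / (1 - y ^ 2) ≤ 0)
    (hdet : (majCross p g d β U y - Cl) ^ 2 * exp ℓ ≤
      4 * (majC β d * (1 - y ^ 2 - (β - 1) * y * η) / (exp ℓ + 1) -
          K1 * (exp ℓ / (exp ℓ + 1) + 1 / (2 * (p : ℝ))) - majRe p g d β ell c2 A y) *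
        -((g + d * β ^ 2) * ((p : ℝ) + 4) + LU +
          majRe p g d β ell c2 A y * ((p : ℝ) / 2 + ℓ) / (1 - y ^ 2))) :
    density p 0 g d β ell lam c2 y t r + semi y ^ (p + 1) *
        (LA * (t - y) + A * ((r ^ p)⁻¹ - 1) + LU * (t - y) ^ 2 +
          2 * U * (t - y) * ((r ^ p)⁻¹ - 1)) ≤
      semi y ^ (p + 1) * (majZero p g d c2 y + majRe p g d β ell c2 A y * εL +
        |majLe p g d β LA y| * η +
        majCross p g d β U y ^ 2 * η ^ 2 / (2 * (majC β d * (1 - y ^ 2 - (β - 1) * y * η) - K1))) := by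
  rw [density_quad p (by omega) g d β ell lam c2 A LA U LU ⟨by linarith [hy.1], hy.2.le⟩ hr,
    ← pow_mul_id p hr]
  refine mul_le_mul_of_nonneg_left ?_ (pow_nonneg (Real.sqrt_nonneg _) _)
  have hy2 : 0 < 1 - y ^ 2 := by nlinarith [hy.1, hy.2]
  have hridge' := ridge_log_le p hy ht hr hlam hridge hεL hε0 hℓ hℓ0
  have hp0 : (0 : ℝ) < p := Nat.cast_pos.2 (by omega)
  have hc0 : 0 ≤ majC β d := by unfold majC; positivity
  have hcq : 0 ≤ β * majC β d := by positivity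
  have hK20 : 0 ≤ (g + d * β ^ 2) * ((p : ℝ) + 4) := by positivity
  have hW0 : 0 ≤ (r ^ p)⁻¹ - 1 + (p : ℝ) * (r - 1) := excess_nonneg p hr
  have hKp : majC β d * (1 - y ^ 2 - (β - 1) * y * η) ≤ majKp β d y (t - y) := by
    refine mul_le_mul_of_nonneg_left ?_ hc0
    have := mul_le_mul_of_nonneg_left (show -η ≤ t - y by linarith)
      (mul_nonneg (show 0 ≤ β - 1 by linarith) hy.1.le)
    linarith
  have hP0 : 0 ≤ r ^ (p + 1) - 1 - ((p : ℝ) + 1) * (r - 1) := by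
    have := one_add_mul_le_pow (a := r - 1) (by linarith) (p + 1)
    rw [add_sub_cancel] at this; push_cast at this; linarith
  have hKw : majKw p g d β ell c2 y (t - y) = majKp β d y (t - y) +
      (majLr p g d β ell c2 y / p + majX p g d β y * (t - y) / p) := by rw [majKw]; ring
  have hPW := mul_le_mul_of_nonneg_right hKp hP0
  have hWW := mul_le_mul_of_nonneg_right hK1 hW0
  have hQ' : r * ((g + d * β ^ 2) * ((p : ℝ) + 4)) - β * majC β d * r ^ (p + 1) ≤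
      (g + d * β ^ 2) * ((p : ℝ) + 4) := by
    rcases le_total r 1 with h | h
    · have h1 : 0 ≤ β * majC β d * r ^ (p + 1) := mul_nonneg hcq (by positivity)
      have h2 := mul_le_of_le_one_left hK20 h
      linarith
    · have h1 := one_add_mul_le_pow (a := r - 1) (by linarith) (p + 1)
      rw [add_sub_cancel] at h1
      push_cast at h1
      have h2 := mul_le_mul_of_nonneg_left h1 hcq
      have h3 := mul_le_mul_of_nonneg_left hK2 (show 0 ≤ r - 1 by linarith)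
      linarith
  have hθ2 := mul_le_mul_of_nonneg_right (add_le_add_right hQ' LU) (sq_nonneg (t - y))
  have hQ0 : (g + d * β ^ 2) * ((p : ℝ) + 4) + LU ≤ 0 := by
    have : 0 ≤ majRe p g d β ell c2 A y * ((p : ℝ) / 2 + ℓ) / (1 - y ^ 2) :=
      div_nonneg (mul_nonneg hRe (by positivity)) hy2.le
    linarith
  have hLe0 : majLe p g d β LA y ≤ 0 := by
    have : 0 ≤ ((p : ℝ) + 2 * ℓ) * y / (1 - y ^ 2) * majRe p g d β ell c2 A y :=
      mul_nonneg (div_nonneg (mul_nonneg (by positivity) hy.1.le) hy2.le) hRe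
    have : 0 ≤ Cl * (exp ℓ - 1) := mul_nonneg hCl (by linarith [Real.add_one_le_exp ℓ])
    linarith
  have hlin : majLin p g d β ell c2 A LA U y (t - y) ((r ^ p)⁻¹ - 1) =
      majRe p g d β ell c2 A y * ((r ^ p)⁻¹ - 1) + majLe p g d β LA y * (t - y) +
        majCross p g d β U y * (t - y) * ((r ^ p)⁻¹ - 1) := rfl
  rw [hlin, hKw]
  rcases le_total 1 r with hr1 | hr1
  · have hs : (r ^ p)⁻¹ - 1 ≤ 0 := by linarith [inv_le_one_of_one_le₀ (one_le_pow₀ hr1 (n := p))]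
    have h := tail_low (θ := t - y) (εL := εL) hRe hs hLe0 (hCl.trans hCx) (sub_pos.2 hKm)
      (by linarith) hη0 hε0 (pow_excess_ge_of_one_le p hp hr1)
    have h'' := mul_le_mul_of_nonneg_left (excess_le_deficit p hr1) hK10
    have h' := mul_nonpos_of_nonpos_of_nonneg hQ0 (sq_nonneg (t - y))
    linarith
  · have hv0 : 0 < r ^ p := pow_pos hr p
    have hv1 : r ^ p ≤ 1 := pow_le_one₀ hr.le hr1
    have hs : 0 ≤ (r ^ p)⁻¹ - 1 := by linarith [(one_le_inv₀ hv0).2 hv1]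
    have hL : log (r ^ p)⁻¹ = -((p : ℝ) * log r) := by rw [Real.log_inv, Real.log_pow]
    have hwE : (r ^ p)⁻¹ ≤ exp ℓ := by
      rw [← Real.exp_log (inv_pos.2 hv0), hL]; exact exp_le_exp.2 hℓ
    have hP2 : ((r ^ p)⁻¹ - 1) ^ 2 / (r ^ p)⁻¹ / (exp ℓ + 1) ≤
        r ^ (p + 1) - 1 - ((p : ℝ) + 1) * (r - 1) := by
      refine le_trans ?_ (pow_excess_ge p (by omega) hr.le hr1)
      have e : ((r ^ p)⁻¹ - 1) ^ 2 / (r ^ p)⁻¹ / ((r ^ p)⁻¹ + 1) = (1 - r ^ p) ^ 2 / (1 + r ^ p) := by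
        field_simp
      rw [← e]
      exact div_le_div_of_nonneg_left (by positivity) (by positivity) (by linarith)
    have hlogs : (r ^ p)⁻¹ - 1 - log (r ^ p)⁻¹ ≤ ((r ^ p)⁻¹ - 1) ^ 2 / (r ^ p)⁻¹ := by
      have h1 := Real.one_sub_inv_le_log_of_pos (inv_pos.2 hv0)
      rw [inv_inv] at h1
      have e : ((r ^ p)⁻¹ - 1) ^ 2 / (r ^ p)⁻¹ = (r ^ p)⁻¹ - 1 - (1 - r ^ p) := by field_simp
      linarith
    have hW : (r ^ p)⁻¹ - 1 + (p : ℝ) * (r - 1) ≤ (exp ℓ / (exp ℓ + 1) + 1 / (2 * (p : ℝ))) *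
        (((r ^ p)⁻¹ - 1) ^ 2 / (r ^ p)⁻¹) := by
      refine (excess_le_one_le p (by omega) hr hr1).trans
        (mul_le_mul_of_nonneg_right (add_le_add_left ?_ _) (by positivity))
      rw [div_le_div_iff₀ (by positivity) (by positivity)]
      linarith
    have h := tail_high (θ := t - y) (εL := εL) (a := ((p : ℝ) + 2 * ℓ) * y / (1 - y ^ 2))
      (b := ((p : ℝ) / 2 + ℓ) / (1 - y ^ 2)) (Q := (g + d * β ^ 2) * ((p : ℝ) + 4) + LU)
      hRe hs (inv_pos.2 hv0) hwE (by linarith) (hK10.trans_lt hKm) hK10 (by linarith) hη0 hP2 hW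
      hlogs (L := log (r ^ p)⁻¹) ?_ ?_ hLe hLe0
      (by rw [div_mul_eq_mul_div, mul_comm ((p : ℝ) / 2 + ℓ)]; exact hQ) hQ0 hCl hCx hK
      (by rw [div_mul_eq_mul_div, mul_comm ((p : ℝ) / 2 + ℓ)]; exact hdet)
    · have hrest : majCross p g d β U y ^ 2 * η ^ 2 /
          (2 * (majC β d * (1 - y ^ 2 - (β - 1) * y * η))) ≤ majCross p g d β U y ^ 2 * η ^ 2 /
          (2 * (majC β d * (1 - y ^ 2 - (β - 1) * y * η) - K1)) :=
        div_le_div_of_nonneg_left (by positivity) (by linarith) (by linarith)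
      linarith
    · intro h
      rw [hL]
      refine hridge'.trans (le_of_eq ?_)
      rw [max_eq_right (div_nonneg (sub_nonneg.2 (pow_le_pow_left₀ hy.1.le (by linarith) 2)) hy2.le)]
      ring
    · intro h
      rw [hL]
      refine hridge'.trans (le_of_eq ?_)
      rw [max_eq_left (div_nonpos_of_nonpos_of_nonneg (sub_nonpos.2 (pow_le_pow_left₀ ht.1.le (by linarith) 2)) hy2.le)]
      ring

/-- Where the weight is negligible a crude bound suffices. -/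
theorem density_crude (p : ℕ) (hp : 1 ≤ p) {g d β ell lam c2 A LA U LU ℓ η K1 : ℝ} {y t r : ℝ}
    (hy : y ∈ Ioo (0 : ℝ) 1) (ht : t ∈ Ioo (0 : ℝ) 1) (hr : 0 < r)
    (hℓ : -((p : ℝ) * log r) ≤ ℓ) (hℓ0 : 0 ≤ ℓ) (hη : y - t ≤ η)
    (hg : 0 ≤ g) (hd : 0 ≤ d) (hβ : 1 ≤ β)
    (hK2 : (g + d * β ^ 2) * ((p : ℝ) + 4) ≤ ((p : ℝ) + 1) * (β * majC β d))
    (hK1 : |majLr p g d β ell c2 y / p + majX p g d β y * (t - y) / p| ≤ K1)
    (hKm : 0 < majC β d * (1 - y ^ 2 - (β - 1) * y * η)) :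
    density p 0 g d β ell lam c2 y t r + semi y ^ (p + 1) *
        (LA * (t - y) + A * ((r ^ p)⁻¹ - 1) + LU * (t - y) ^ 2 +
          2 * U * (t - y) * ((r ^ p)⁻¹ - 1)) ≤
      semi y ^ (p + 1) * (majZero p g d c2 y + (|majRe p g d β ell c2 A y| +
        |majCross p g d β U y| + K1) * exp ℓ + |majLe p g d β LA y| +
        |(g + d * β ^ 2) * ((p : ℝ) + 4) + LU| +
        K1 ^ 2 / (2 * (majC β d * (1 - y ^ 2 - (β - 1) * y * η)))) := by
  rw [density_quad p hp g d β ell lam c2 A LA U LU ⟨by linarith [hy.1], hy.2.le⟩ hr,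
    ← pow_mul_id p hr]
  refine mul_le_mul_of_nonneg_left ?_ (pow_nonneg (Real.sqrt_nonneg _) _)
  have hc0 : 0 ≤ majC β d := by unfold majC; positivity
  have hcq : 0 ≤ β * majC β d := by positivity
  have hK20 : 0 ≤ (g + d * β ^ 2) * ((p : ℝ) + 4) := by positivity
  have hK10 : 0 ≤ K1 := (abs_nonneg _).trans hK1
  have hθ : |t - y| ≤ 1 := abs_le.2 ⟨by linarith [ht.1, hy.2], by linarith [ht.2, hy.1]⟩
  have hθ2 : (t - y) ^ 2 ≤ 1 := by rw [← sq_abs]; exact pow_le_one₀ (abs_nonneg _) hθ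
  have hE1 : 1 ≤ exp ℓ := by linarith [Real.add_one_le_exp ℓ]
  have hwE : (r ^ p)⁻¹ ≤ exp ℓ := by
    rw [← Real.exp_log (inv_pos.2 (pow_pos hr p)), Real.log_inv, Real.log_pow]
    exact exp_le_exp.2 hℓ
  have hs : |(r ^ p)⁻¹ - 1| ≤ exp ℓ :=
    abs_le.2 ⟨by linarith [inv_pos.2 (pow_pos hr p)], by linarith⟩
  have hW0 : 0 ≤ (r ^ p)⁻¹ - 1 + (p : ℝ) * (r - 1) := excess_nonneg p hr
  have hP0 : 0 ≤ r ^ (p + 1) - 1 - ((p : ℝ) + 1) * (r - 1) := by
    have := one_add_mul_le_pow (a := r - 1) (by linarith) (p + 1)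
    rw [add_sub_cancel] at this; push_cast at this; linarith
  have hKp : majC β d * (1 - y ^ 2 - (β - 1) * y * η) ≤ majKp β d y (t - y) := by
    refine mul_le_mul_of_nonneg_left ?_ hc0
    have := mul_le_mul_of_nonneg_left (show -η ≤ t - y by linarith)
      (mul_nonneg (show 0 ≤ β - 1 by linarith) hy.1.le)
    linarith
  have hKw : majKw p g d β ell c2 y (t - y) = majKp β d y (t - y) +
      (majLr p g d β ell c2 y / p + majX p g d β y * (t - y) / p) := by rw [majKw]; ring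
  have hPW := mul_le_mul_of_nonneg_right hKp hP0
  have hWW := mul_le_mul_of_nonneg_right ((le_abs_self _).trans hK1) hW0
  have hQ' : r * ((g + d * β ^ 2) * ((p : ℝ) + 4)) - β * majC β d * r ^ (p + 1) ≤
      (g + d * β ^ 2) * ((p : ℝ) + 4) := by
    rcases le_total r 1 with h | h
    · have h1 : 0 ≤ β * majC β d * r ^ (p + 1) := mul_nonneg hcq (by positivity)
      have h2 := mul_le_of_le_one_left hK20 h
      linarith
    · have h1 := one_add_mul_le_pow (a := r - 1) (by linarith) (p + 1)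
      rw [add_sub_cancel] at h1
      push_cast at h1
      have h2 := mul_le_mul_of_nonneg_left h1 hcq
      have h3 := mul_le_mul_of_nonneg_left hK2 (show 0 ≤ r - 1 by linarith)
      linarith
  have hQ := mul_le_mul_of_nonneg_right (add_le_add_right hQ' LU) (sq_nonneg (t - y))
  have hQ2 : ((g + d * β ^ 2) * ((p : ℝ) + 4) + LU) * (t - y) ^ 2 ≤
      |(g + d * β ^ 2) * ((p : ℝ) + 4) + LU| :=
    (mul_le_mul_of_nonneg_right (le_abs_self _) (sq_nonneg _)).trans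
      (mul_le_of_le_one_right (abs_nonneg _) hθ2)
  have hRs : majRe p g d β ell c2 A y * ((r ^ p)⁻¹ - 1) ≤
      |majRe p g d β ell c2 A y| * exp ℓ :=
    (le_abs_self _).trans ((abs_mul _ _).le.trans (mul_le_mul_of_nonneg_left hs (abs_nonneg _)))
  have hLt : majLe p g d β LA y * (t - y) ≤ |majLe p g d β LA y| :=
    (le_abs_self _).trans ((abs_mul _ _).le.trans (mul_le_of_le_one_right (abs_nonneg _) hθ))
  have hCs : majCross p g d β U y * (t - y) * ((r ^ p)⁻¹ - 1) ≤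
      |majCross p g d β U y| * exp ℓ := by
    refine (le_abs_self _).trans ?_
    rw [abs_mul, abs_mul]
    exact mul_le_mul (mul_le_of_le_one_right (abs_nonneg _) hθ) hs (abs_nonneg _) (abs_nonneg _)
  have hlin : majLin p g d β ell c2 A LA U y (t - y) ((r ^ p)⁻¹ - 1) =
      majRe p g d β ell c2 A y * ((r ^ p)⁻¹ - 1) + majLe p g d β LA y * (t - y) +
        majCross p g d β U y * (t - y) * ((r ^ p)⁻¹ - 1) := rfl
  -- the excess
  have hex : K1 * ((r ^ p)⁻¹ - 1 + (p : ℝ) * (r - 1)) -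
      majC β d * (1 - y ^ 2 - (β - 1) * y * η) * (r ^ (p + 1) - 1 - ((p : ℝ) + 1) * (r - 1)) ≤
      K1 * exp ℓ + K1 ^ 2 / (2 * (majC β d * (1 - y ^ 2 - (β - 1) * y * η))) := by
    generalize majC β d * (1 - y ^ 2 - (β - 1) * y * η) = Km at hKm
    have hp0 : (0 : ℝ) ≤ p := Nat.cast_nonneg p
    rcases le_total r 1 with h | h
    · have h1 : K1 * ((r ^ p)⁻¹ - 1 + (p : ℝ) * (r - 1)) ≤ K1 * exp ℓ := by
        refine mul_le_mul_of_nonneg_left ?_ hK10
        have := mul_nonpos_of_nonneg_of_nonpos hp0 (show r - 1 ≤ 0 by linarith)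
        linarith
      have h2 := mul_nonneg hKm.le hP0
      have h3 : 0 ≤ K1 ^ 2 / (2 * Km) := by positivity
      linarith
    · have hv : (r ^ p)⁻¹ ≤ 1 := inv_le_one_of_one_le₀ (one_le_pow₀ h)
      have h1 := pow_ge_quadratic (p + 1) (show 0 ≤ r - 1 by linarith)
      rw [add_sub_cancel] at h1
      push_cast at h1
      have h2 : ((p : ℝ) * (r - 1)) ^ 2 / 2 ≤ r ^ (p + 1) - 1 - ((p : ℝ) + 1) * (r - 1) := by
        have := mul_nonneg hp0 (sq_nonneg (r - 1))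
        nlinarith only [h1, this]
      have h4 : K1 * ((p : ℝ) * (r - 1)) - Km * (((p : ℝ) * (r - 1)) ^ 2 / 2) ≤ K1 ^ 2 / (2 * Km) := by
        rw [le_div_iff₀ (by positivity)]
        nlinarith only [sq_nonneg (K1 - Km * ((p : ℝ) * (r - 1)))]
      have h5 := mul_le_mul_of_nonneg_left h2 hKm.le
      have h6 : 0 ≤ K1 * exp ℓ := mul_nonneg hK10 (exp_pos ℓ).le
      have h7 := mul_le_mul_of_nonneg_left
        (show (r ^ p)⁻¹ - 1 + (p : ℝ) * (r - 1) ≤ (p : ℝ) * (r - 1) by linarith) hK10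
      linarith
  rw [hlin, hKw]
  linarith

end Vale.Agent.P237.All.Transport
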