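import Vale.Agent.P237.All.Key
import Vale.Agent.P237.All.Fisher
import Mathlib.MeasureTheory.Constructions.HaarToSphere

/-!
P237, every dimension: the averaged inequalities over the contacts of John position, written in
the profiles of the slices (`notes/P237h6/alln.md`, repair 5'). Since `∑ cᵢ ⟪uᵢ, x⟫² = ‖x‖²`, the
bathtub bound on the slices and on the body gives the two variance inequalities.
-/

noncomputable section

open MeasureTheory Set Metric Real Filter
open scoped Pointwise RealInnerProductSpace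

namespace Vale.Agent.P237.All

open Three (IsBody IsSymm)

variable {n m k : ℕ}

/-- The space as the product of the axis and the slices. -/
def liftEquiv (m : ℕ) : ℝ × E m ≃ᵐ E (m + 1) :=
  ((MeasurableEquiv.refl ℝ).prodCongr (MeasurableEquiv.toLp 2 (Fin m → ℝ)).symm).trans
    ((MeasurableEquiv.piFinSuccAbove (fun _ : Fin (m + 1) => ℝ) 0).symm.trans
      (MeasurableEquiv.toLp 2 (Fin (m + 1) → ℝ)))

theorem liftEquiv_apply (t : ℝ) (y : E m) : liftEquiv m (t, y) = lift t y := by
  simp [liftEquiv, lift, MeasurableEquiv.piFinSuccAbove_symm_apply, Fin.insertNthEquiv,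
    Fin.insertNth_zero']
  exact ⟨rfl, rfl⟩

theorem measurePreserving_liftEquiv :
    MeasurePreserving (liftEquiv m) (volume.prod volume) volume :=
  ((PiLp.volume_preserving_toLp (Fin (m + 1))).comp
    ((volume_preserving_piFinSuccAbove (fun _ : Fin (m + 1) => ℝ) 0).symm)).comp
    ((MeasurePreserving.id volume).prod (PiLp.volume_preserving_ofLp (Fin m)))

/-- Fubini over the slices. -/
theorem integral_slice {K : Set (E (m + 1))} (hK : IsCompact K) {g : E (m + 1) → ℝ}
    (hg : Continuous g) :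
    (∫ x in K, g x) = ∫ t, ∫ y in slice K t, g (lift t y) ∧
      Integrable fun t => ∫ y in slice K t, g (lift t y) := by
  have hh : Integrable (K.indicator g) :=
    (integrable_indicator_iff hK.measurableSet).2 (hg.continuousOn.integrableOn_compact hK)
  have hi : Integrable (fun p => K.indicator g (liftEquiv m p)) (volume.prod volume) :=
    (measurePreserving_liftEquiv.integrable_comp_emb (liftEquiv m).measurableEmbedding).2 hh
  have hin : ∀ t, (∫ y, K.indicator g (liftEquiv m (t, y))) =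
      ∫ y in slice K t, g (lift t y) := fun t => by
    rw [← integral_indicator (isCompact_slice hK t).measurableSet]
    refine integral_congr_ae (Eventually.of_forall fun y => ?_)
    simp only [liftEquiv_apply]
    rfl
  constructor
  · rw [← integral_indicator hK.measurableSet,
      ← measurePreserving_liftEquiv.integral_comp (liftEquiv m).measurableEmbedding,
      integral_prod _ hi]
    simp only [hin]
  · simpa only [hin] using hi.integral_prod_left

/-- Among sets of given volume the ball about the origin has the least second moment. -/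
theorem bathtub (hk : 1 ≤ k) {S : Set (E k)} (hS : IsCompact S) :
    (k : ℝ) / (k + 2) * kappa k * ((vol S / kappa k) ^ ((k : ℝ)⁻¹)) ^ (k + 2) ≤
      ∫ y in S, ‖y‖ ^ 2 := by
  have : Nonempty (Fin k) := ⟨⟨0, hk⟩⟩
  set r := (vol S / kappa k) ^ ((k : ℝ)⁻¹)
  have hκ := Sharp.kappa_pos' k
  have hv : 0 ≤ vol S / kappa k := div_nonneg ENNReal.toReal_nonneg hκ.le
  have hr : 0 ≤ r := Real.rpow_nonneg hv _
  have hvS : vol S = kappa k * r ^ k := by
    rw [Real.rpow_inv_natCast_pow hv (by omega), mul_div_cancel₀ _ hκ.ne']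
  set φ : ℝ → ℝ := fun s => max (r ^ 2 - s ^ 2) 0
  have hF : Continuous fun y : E k => φ ‖y‖ := by
    simp only [φ]; fun_prop
  have hFi : Integrable fun y : E k => φ ‖y‖ :=
    hF.integrable_of_hasCompactSupport (HasCompactSupport.intro (isCompact_closedBall 0 r)
      fun y hy => max_eq_right (by
        rw [mem_closedBall_zero_iff, not_le] at hy
        nlinarith))
  have hFv : ∫ y : E k, φ ‖y‖ =
      k * kappa k * (r ^ (k + 2) / k - r ^ (k + 2) / (k + 2)) := by
    rw [integral_fun_norm_addHaar volume φ, finrank_euclideanSpace_fin, nsmul_eq_mul, smul_eq_mul,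
      show volume.real (ball (0 : E k) 1) = kappa k from rfl, mul_assoc]
    congr 2
    rw [setIntegral_eq_of_subset_of_forall_sdiff_eq_zero measurableSet_Ioi
        (Ioc_subset_Ioi_self : Ioc 0 r ⊆ Ioi 0) fun s hs => by
          have : r < s := not_le.1 fun h => hs.2 ⟨hs.1, h⟩
          simp [φ, max_eq_right (by nlinarith : r ^ 2 - s ^ 2 ≤ 0)],
      setIntegral_congr_fun (g := fun s => r ^ 2 * s ^ (k - 1) - s ^ (k + 1)) measurableSet_Ioc
        fun s hs => by
          simp only [φ, max_eq_left (by nlinarith [hs.1, hs.2] : 0 ≤ r ^ 2 - s ^ 2), smul_eq_mul]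
          rw [show k + 1 = k - 1 + 2 by omega, pow_add]
          ring,
      ← intervalIntegral.integral_of_le hr,
      intervalIntegral.integral_sub (Continuous.intervalIntegrable (by fun_prop) _ _)
        (Continuous.intervalIntegrable (by fun_prop) _ _),
      intervalIntegral.integral_const_mul, integral_pow, integral_pow,
      show k - 1 + 1 = k by omega, zero_pow (by omega : k ≠ 0), zero_pow (by omega : k + 1 + 1 ≠ 0),
      show k + 1 + 1 = k + 2 from rfl, sub_zero, sub_zero, Nat.cast_sub hk]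
    push_cast
    rw [pow_add]
    ring_nf
  have hqi : IntegrableOn (fun y : E k => ‖y‖ ^ 2) S :=
    (by fun_prop : Continuous fun y : E k => ‖y‖ ^ 2).continuousOn.integrableOn_compact hS
  have hci : IntegrableOn (fun _ : E k => r ^ 2) S := integrableOn_const hS.measure_lt_top.ne
  have h2 : (∫ y in S, (r ^ 2 - ‖y‖ ^ 2)) ≤ ∫ y : E k, φ ‖y‖ :=
    (setIntegral_mono_on (hci.sub hqi) hFi.integrableOn hS.measurableSet
      fun y _ => le_max_left _ _).trans
      (setIntegral_le_integral hFi (Eventually.of_forall fun y => le_max_right _ _))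
  rw [integral_sub hci hqi, setIntegral_const, hFv, smul_eq_mul,
    show volume.real S = vol S from rfl, hvS] at h2
  have hk0 : (0 : ℝ) < k := Nat.cast_pos.2 (by omega)
  have e : (k : ℝ) * kappa k * (r ^ (k + 2) / k - r ^ (k + 2) / (k + 2)) =
      kappa k * r ^ k * r ^ 2 - k / (k + 2) * kappa k * r ^ (k + 2) := by
    rw [pow_add]; field_simp
  rw [e] at h2
  linarith

section Profile

variable {K : Set (E (m + 1))}

theorem profile_eq (hK : IsCompact K) (t : ℝ) :
    profile K t = (vol (slice K t) / kappa m) ^ ((m : ℝ)⁻¹) := by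
  rw [profile, show coords K = cds K from rfl, area_cds hK]

theorem profile_nonneg (hK : IsCompact K) (t : ℝ) : 0 ≤ profile K t := by
  rw [profile_eq hK]
  exact Real.rpow_nonneg (div_nonneg ENNReal.toReal_nonneg (Sharp.kappa_pos' m).le) _

theorem kappa_mul_profile_pow (hm : 1 ≤ m) (hK : IsCompact K) (t : ℝ) :
    kappa m * profile K t ^ m = vol (slice K t) := by
  rw [profile_eq hK, Real.rpow_inv_natCast_pow
    (div_nonneg (show 0 ≤ vol (slice K t) from ENNReal.toReal_nonneg) (Sharp.kappa_pos' m).le)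
    (by omega : m ≠ 0),
    mul_div_cancel₀ _ (Sharp.kappa_pos' m).ne']

theorem slice_empty (hw : ∀ x ∈ K, |x 0| ≤ 1) {t : ℝ} (ht : t ∉ Icc (-1 : ℝ) 1) :
    slice K t = ∅ :=
  eq_empty_iff_forall_notMem.2 fun y hy => ht (abs_le.1 (by simpa [lift] using hw _ hy))

theorem profile_outside (hm : 1 ≤ m) (hK : IsCompact K) (hw : ∀ x ∈ K, |x 0| ≤ 1) {t : ℝ}
    (ht : t ∉ Icc (-1 : ℝ) 1) : profile K t = 0 := by
  rw [profile_eq hK, slice_empty hw ht, vol, measure_empty, ENNReal.toReal_zero, zero_div,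
    Real.zero_rpow (inv_ne_zero (Nat.cast_ne_zero.2 (by omega)))]

theorem integral_Icc_eq {F : ℝ → ℝ} (h0 : ∀ t, t ∉ Icc (-1 : ℝ) 1 → F t = 0) :
    ∫ t, F t = ∫ t in (-1 : ℝ)..1, F t := by
  rw [intervalIntegral.integral_of_le (by norm_num), ← integral_Icc_eq_integral_Ioc,
    setIntegral_eq_integral_of_forall_compl_eq_zero h0]

/-- The integral of a function of the height. -/
theorem integral_height (hm : 1 ≤ m) (hK : IsCompact K) (hw : ∀ x ∈ K, |x 0| ≤ 1) {g : ℝ → ℝ}
    (hg : Continuous g) :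
    ∫ x in K, g (x 0) = kappa m * ∫ t in (-1 : ℝ)..1, g t * profile K t ^ m := by
  rw [(integral_slice hK (g := fun x => g (x 0)) (by fun_prop)).1]
  have : ∀ t, (∫ y in slice K t, g ((lift t y) 0)) = kappa m * (g t * profile K t ^ m) := by
    intro t
    simp only [lift, Fin.cons_zero, setIntegral_const, smul_eq_mul]
    rw [show volume.real (slice K t) = vol (slice K t) from rfl, ← kappa_mul_profile_pow hm hK]
    ring
  simp only [this, integral_const_mul]
  congr 1
  refine integral_Icc_eq fun t ht => ?_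
  rw [profile_outside hm hK hw ht, zero_pow (by omega : m ≠ 0), mul_zero]

theorem integrable_profile_pow (hm : 1 ≤ m) (hK : IsCompact K) :
    Integrable fun t => profile K t ^ (m + 2) := by
  set C := vol ((fun x : E (m + 1) => (WithLp.toLp 2 (Fin.tail ⇑x) : E m)) '' K)
  have hCb : ∀ t, vol (slice K t) ≤ C := fun t =>
    ENNReal.toReal_mono (hK.image (by unfold Fin.tail; fun_prop)).measure_lt_top.ne
      (measure_mono fun y hy => ⟨lift t y, hy, by simp [lift]⟩)
  have ha : Integrable (Sharp.area (cds K)) := Sharp.integrable_area (isCompact_cds hK)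
  have hpm : Integrable fun t => profile K t ^ m := by
    refine (ha.const_mul (kappa m)⁻¹).congr (Eventually.of_forall fun t => ?_)
    show (kappa m)⁻¹ * Sharp.area (cds K) t = _
    rw [area_cds hK, ← kappa_mul_profile_pow hm hK, ← mul_assoc,
      inv_mul_cancel₀ (Sharp.kappa_pos' m).ne', one_mul]
  have hmeas : AEStronglyMeasurable (fun t => profile K t ^ 2) volume := by
    have hc : Continuous fun a : ℝ => ((a / kappa m) ^ ((m : ℝ)⁻¹)) ^ 2 :=
      (((continuous_id.div_const _).rpow_const fun _ => Or.inr (by positivity))).pow 2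
    exact hc.comp_aestronglyMeasurable ha.1
  refine (hpm.bdd_mul (c := ((C / kappa m) ^ ((m : ℝ)⁻¹)) ^ 2) hmeas
    (Eventually.of_forall fun t => ?_)).congr (Eventually.of_forall fun t => ?_)
  · rw [Real.norm_eq_abs, abs_pow, abs_of_nonneg (profile_nonneg hK t), profile_eq hK]
    refine pow_le_pow_left₀ (Real.rpow_nonneg
      (div_nonneg ENNReal.toReal_nonneg (Sharp.kappa_pos' m).le) _) ?_ 2
    exact Real.rpow_le_rpow (div_nonneg ENNReal.toReal_nonneg (Sharp.kappa_pos' m).le)
      (div_le_div_of_nonneg_right (hCb t) (Sharp.kappa_pos' m).le) (by positivity)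
  · simp only; ring

/-- The second moment is at least that of the balls of the volumes of the slices. -/
theorem norm_sq_ge (hm : 1 ≤ m) (hK : IsCompact K) (hw : ∀ x ∈ K, |x 0| ≤ 1) :
    (∫ x in K, x 0 ^ 2) + (m : ℝ) / (m + 2) * kappa m *
        (∫ t in (-1 : ℝ)..1, profile K t ^ (m + 2)) ≤ ∫ x in K, ‖x‖ ^ 2 := by
  obtain ⟨h1, h1i⟩ := integral_slice hK (g := fun x => x 0 ^ 2) (by fun_prop)
  obtain ⟨h2, h2i⟩ := integral_slice hK (g := fun x => ‖x‖ ^ 2) (by fun_prop)
  have h3i : Integrable fun t => (m : ℝ) / (m + 2) * kappa m * profile K t ^ (m + 2) :=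
    (integrable_profile_pow hm hK).const_mul _
  rw [h1, h2, ← integral_Icc_eq fun t ht => by
    rw [profile_outside hm hK hw ht, zero_pow (by omega : m + 2 ≠ 0)], ← integral_const_mul,
    ← integral_add h1i h3i]
  refine integral_mono (h1i.add h3i) h2i fun t => ?_
  have hsl := isCompact_slice hK t
  have hsq : ∀ y : E m, ‖lift t y‖ ^ 2 = (lift t y) 0 ^ 2 + ‖y‖ ^ 2 := fun y => by
    rw [← real_inner_self_eq_norm_sq, lift_inner, real_inner_self_eq_norm_sq]
    simp [lift]; ring
  simp only [hsq]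
  rw [integral_add
    ((by have := continuous_lift (m := m) t; fun_prop :
      Continuous fun y : E m => (lift t y) 0 ^ 2).continuousOn.integrableOn_compact hsl)
    ((by fun_prop : Continuous fun y : E m => ‖y‖ ^ 2).continuousOn.integrableOn_compact hsl),
    profile_eq hK]
  exact add_le_add le_rfl (bathtub hm hsl)

end Profile

/-- An isometry turning a unit vector to the first axis. -/
theorem exists_turn {u : E (m + 1)} (hu : ‖u‖ = 1) :
    ∃ R : E (m + 1) ≃ₗᵢ[ℝ] E (m + 1), R u = EuclideanSpace.single 0 1 := by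
  set v : Fin (m + 1) → E (m + 1) := fun _ => u
  have hv : Orthonormal ℝ (({0} : Set (Fin (m + 1))).domRestrict v) := by
    rw [orthonormal_iff_ite]
    intro i j
    rw [if_pos (Subsingleton.elim i j)]
    simp [v, Set.domRestrict, hu]
  obtain ⟨b, hb⟩ := hv.exists_orthonormalBasis_extension_of_card_eq (by simp)
  exact ⟨b.repr, by rw [show u = b 0 from (hb 0 rfl).symm, OrthonormalBasis.repr_self]⟩

/-- A turn of a body in John position is supported. -/
theorem supported_turn {K : Set (E (m + 1))} (hK : IsBody K) (hs : IsSymm K)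
    (hball : closedBall (0 : E (m + 1)) 1 ⊆ K) {u : E (m + 1)}
    (hu : ∀ x ∈ K, |⟪u, x⟫| ≤ 1) {R : E (m + 1) ≃ₗᵢ[ℝ] E (m + 1)}
    (hR : R u = EuclideanSpace.single 0 1) : Supported (R '' K) := by
  refine ⟨⟨hK.1.image R.continuous, hK.2.1.linear_image R.toLinearEquiv.toLinearMap,
    (hK.2.2.image R).mono (R.toHomeomorph.isOpenMap.image_interior_subset K)⟩, ?_, ?_, ?_⟩
  · rintro _ ⟨x, hx, rfl⟩
    exact ⟨-x, hs x hx, map_neg R x⟩
  · intro x hx
    refine ⟨R.symm x, hball ?_, R.apply_symm_apply x⟩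
    rwa [mem_closedBall_zero_iff, R.symm.norm_map, ← mem_closedBall_zero_iff]
  · rintro _ ⟨x, hx, rfl⟩
    have := hu x hx
    rw [← R.inner_map_map, hR, EuclideanSpace.inner_single_left] at this
    simpa using this

/-- An integral along a direction in the profile of the turned body. -/
theorem integral_dir (hm : 1 ≤ m) {K : Set (E (m + 1))} (hK : IsCompact K) {u : E (m + 1)}
    (hu : ∀ x ∈ K, |⟪u, x⟫| ≤ 1) {R : E (m + 1) ≃ₗᵢ[ℝ] E (m + 1)}
    (hR : R u = EuclideanSpace.single 0 1) {g : ℝ → ℝ} (hg : Continuous g) :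
    ∫ x in K, g ⟪u, x⟫ = kappa m * ∫ t in (-1 : ℝ)..1, g t * profile (R '' K) t ^ m := by
  have hin : ∀ x, ⟪u, x⟫ = (R x) 0 := fun x => by
    rw [← R.inner_map_map, hR, EuclideanSpace.inner_single_left]; simp
  have hw : ∀ x ∈ R '' K, |x 0| ≤ 1 := by
    rintro _ ⟨x, hx, rfl⟩
    exact hin x ▸ hu x hx
  rw [← integral_height hm (hK.image R.continuous) hw hg,
    R.measurePreserving.setIntegral_image_emb R.toHomeomorph.measurableEmbedding]
  simp only [hin]

/-- The second moment is the sum of the second moments along the contacts. -/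
theorem sum_dir_sq {K : Set (E n)} (hK : IsCompact K) {u : Fin k → E n} {c : Fin k → ℝ}
    (hres : ∀ x, ∑ i, (c i * ⟪u i, x⟫) • u i = x) :
    ∑ i, c i * ∫ x in K, ⟪u i, x⟫ ^ 2 = ∫ x in K, ‖x‖ ^ 2 := by
  simp only [← integral_const_mul]
  rw [← integral_finsetSum _ fun i _ => (by fun_prop :
    Continuous fun x : E n => c i * ⟪u i, x⟫ ^ 2).continuousOn.integrableOn_compact hK]
  refine integral_congr_ae (Eventually.of_forall fun x => ?_)
  simp only
  rw [← real_inner_self_eq_norm_sq]
  nth_rewrite 2 [← hres x]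
  rw [sum_inner]
  exact Finset.sum_congr rfl fun i _ => by rw [real_inner_smul_left]; ring

/-- The weights of a resolution of the identity sum to the dimension. -/
theorem sum_weights {u : Fin k → E n} {c : Fin k → ℝ} (hu : ∀ i, ‖u i‖ = 1)
    (hres : ∀ x, ∑ i, (c i * ⟪u i, x⟫) • u i = x) : ∑ i, c i = n := by
  set b := EuclideanSpace.basisFun (Fin n) ℝ
  have h : ∀ j, ∑ i, c i * ⟪u i, b j⟫ ^ 2 = 1 := fun j => by
    have := congrArg (fun z => ⟪z, b j⟫) (hres (b j))
    simp only [sum_inner, real_inner_smul_left, real_inner_self_eq_norm_sq, b.orthonormal.1,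
      one_pow] at this
    exact (Finset.sum_congr rfl fun i _ => by ring).trans this
  calc ∑ i, c i = ∑ i, ∑ j, c i * ⟪u i, b j⟫ ^ 2 := Finset.sum_congr rfl fun i _ => by
        rw [← Finset.mul_sum,
          show ∑ j, ⟪u i, b j⟫ ^ 2 = ‖u i‖ ^ 2 by
            rw [← b.sum_sq_norm_inner_left (u i)]
            exact Finset.sum_congr rfl fun j _ => by rw [Real.norm_eq_abs, sq_abs],
          hu, one_pow, mul_one]
    _ = n := by rw [Finset.sum_comm, Finset.sum_congr rfl fun j _ => h j]; simp

section Average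

variable {K : Set (E (m + 1))} {u : Fin k → E (m + 1)} {c : Fin k → ℝ}
  {R : Fin k → E (m + 1) ≃ₗᵢ[ℝ] E (m + 1)}

/-- The variance against the slices is nonnegative on average. -/
theorem varTerm_avg (hm : 1 ≤ m) (hK : IsCompact K) (hc : ∀ i, 0 ≤ c i) (hu : ∀ i, ‖u i‖ = 1)
    (hw : ∀ i, ∀ x ∈ K, |⟪u i, x⟫| ≤ 1) (hres : ∀ x, ∑ i, (c i * ⟪u i, x⟫) • u i = x)
    (hR : ∀ i, R i (u i) = EuclideanSpace.single 0 1) :
    0 ≤ ∑ i, c i * varTerm m (profile (R i '' K)) := by
  set X := ∫ x in K, ‖x‖ ^ 2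
  set F := fun i => ∫ t in (-1 : ℝ)..1, profile (R i '' K) t ^ (m + 2)
  have hM : ∀ i, ∫ x in K, ⟪u i, x⟫ ^ 2 =
      kappa m * ∫ t in (-1 : ℝ)..1, t ^ 2 * profile (R i '' K) t ^ m := fun i =>
    integral_dir hm hK (hw i) (hR i) (by fun_prop : Continuous fun t : ℝ => t ^ 2)
  have hge : ∀ i, (∫ x in K, ⟪u i, x⟫ ^ 2) + (m : ℝ) / (m + 2) * kappa m * F i ≤ X := fun i => by
    have hin : ∀ x, ⟪u i, x⟫ = (R i x) 0 := fun x => by
      rw [← (R i).inner_map_map, hR i, EuclideanSpace.inner_single_left]; simp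
    have h := norm_sq_ge hm (hK.image (R i).continuous) (by
      rintro _ ⟨x, hx, rfl⟩
      exact hin x ▸ hw i x hx)
    rw [(R i).measurePreserving.setIntegral_image_emb (R i).toHomeomorph.measurableEmbedding,
      (R i).measurePreserving.setIntegral_image_emb (R i).toHomeomorph.measurableEmbedding] at h
    simp only [← hin, LinearIsometryEquiv.norm_map] at h
    exact h
  have hsum := Finset.sum_le_sum fun i (_ : i ∈ Finset.univ) =>
    mul_le_mul_of_nonneg_left (hge i) (hc i)
  rw [← Finset.sum_mul, sum_weights hu hres] at hsum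
  simp only [mul_add, Finset.sum_add_distrib] at hsum
  have hX : ∑ i, c i * ∫ x in K, ⟪u i, x⟫ ^ 2 = X := sum_dir_sq hK hres
  rw [hX] at hsum
  have hm0 : (0 : ℝ) < m := Nat.cast_pos.2 (by omega)
  have hF : ∑ i, c i * ((m : ℝ) / (m + 2) * kappa m * F i) =
      (m : ℝ) / (m + 2) * (∑ i, c i * (kappa m * F i)) := by
    rw [Finset.mul_sum]; exact Finset.sum_congr rfl fun i _ => by ring
  rw [hF] at hsum
  push_cast at hsum
  have h1 : ∑ i, c i * (kappa m * F i) ≤ ((m : ℝ) + 2) * X := by
    have : (m : ℝ) / (m + 2) * (∑ i, c i * (kappa m * F i)) ≤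
        (m : ℝ) / (m + 2) * (((m : ℝ) + 2) * X) := by
      rw [← mul_assoc, div_mul_cancel₀ _ (by positivity)]; linarith
    exact le_of_mul_le_mul_left this (by positivity)
  refine nonneg_of_mul_nonneg_right ?_ (Sharp.kappa_pos' m)
  calc (0 : ℝ) ≤ ((m : ℝ) + 2) * X - ∑ i, c i * (kappa m * F i) := by linarith
    _ = _ := by
      rw [← hX, Finset.mul_sum, Finset.mul_sum, ← Finset.sum_sub_distrib]
      exact Finset.sum_congr rfl fun i _ => by rw [hM i, varTerm]; ring

/-- The Fisher information is at most its value at the ball on average. -/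
theorem fisherTerm_avg (hm : 1 ≤ m) (hK : IsBody K) (hball : closedBall (0 : E (m + 1)) 1 ⊆ K)
    (hc : ∀ i, 0 ≤ c i) (hu : ∀ i, ‖u i‖ = 1) (hw : ∀ i, ∀ x ∈ K, |⟪u i, x⟫| ≤ 1)
    (hres : ∀ x, ∑ i, (c i * ⟪u i, x⟫) • u i = x)
    (hR : ∀ i, R i (u i) = EuclideanSpace.single 0 1) (φ φ' : Fin k → ℝ → ℝ)
    (hφ : ∀ i t, HasDerivAt (φ i) (φ' i t) t) (hφ' : ∀ i, Continuous (φ' i)) :
    ∑ i, c i * fisherTerm m (profile (R i '' K)) (φ i) (φ' i) ≤ 0 := by
  have h := fisher_le hK.1 hK.2.1 hball hc hu hres φ φ' hφ hφ'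
  have hφc : ∀ i, Continuous (φ i) := fun i =>
    continuous_iff_continuousAt.2 fun t => (hφ i t).continuousAt
  have hvol : ∀ i, vol K = kappa m * ∫ t in (-1 : ℝ)..1, profile (R i '' K) t ^ m := fun i => by
    have := integral_dir hm hK.1 (hw i) (hR i) (continuous_const : Continuous fun _ : ℝ => (1 : ℝ))
    simpa [setIntegral_const, vol, measureReal_def] using this
  rw [← sub_nonpos, show ((m + 1 : ℕ) : ℝ) * vol K = ∑ i, c i * vol K by
    rw [← Finset.sum_mul, sum_weights hu hres], ← Finset.sum_sub_distrib] at h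
  refine nonpos_of_mul_nonpos_right ?_ (Sharp.kappa_pos' m)
  refine le_trans (le_of_eq ?_) h
  rw [Finset.mul_sum]
  refine Finset.sum_congr rfl fun i _ => ?_
  have := hφc i
  have := hφ' i
  rw [integral_dir hm hK.1 (hw i) (hR i) (g := fun t =>
    2 * φ' i t - ((m + 1 : ℕ) : ℝ) * φ i t ^ 2 - 2 * t * φ i t * φ' i t) (by fun_prop), hvol i,
    fisherTerm]
  push_cast
  ring

/-- The variance against the ball of the same volume is nonnegative on average. -/
theorem globalTerm_avg (hm : 1 ≤ m) (hK : IsCompact K) (hu : ∀ i, ‖u i‖ = 1)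
    (hw : ∀ i, ∀ x ∈ K, |⟪u i, x⟫| ≤ 1) (hres : ∀ x, ∑ i, (c i * ⟪u i, x⟫) • u i = x)
    (hR : ∀ i, R i (u i) = EuclideanSpace.single 0 1) :
    0 ≤ ∑ i, c i * globalTerm m (profile (R i '' K)) := by
  set J₀ := ∫ t in (-1 : ℝ)..1, semi t ^ m
  set V := vol K / kappa m
  set p := (2 : ℝ) / ((m : ℝ) + 1)
  have hκ := Sharp.kappa_pos' m
  have hJ : ∀ i, ∫ t in (-1 : ℝ)..1, profile (R i '' K) t ^ m = V := fun i => by
    have := integral_dir hm hK (hw i) (hR i) (continuous_const : Continuous fun _ : ℝ => (1 : ℝ))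
    simp only [setIntegral_const, smul_eq_mul, mul_one, one_mul] at this
    simp only [V, vol]
    rw [← measureReal_def, this]
    field_simp
  have hb := bathtub (k := m + 1) (by omega) hK
  have hV : vol K / kappa (m + 1) = V / J₀ := by
    rw [kappa_succ hm]; simp only [V, J₀]; field_simp
  have hpow : ((vol K / kappa (m + 1)) ^ (((m + 1 : ℕ) : ℝ)⁻¹)) ^ (m + 1 + 2) =
      (V / J₀) ^ p * (vol K / kappa (m + 1)) := by
    have h0 : 0 ≤ vol K / kappa (m + 1) :=
      div_nonneg (show 0 ≤ vol K from ENNReal.toReal_nonneg) (Sharp.kappa_pos' _).le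
    rw [pow_add, Real.rpow_inv_natCast_pow h0 (Nat.succ_ne_zero m), mul_comm, ← Real.rpow_natCast,
      ← Real.rpow_mul h0, ← hV]
    congr 2
    simp only [p]; push_cast; ring
  rw [hpow] at hb
  push_cast at hb
  have hvk : kappa (m + 1) * ((V / J₀) ^ p * (vol K / kappa (m + 1))) =
      kappa m * ((V / J₀) ^ p * V) := by
    have := Sharp.kappa_pos' (m + 1)
    simp only [V]; field_simp
  rw [mul_assoc, hvk, div_mul_eq_mul_div, div_le_iff₀ (by positivity), ← sum_dir_sq hK hres,
    ← sum_weights hu hres (n := m + 1) |>.trans (Nat.cast_succ m)] at hb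
  refine nonneg_of_mul_nonneg_right ?_ hκ
  calc (0 : ℝ) ≤ (∑ i, c i * ∫ x in K, ⟪u i, x⟫ ^ 2) * ((m : ℝ) + 3) -
        (∑ i, c i) * (kappa m * ((V / J₀) ^ p * V)) := by
          rw [show (m : ℝ) + 3 = ((m : ℝ) + 1) + 2 by ring,
            ← (sum_weights hu hres (n := m + 1)).trans (Nat.cast_succ m)]
          linarith
    _ = _ := by
      rw [Finset.sum_mul, Finset.sum_mul, Finset.mul_sum, ← Finset.sum_sub_distrib]
      refine Finset.sum_congr rfl fun i _ => ?_
      rw [integral_dir hm hK (hw i) (hR i) (by fun_prop : Continuous fun t : ℝ => t ^ 2),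
        globalTerm, hJ i]
      ring

end Average

end Vale.Agent.P237.All
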