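import Vale.Agent.P237.All.Regimes
import Vale.Agent.P237.All.Finite.Range
import Vale.Agent.P237.All.Small.Wide.Range

/-!
P237, every dimension: the ranges of the finite cells as parts of the assembly.
-/

noncomputable section

namespace Vale.Agent.P237.All.Transport

/-- Cells on `[a, b)` give the part above the direct regime. -/
theorem boundOn_of_range {p : ℕ} {a b : ℚ} {s : ℝ} (h : Finite.RangeOk p a b)
    (ha : (a : ℝ) ≤ kTiny p) (hs : s ≤ (b : ℝ)) : BoundOn p (Set.Ioo (kTiny p) s) :=
  fun k hk => h k (ha.trans hk.1.le) (hk.2.trans_le hs)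

/-- Cells on `[5/2, 17)` and the high regime give `[5/2, 17]`. -/
theorem boundOn_of_top {p : ℕ} (hp : 3 ≤ p) (h : Finite.RangeOk p (5 / 2) 17) :
    BoundOn p (Set.Icc (5 / 2) 17) := fun k hk => by
  rcases eq_or_lt_of_le hk.2 with h' | h'
  · exact boundOn_high hp k (Set.mem_Ici.2 h'.ge)
  · exact h k (by push_cast; exact hk.1) (by push_cast; exact h')

/-- The threshold in low dimensions. -/
theorem kTiny_small {p : ℕ} (hp : p ≤ 28) : kTiny p = (Tiny.smallK p : ℝ) := if_pos hp

/-- The threshold in middle dimensions. -/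
theorem kTiny_mid {p : ℕ} (hp : 29 ≤ p) (hp' : p ≤ 98) : kTiny p = (Tiny.midKOf p : ℝ) := by
  rw [kTiny, if_neg (by omega), if_pos hp']

/-- The small cell from dimension fifty-five on. -/
theorem boundOn_wide {p : ℕ} (hp : 54 ≤ p) : BoundOn p (Set.Icc (67 / 5000) (4 / 5)) := fun _ hk =>
  (Small.Wide.hasCert_wide hp hk.1 hk.2).hasBound (by omega)

end Vale.Agent.P237.All.Transport
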