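import Mathlib.Analysis.SpecialFunctions.Pow.Real
import Mathlib.Analysis.Convex.Function
import Mathlib.MeasureTheory.Integral.IntervalIntegral.Basic
import Mathlib.Analysis.Calculus.Deriv.Basic

/-!
P237, every dimension: profiles of slices, the bound wanted of them and the terms of the mixed test.
Only analysis: the certificates need nothing of the geometry.
-/

noncomputable section

open MeasureTheory Set Real

namespace Vale.Agent.P237.All

/-- The profile of the ball. -/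
def semi (t : ℝ) : ℝ := √(1 - t ^ 2)

/-- A concave even profile above that of the ball. -/
def IsProfile (f : ℝ → ℝ) : Prop :=
  ConcaveOn ℝ (Ioo (-1) 1) f ∧ (∀ t ∈ Ioo (-1 : ℝ) 1, f (-t) = f t) ∧
    ∀ t ∈ Ioo (-1 : ℝ) 1, semi t ≤ f t

/-- The slice inequality on a profile, with equality only at the ball. -/
def ProfileBound (m : ℕ) (f : ℝ → ℝ) : Prop :=
  (∫ t in (-1 : ℝ)..1, semi t ^ (m - 1)) ^ m * (∫ t in (-1 : ℝ)..1, f t ^ m) ^ (m - 1) ≤
      (∫ t in (-1 : ℝ)..1, f t ^ (m - 1)) ^ m * (∫ t in (-1 : ℝ)..1, semi t ^ m) ^ (m - 1) ∧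
    ((∫ t in (-1 : ℝ)..1, f t ^ (m - 1)) ^ m * (∫ t in (-1 : ℝ)..1, semi t ^ m) ^ (m - 1) =
        (∫ t in (-1 : ℝ)..1, semi t ^ (m - 1)) ^ m * (∫ t in (-1 : ℝ)..1, f t ^ m) ^ (m - 1) →
      ∀ t ∈ Ioo (-1 : ℝ) 1, f t = semi t)

/-- The variance of the axis against the slices: zero on the ball. -/
def varTerm (m : ℕ) (f : ℝ → ℝ) : ℝ :=
  ((m : ℝ) + 2) * (∫ t in (-1 : ℝ)..1, t ^ 2 * f t ^ m) - ∫ t in (-1 : ℝ)..1, f t ^ (m + 2)

/-- The variance of the axis against the ball of the same volume: zero on the ball. -/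
def globalTerm (m : ℕ) (f : ℝ → ℝ) : ℝ :=
  ((m : ℝ) + 3) * (∫ t in (-1 : ℝ)..1, t ^ 2 * f t ^ m) -
    ((∫ t in (-1 : ℝ)..1, f t ^ m) / ∫ t in (-1 : ℝ)..1, semi t ^ m) ^ (2 / ((m : ℝ) + 1)) *
      ∫ t in (-1 : ℝ)..1, f t ^ m

/-- The Fisher information of the axis tested by `φ`, less its average. -/
def fisherTerm (m : ℕ) (f φ φ' : ℝ → ℝ) : ℝ :=
  (∫ t in (-1 : ℝ)..1, (2 * φ' t - ((m : ℝ) + 1) * φ t ^ 2 - 2 * t * φ t * φ' t) * f t ^ m) -
    ∫ t in (-1 : ℝ)..1, f t ^ m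

/-- The mixture of the two variances and the Fisher information with weights that may depend on
the common integral of the profiles is nonnegative for every test function. -/
def MixedTest (m : ℕ) (a b d : ℝ → ℝ) (f : ℝ → ℝ) : Prop :=
  ∀ φ φ' : ℝ → ℝ, (∀ t, HasDerivAt φ (φ' t) t) → Continuous φ' →
    0 ≤ a (∫ t in (-1 : ℝ)..1, f t ^ m) * varTerm m f +
      b (∫ t in (-1 : ℝ)..1, f t ^ m) * globalTerm m f -
      d (∫ t in (-1 : ℝ)..1, f t ^ m) * fisherTerm m f φ φ'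

end Vale.Agent.P237.All
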