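import Vale.Agent.P237.All.Pins
import Vale.Agent.P237.Three.Reduction
import Vale.Agent.P237.Three.Midpoint

/-!
P237, every dimension: the support function of the projection body, the class reduction with its
equality case, and a symmetric minimiser.
-/

noncomputable section

open MeasureTheory Set Filter Metric
open scoped RealInnerProductSpace Topology Pointwise

namespace Vale.Agent.P237.All

open Three (IsBody IsSymm)

variable {n : ℕ}

/-- The shadow volume is the support function of the projection body. -/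
theorem support (hn : 1 ≤ n) {K : Set (E n)} (hK : IsBody K) :
    IsBody (projectionBody K) ∧ IsSymm (projectionBody K) ∧
      ∀ u : E n, ‖u‖ = 1 → supp (projectionBody K) u = vol (shadowCylinder K u) := by
  rw [projectionBody_eq hK.1]
  refine ⟨Three.body_projBody hn hK.1 hK.2.2, fun y hy => Three.projBody_symm hy, fun u hu => ?_⟩
  rw [vol_shadowCylinder hK.1 hu, supp]
  exact (Three.isLUB_projBody hn hK.1 hK.2.1 hK.2.2 hu).csSup_eq
    ⟨0, 0, Three.Iter.zero_mem_projBody K, inner_zero_left u⟩

/-- The class reduction. -/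
theorem reduction (hn : 1 ≤ n) {K : Set (E n)} (hK : IsBody K) :
    vol (projectionBody (projectionBody K)) * vol K ^ (n - 1) ≤ vol (projectionBody K) ^ n := by
  have hZ := Three.body_projBody hn hK.1 hK.2.2
  rw [projectionBody_eq hK.1, projectionBody_eq hZ.1]
  exact Three.Iter.proj_iter_le hn hK.1 hK.2.1 hK.2.2

/-- When the class reduction is sharp, the body is a translate of a dilate of its second
projection body. -/
theorem eq_translate_smul_iter (hn : 2 ≤ n) {K : Set (E n)} (hK : IsBody K)
    (hge : vol (projectionBody K) ^ n ≤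
      vol (projectionBody (projectionBody K)) * vol K ^ (n - 1)) :
    let C := (vol K / vol (projectionBody K)) • projectionBody (projectionBody K)
    IsBody C ∧ IsSymm C ∧ vol C = vol K ∧ ∃ g : E n, K = (fun x => g + x) '' C := by
  intro C
  obtain ⟨hZ, -, -⟩ := support (by omega) hK
  obtain ⟨hL, hLs, -⟩ := support (by omega) hZ
  set Z := projectionBody K
  set L := projectionBody Z
  have hk := Three.vol_pos hK
  have hz := Three.vol_pos hZ
  set s := vol K / vol Z with hs
  have hs0 : 0 < s := div_pos hk hz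
  have hC : IsBody C := ⟨hL.1.smul s, hL.2.1.smul s, by
    rw [interior_smul₀ hs0.ne']; exact hL.2.2.smul_set⟩
  have hCs : IsSymm C := by
    rintro _ ⟨x, hx, rfl⟩
    exact ⟨-x, hLs x hx, smul_neg s x⟩
  have hv : vol C = vol K := by
    obtain ⟨m, rfl⟩ : ∃ m, n = m + 1 := ⟨n - 1, by omega⟩
    have h : vol L * vol K ^ m = vol Z ^ (m + 1) :=
      le_antisymm (by simpa using reduction (by omega) hK) (by simpa using hge)
    rw [show vol C = _ from Sharp.vol_smul hs0.le _, hs, div_pow, div_mul_eq_mul_div,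
      div_eq_iff (pow_ne_zero _ hz.ne'), ← h]
    ring
  refine ⟨hC, hCs, hv, ?_⟩
  have hmid : vol ((2⁻¹ : ℝ) • (K + C)) = vol K := by
    rw [show (2⁻¹ : ℝ) = 1 / 2 by norm_num]
    refine le_antisymm ?_ ?_
    · have hz' : 0 < vol (projBody K) := by rw [← projectionBody_eq hK.1]; exact hz
      have h := Three.Iter.mid_vol_le (by omega) hK.1 hK.2.1 hK.2.2 hz'
      rwa [← projectionBody_eq hK.1, ← projectionBody_eq hZ.1] at h
    · have hbm := Sharp.bm_euclid (n := n) (by omega) hK.1 hC.1
        ((hK.1.add hC.1).smul (1 / 2 : ℝ)) hK.2.1 hC.2.1 hk (hv ▸ hk)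
        (l := 1 / 2) (μ := 1 / 2) (by norm_num) (by norm_num) (by norm_num)
        fun z hz' w hw => ⟨z + w, add_mem_add hz' hw, smul_add _ _ _⟩
      refine le_trans (le_of_eq ?_) hbm
      rw [hv, ← two_mul, ← mul_assoc, show (2 : ℝ) * (1 / 2) = 1 by norm_num, one_mul,
        Real.rpow_inv_natCast_pow hk.le (by omega)]
  obtain ⟨m, rfl⟩ : ∃ m, n = m + 1 := ⟨n - 1, by omega⟩
  exact Three.eq_translate_of_mid (by omega) hK.1 hK.2.1 hK.2.2 hC.1 hC.2.1 hC.2.2 hv hmid

/-- A minimiser among symmetric bodies. -/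
theorem minimiser (hn : 1 ≤ n) : ∃ K₀ : Set (E n), IsBody K₀ ∧ IsSymm K₀ ∧
    ∀ K : Set (E n), IsBody K → IsSymm K →
      vol (projectionBody K₀) * vol K ^ (n - 1) ≤ vol (projectionBody K) * vol K₀ ^ (n - 1) := by
  obtain ⟨K₀, h0, hs, h⟩ := Three.exists_minimiser_symm hn
  refine ⟨K₀, h0, hs, fun K hK hKs => ?_⟩
  have h1 := h K hK hKs
  rw [Three.ratio, Three.ratio,
    div_le_div_iff₀ (pow_pos (Three.vol_pos h0) _) (pow_pos (Three.vol_pos hK) _)] at h1
  exact h1

end Vale.Agent.P237.All
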