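import Vale.Agent.P237.All.Assemble
import Vale.Agent.P237.All.High.Cert
import Vale.Agent.P237.All.Middle.Cert
import Vale.Agent.P237.All.Middle.Low.Cert
import Vale.Agent.P237.All.Mid.Main
import Vale.Agent.P237.All.Small.Large.CertA
import Vale.Agent.P237.All.Small.Large.CertLow
import Vale.Agent.P237.All.Tiny.Bound
import Vale.Agent.P237.All.Tiny.SmallBound
import Vale.Agent.P237.All.Tiny.MidBound

/-!
P237, every dimension: the bound at every common integral from the regimes, with what is left between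
them as hypotheses.
-/

noncomputable section

open Real

namespace Vale.Agent.P237.All.Transport

/-- The common integral with excess `k`. -/
def jK (p : ℕ) (k : ℝ) : ℝ := exp (k / ((p : ℝ) + 1)) * (2 * mass (p + 1) semi 1)

/-- The bound for every excess in a set. -/
def BoundOn (p : ℕ) (s : Set ℝ) : Prop := ∀ k ∈ s, HasBound p (jK p k)

theorem boundOn_high {p : ℕ} (hp : 3 ≤ p) : BoundOn p (Set.Ici 17) := fun k hk => by
  refine (High.hasCert_high p (by omega) _ ?_).hasBound (by omega)
  exact mul_le_mul_of_nonneg_right (exp_le_exp.2 (div_le_div_of_nonneg_right hk (by positivity)))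
    (mul_nonneg (by norm_num) (mass_one_pos isProfile_semi _).le)

theorem boundOn_middle {p : ℕ} (hp : 44 ≤ p) : BoundOn p (Set.Icc (5 / 2) 17) := fun k hk => by
  have hm := mul_nonneg (by norm_num : (0 : ℝ) ≤ 2) (mass_one_pos isProfile_semi (p + 1)).le
  have l : exp ((5 / 2) / ((p : ℝ) + 1)) * (2 * mass (p + 1) semi 1) ≤ jK p k :=
    mul_le_mul_of_nonneg_right (exp_le_exp.2 (div_le_div_of_nonneg_right hk.1 (by positivity))) hm
  have u : jK p k ≤ exp (17 / ((p : ℝ) + 1)) * (2 * mass (p + 1) semi 1) :=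
    mul_le_mul_of_nonneg_right (exp_le_exp.2 (div_le_div_of_nonneg_right hk.2 (by positivity))) hm
  rcases le_total 127 p with h | h
  · exact (Middle.hasCert_middle p h _ l u).hasBound (by omega)
  · exact (Middle.Low.hasCert_middle_low p hp h _ l u).hasBound (by omega)

theorem boundOn_mid {p : ℕ} (hp : 29 ≤ p) : BoundOn p (Set.Icc (4 / 5) (5 / 2)) := fun k hk => by
  have hm := mul_nonneg (by norm_num : (0 : ℝ) ≤ 2) (mass_one_pos isProfile_semi (p + 1)).le
  refine (Mid.hasCert_mid p hp _ ?_ ?_).hasBound (by omega) <;>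
    refine mul_le_mul_of_nonneg_right (exp_le_exp.2 (div_le_div_of_nonneg_right ?_ (by positivity))) hm
  exacts [hk.1, hk.2]

/-- The bound on `[4/5, ∞)` in dimension at least `45`. -/
theorem boundOn_large {p : ℕ} (hp : 44 ≤ p) : BoundOn p (Set.Ici (4 / 5)) := fun k hk => by
  rcases le_total k (5 / 2) with h | h
  · exact boundOn_mid (by omega) k ⟨hk, h⟩
  rcases le_total k 17 with h' | h'
  · exact boundOn_middle hp k ⟨h, h'⟩
  · exact boundOn_high (by omega) k h'

/-- The excess below which the direct bound applies. -/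
def kTiny (p : ℕ) : ℝ :=
  if p ≤ 28 then (Tiny.smallK p : ℝ)
  else if p ≤ 98 then (Tiny.midKOf p : ℝ) else exp (-(5 / 4 * √((p : ℝ) + 1))) / 5

theorem boundOn_tiny {p : ℕ} (hp : 3 ≤ p) : BoundOn p (Set.Iic (kTiny p)) := fun k hk => by
  rw [Set.mem_Iic, kTiny] at hk
  split_ifs at hk with h1 h2
  · exact Tiny.hasBound_small hp h1 le_rfl hk
  · exact Tiny.hasBound_mid (by omega) h2 le_rfl hk
  · exact Tiny.hasBound_tiny (by omega) le_rfl hk

theorem boundOn_low {p : ℕ} (hp : 51 ≤ p) : BoundOn p (Set.Iic (67 / 5000)) := fun k hk => by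
  rcases le_total k (kTiny p) with h | h
  · exact boundOn_tiny (by omega) k h
  rw [kTiny] at h
  split_ifs at h with h1 h2
  · omega
  · exact (Small.Large.hasCert_low_mid hp h2 h hk).hasBound (by omega)
  · exact (Small.Large.hasCert_low (by omega) h hk).hasBound (by omega)

/-- The bound above the ball in every dimension from fifty-two on, from the bound on the small cell. -/
theorem boundOn_gap_big {p : ℕ} (hp : 51 ≤ p) (h : BoundOn p (Set.Icc (67 / 5000) (4 / 5))) :
    BoundOn p Set.univ := fun k _ => by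
  rcases le_total k (67 / 5000) with h1 | h1
  · exact boundOn_low hp k h1
  rcases le_total k (4 / 5) with h2 | h2
  · exact h k ⟨h1, h2⟩
  · exact boundOn_large (by omega) k h2

/-- The bounds at all integrals from the bound between the direct regimes and the high one. -/
theorem bounds_of_gap (h : ∀ p : ℕ, 3 ≤ p → BoundOn p (Set.Ioo (kTiny p) 17)) : BoundsStmt := by
  intro p hp J hJ
  set P := 2 * mass (p + 1) semi 1 with hP
  have hP0 : 0 < P := by
    have := mass_one_pos isProfile_semi (p + 1)
    linarith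
  set k := ((p : ℝ) + 1) * log (J / P) with hk
  have he : J = jK p k := by
    rw [jK, hk, mul_div_cancel_left₀ _ (by positivity), exp_log (div_pos (hP0.trans hJ) hP0), ← hP,
      div_mul_cancel₀ _ hP0.ne']
  rw [he]
  rcases le_or_gt k (kTiny p) with h1 | h1
  · exact boundOn_tiny hp k h1
  rcases le_or_gt 17 k with h2 | h2
  · exact boundOn_high hp k h2
  · exact h p hp k ⟨h1, h2⟩

/-- The bounds at all integrals from what is left: the per-dimension cells up to `5/2` below
dimension thirty, those on `[5/2, 17]` below dimension forty-five, and the small cell. -/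
theorem bounds_of_parts
    (hF : ∀ p : ℕ, 3 ≤ p → p ≤ 28 → BoundOn p (Set.Ioo (kTiny p) (5 / 2)))
    (hT : ∀ p : ℕ, 3 ≤ p → p ≤ 43 → BoundOn p (Set.Icc (5 / 2) 17))
    (hS : ∀ p : ℕ, 29 ≤ p → p ≤ 53 → BoundOn p (Set.Ioo (kTiny p) (4 / 5)))
    (hW : ∀ p : ℕ, 54 ≤ p → BoundOn p (Set.Icc (67 / 5000) (4 / 5))) : BoundsStmt :=
  bounds_of_gap fun p hp k hk => by
    rcases le_or_gt (5 / 2 : ℝ) k with h | h
    · rcases le_or_gt p 43 with h' | h'
      · exact hT p hp h' k ⟨h, hk.2.le⟩
      · exact boundOn_middle (by omega) k ⟨h, hk.2.le⟩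
    rcases le_or_gt p 28 with h1 | h1
    · exact hF p hp h1 k ⟨hk.1, h⟩
    rcases le_or_gt (4 / 5 : ℝ) k with h2 | h2
    · exact boundOn_mid (by omega) k ⟨h2, h.le⟩
    rcases le_or_gt p 53 with h3 | h3
    · exact hS p (by omega) h3 k ⟨hk.1, h2⟩
    rcases le_or_gt k (67 / 5000) with h4 | h4
    · exact boundOn_low (by omega) k h4
    · exact hW p (by omega) k ⟨h4.le, h2.le⟩

end Vale.Agent.P237.All.Transport
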