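import Vale.Agent.P237.All.Moments

/-!
P237, every dimension: the slices of a supported body form a profile (`notes/P237h6/alln.md`).
-/

noncomputable section

open MeasureTheory Set Metric Real
open scoped Pointwise RealInnerProductSpace

namespace Vale.Agent.P237.All

variable {m : ℕ}

/-- `SlicesStmt`. -/
theorem slicesStmt (hm : 1 ≤ m) : SlicesStmt m := by
  rintro K ⟨⟨hK, hc, hi⟩, hsym, hball, hw⟩
  have : Nonempty (Fin m) := ⟨⟨0, hm⟩⟩
  have hκ := Sharp.kappa_pos' m
  have hsq : ∀ (t : ℝ) (y : E m), ‖lift t y‖ ^ 2 = t ^ 2 + ‖y‖ ^ 2 := fun t y => by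
    rw [← real_inner_self_eq_norm_sq, lift_inner, real_inner_self_eq_norm_sq]; ring
  have hsub : ∀ t ∈ Icc (-1 : ℝ) 1, closedBall (0 : E m) (semi t) ⊆ slice K t := fun t ht y hy => by
    refine hball (mem_closedBall_zero_iff.2 ?_)
    rw [mem_closedBall_zero_iff, semi,
      Real.le_sqrt (norm_nonneg _) (by nlinarith [ht.1, ht.2])] at hy
    rw [← sq_le_one_iff₀ (norm_nonneg _), hsq]
    linarith
  have hht : Ioo (-1 : ℝ) 1 ⊆ Sharp.heights (cds K) := fun t ht => by
    refine ⟨Fin.cons t 0, ?_, rfl⟩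
    refine interior_maximal (s := cds K) (t := WithLp.toLp 2 ⁻¹' ball (0 : E (m + 1)) 1)
      (fun v hv => hball (ball_subset_closedBall hv))
      (isOpen_ball.preimage (PiLp.continuous_toLp 2 _)) ?_
    show lift t (0 : E m) ∈ ball (0 : E (m + 1)) 1
    rw [mem_ball_zero_iff, ← sq_lt_one_iff₀ (norm_nonneg _), hsq]
    simp only [norm_zero]
    nlinarith [ht.1, ht.2]
  have hB : Sharp.Body (cds K) := ⟨isCompact_cds hK,
    hc.linear_preimage (WithLp.linearEquiv 2 ℝ (Fin (m + 1) → ℝ)).symm.toLinearMap, by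
      obtain ⟨x, hx, -⟩ := hht (show (0 : ℝ) ∈ Ioo (-1 : ℝ) 1 by constructor <;> norm_num)
      exact ⟨x, hx⟩⟩
  have hroot : ∀ t, profile K t = Sharp.area (cds K) t ^ ((m : ℝ)⁻¹) / kappa m ^ ((m : ℝ)⁻¹) :=
    fun t => by
      rw [← Real.div_rpow (by rw [Sharp.area]; exact ENNReal.toReal_nonneg) hκ.le]
      rfl
  have hge : ∀ t ∈ Ioo (-1 : ℝ) 1, semi t ≤ profile K t := fun t ht => by
    refine (pow_le_pow_iff_left₀ (Real.sqrt_nonneg _) (profile_nonneg hK t)
      (by omega : m ≠ 0)).1 (le_of_mul_le_mul_left ?_ hκ)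
    rw [kappa_mul_profile_pow hm hK]
    refine le_trans (le_of_eq ?_) (ENNReal.toReal_mono (isCompact_slice hK t).measure_lt_top.ne
      (measure_mono (hsub t ⟨ht.1.le, ht.2.le⟩)))
    rw [Measure.addHaar_closedBall volume _ (show (0 : ℝ) ≤ semi t from Real.sqrt_nonneg _),
      finrank_euclideanSpace_fin, ENNReal.toReal_mul,
      ENNReal.toReal_ofReal (pow_nonneg (show (0 : ℝ) ≤ semi t from Real.sqrt_nonneg _) _), kappa,
      mul_comm]
    rfl
  have hvol : vol K = kappa m * ∫ t in (-1 : ℝ)..1, profile K t ^ m := by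
    have h := integral_height hm hK hw (continuous_const : Continuous fun _ : ℝ => (1 : ℝ))
    simpa [setIntegral_const, vol, measureReal_def] using h
  refine ⟨⟨?_, fun t _ => ?_, hge⟩, hvol, fun hfS => ?_⟩
  · refine ⟨convex_Ioo _ _, fun x hx y hy a b ha hb hab => ?_⟩
    have h := (Sharp.concaveOn_area (by omega) hB).2 (hht hx) (hht hy) ha hb hab
    simp only [smul_eq_mul] at h
    simp only [smul_eq_mul, hroot, mul_div, ← add_div]
    exact div_le_div_of_nonneg_right h (Real.rpow_nonneg hκ.le _)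
  · rw [profile_eq hK, profile_eq hK, slice_neg hsym, vol_neg_image]
  · have hv : vol K = vol (closedBall (0 : E (m + 1)) 1) := by
      rw [hvol, show vol (closedBall (0 : E (m + 1)) 1) = kappa (m + 1) by
        rw [kappa, vol, Measure.addHaar_closedBall_eq_addHaar_ball], kappa_succ hm]
      congr 1
      refine intervalIntegral.integral_congr_ae ?_
      filter_upwards [compl_mem_ae_iff.2 (measure_singleton (1 : ℝ))] with t ht hti
      rw [uIoc_of_le (by norm_num : (-1 : ℝ) ≤ 1)] at hti
      rw [hfS t ⟨hti.1, lt_of_le_of_ne hti.2 ht⟩]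
    refine subset_antisymm (fun x hx => ?_) hball
    by_contra hxb
    have hxc : x ∈ closure (interior K) := by
      rw [hc.closure_interior_eq_closure_of_nonempty_interior hi]
      exact subset_closure hx
    obtain ⟨y, hy1, hy2⟩ := mem_closure_iff.1 hxc _ isClosed_closedBall.isOpen_compl hxb
    set U := interior K ∩ (closedBall (0 : E (m + 1)) 1)ᶜ
    have hU : 0 < volume U :=
      (isOpen_interior.inter isClosed_closedBall.isOpen_compl).measure_pos _ ⟨y, hy2, hy1⟩
    have hle : volume (closedBall (0 : E (m + 1)) 1) + volume U ≤ volume K := by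
      rw [← measure_union (disjoint_left.2 fun z h1 h2 => h2.2 h1)
        (isOpen_interior.inter isClosed_closedBall.isOpen_compl).measurableSet]
      exact measure_mono (union_subset hball fun z hz' => interior_subset hz'.1)
    have heq : volume K = volume (closedBall (0 : E (m + 1)) 1) :=
      (ENNReal.toReal_eq_toReal_iff' hK.measure_lt_top.ne
        (isCompact_closedBall _ _).measure_lt_top.ne).1 hv
    rw [heq] at hle
    exact hU.ne' (le_antisymm (ENNReal.le_of_add_le_add_left
      (isCompact_closedBall (0 : E (m + 1)) 1).measure_lt_top.ne (hle.trans (add_zero _).ge))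
      bot_le)

end Vale.Agent.P237.All
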