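import Vale.Agent.P237.All.TailCap
import Vale.Agent.P237.All.Upper.Tail

/-!
P237, every dimension: `TailCap` made explicit (`notes/P237h8/tail-02Dec.md`).  In the scaled
variable `x = √(p + 2) y` it caps `w = r⁻ᵖ` by a multiple of `mills x`, linear in the tail.
-/

noncomputable section

open MeasureTheory Set Filter Real intervalIntegral

namespace Vale.Agent.P237.All.Transport

open Upper (mills mills_pos tail_ge2)

/-- The tail of the mass of a power of the semicircle from above. -/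
theorem tail_le (p : ℕ) {u : ℝ} (hu : u ∈ Ioc (0 : ℝ) 1) :
    mass p semi 1 - mass p semi u ≤ semi u ^ (p + 2) / (((p : ℝ) + 2) * u) := by
  set A : ℝ := (p : ℝ) + 2 with hA
  have hA0 : 0 < A := by positivity
  set G : ℝ → ℝ := fun v => mass p semi 1 - mass p semi v - semi v ^ (p + 2) / (A * v) with hG
  have hne : ∀ v ∈ Icc u 1, A * v ≠ 0 := fun v hv => (mul_pos hA0 (hu.1.trans_le hv.1)).ne'
  have hc : ContinuousOn G (Icc u 1) :=
    (continuousOn_const.sub (Continuous.continuousOn (continuous_iff_continuousAt.2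
      fun v => (semi_mass_hasDerivAt p v).continuousAt))).sub
      (((semi_continuous.pow _).continuousOn).div (by fun_prop) hne)
  have hd : ∀ v ∈ Ioo u 1, HasDerivAt G (semi v ^ (p + 2) / (A * v ^ 2)) v := by
    intro v hv
    have hv0 : 0 < v := hu.1.trans hv.1
    have hv' : v ∈ Ioo (-1 : ℝ) 1 := ⟨by linarith, hv.2⟩
    have h := ((semi_mass_hasDerivAt p v).const_sub (mass p semi 1)).sub
      (((semi_hasDerivAt hv').pow (p + 2)).div ((hasDerivAt_id v).const_mul A) (mul_pos hA0 hv0).ne')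
    refine h.congr_deriv ?_
    have hs0 := (semi_pos hv').ne'
    simp only [Pi.pow_apply, id_eq, mul_one, show p + 2 - 1 = p + 1 from rfl, Nat.cast_add,
      Nat.cast_ofNat, ← hA]
    field_simp
    ring
  have hmono : MonotoneOn G (Icc u 1) := by
    refine monotoneOn_of_deriv_nonneg (convex_Icc _ _) hc ?_ ?_
    · intro v hv; rw [interior_Icc] at hv; exact (hd v hv).differentiableAt.differentiableWithinAt
    · intro v hv
      rw [interior_Icc] at hv
      rw [(hd v hv).deriv]
      exact div_nonneg (pow_nonneg (Real.sqrt_nonneg _) _) (mul_nonneg hA0.le (sq_nonneg v))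
  have h := hmono (left_mem_Icc.2 hu.2) (right_mem_Icc.2 hu.2) hu.2
  have h1 : G 1 = 0 := by simp [hG, semi, zero_pow (show p + 2 ≠ 0 by omega)]
  rw [h1] at h
  simp only [hG] at h
  linarith

/-- The lower mass band lets `t` fall behind `y` by at most `eps (1 - y ^ 2) / ((p + 2) y)`. -/
theorem band_back (p : ℕ) {y t lam : ℝ} (hy : y ∈ Ioo (0 : ℝ) 1) (ht : t ∈ Ioo (0 : ℝ) 1) (hlam : 1 ≤ lam)
    (h : mass p semi 1 - mass p semi t ≤ lam ^ p * (mass p semi 1 - mass p semi y)) :
    y - t ≤ (lam ^ p - 1) * (1 - y ^ 2) / (((p : ℝ) + 2) * y) := by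
  have hε : 0 ≤ lam ^ p - 1 := sub_nonneg.2 (one_le_pow₀ hlam)
  have hy2 : 0 < 1 - y ^ 2 := by nlinarith [hy.1, hy.2]
  have hA : 0 < ((p : ℝ) + 2) * y := mul_pos (by positivity) hy.1
  rcases le_total y t with hyt | hyt
  · exact le_trans (by linarith) (div_nonneg (mul_nonneg hε hy2.le) hA.le)
  have hs := semi_pos (t := y) ⟨by linarith [hy.1], hy.2⟩
  have hi : ∀ a b : ℝ, IntervalIntegrable (fun v => semi v ^ p) volume a b := fun a b =>
    (semi_continuous.pow p).intervalIntegrable a b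
  have h1 : (y - t) * semi y ^ p ≤ mass p semi y - mass p semi t := by
    rw [mass, mass, intervalIntegral.integral_interval_sub_left (hi 0 y) (hi 0 t)]
    refine le_trans (le_of_eq (by rw [intervalIntegral.integral_const, smul_eq_mul]))
      (intervalIntegral.integral_mono_on hyt intervalIntegrable_const (hi t y) fun v hv => ?_)
    refine pow_le_pow_left₀ hs.le (Real.sqrt_le_sqrt ?_) p
    nlinarith [hv.1, hv.2, ht.1]
  have h2 := mul_le_mul_of_nonneg_left (tail_le p ⟨hy.1, hy.2.le⟩) hε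
  have h3 : (y - t) * semi y ^ p ≤
      (lam ^ p - 1) * (semi y ^ p * (1 - y ^ 2) / (((p : ℝ) + 2) * y)) := by
    rw [pow_add, semi_sq ⟨by linarith [hy.1], hy.2.le⟩] at h2
    linarith
  refine le_of_mul_le_mul_right ?_ (pow_pos hs p)
  exact h3.trans (le_of_eq (by ring))

/-- The cap on `w`, from `TailCap` at any comparison point `u ≤ y`. -/
def capTail (p : ℕ) (u y lam : ℝ) : ℝ :=
  lam * mills (√((p : ℝ) + 2) * y) *
    ((lam ^ p - 1) * (mass p semi 1 * √((p : ℝ) + 2)) / semi u ^ (p + 1) +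
      semi u / (√((p : ℝ) + 2) * u)) / semi y

theorem capTail_pos (p : ℕ) {u y lam : ℝ} (hu : 0 < u) (hy : y ∈ Ioo (0 : ℝ) 1) (huy : u ≤ y)
    (hlam : 1 ≤ lam) : 0 < capTail p u y lam := by
  have hs := semi_pos (t := u) ⟨by linarith, huy.trans_lt hy.2⟩
  have hy' := semi_pos (t := y) ⟨by linarith [hy.1], hy.2⟩
  have hε : 0 ≤ lam ^ p - 1 := sub_nonneg.2 (one_le_pow₀ hlam)
  have hP := mass_one_pos isProfile_semi p
  have hA : 0 < √((p : ℝ) + 2) := Real.sqrt_pos.2 (by positivity)
  have hM := mills_pos (mul_nonneg hA.le hy.1.le)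
  have hb : 0 < semi u / (√((p : ℝ) + 2) * u) := by positivity
  unfold capTail
  positivity

/-- `TailCap` bounds `(p + 1) / p * log w`. -/
theorem tailCap_log_le (p : ℕ) {u y r lam : ℝ} (hy : y ∈ Ioo (0 : ℝ) 1) (hu : 0 < u) (huy : u ≤ y)
    (hr : 0 < r) (hlam : 1 ≤ lam) (hcap : TailCap p y r lam) :
    -(((p : ℝ) + 1) * log r) ≤ log (capTail p u y lam) := by
  have hu1 : u < 1 := huy.trans_lt hy.2
  have hs := semi_pos (t := u) ⟨by linarith, hu1⟩
  have hy' := semi_pos (t := y) ⟨by linarith [hy.1], hy.2⟩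
  have hP := mass_one_pos isProfile_semi p
  have hlp : 1 ≤ lam ^ p := one_le_pow₀ hlam
  have hA : (0 : ℝ) < (p : ℝ) + 2 := by positivity
  have hsA : 0 < √((p : ℝ) + 2) := Real.sqrt_pos.2 hA
  have hx : 0 ≤ √((p : ℝ) + 2) * y := mul_nonneg hsA.le hy.1.le
  have hM := mills_pos hx
  have hmass : mass p semi u ≤ lam ^ p * mass p semi y := by
    have h0 : 0 ≤ mass p semi y := intervalIntegral.integral_nonneg hy.1.le fun v _ =>
      pow_nonneg (Real.sqrt_nonneg _) _
    exact le_trans ((semi_mass_strictMonoOn p).monotoneOn ⟨by linarith, hu1.le⟩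
      ⟨by linarith [hy.1], hy.2.le⟩ huy) (le_mul_of_one_le_left h0 hlp)
  have h := hcap u ⟨hu.le, hu1⟩ hmass
  -- the two tails
  have hV : semi y ^ (p + 2) / (√((p : ℝ) + 2) * mills (√((p : ℝ) + 2) * y)) ≤
      mass p semi 1 - mass p semi y := by
    have h2 := tail_ge2 p (Ioo_subset_Icc_self hy)
    rw [tailFrac, mul_assoc, mul_comm (mass p semi 1), ← div_div] at h2
    exact (div_le_div_iff_of_pos_right hP).1 h2
  have hVu := tail_le p (u := u) ⟨hu, hu1.le⟩
  set V := mass p semi 1 - mass p semi y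
  have h3 : semi u ^ (p + 1) * (lam ^ p * (semi y ^ (p + 2) / (√((p : ℝ) + 2) * mills (√((p : ℝ) + 2) * y)))) ≤
      (lam * semi y * r) ^ (p + 1) *
        ((lam ^ p - 1) * mass p semi 1 + semi u ^ (p + 2) / (((p : ℝ) + 2) * u)) := by
    refine le_trans (mul_le_mul_of_nonneg_left (mul_le_mul_of_nonneg_left hV (by positivity))
      (pow_nonneg hs.le _)) (h.trans (mul_le_mul_of_nonneg_left ?_ (by positivity)))
    linarith
  have hR : (r ^ (p + 1))⁻¹ ≤ capTail p u y lam := by
    rw [inv_le_iff_one_le_mul₀ (by positivity)]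
    have hq := sq_sqrt hA.le
    have e : capTail p u y lam * r ^ (p + 1) = (lam * semi y * r) ^ (p + 1) *
        ((lam ^ p - 1) * mass p semi 1 + semi u ^ (p + 2) / (((p : ℝ) + 2) * u)) /
        (semi u ^ (p + 1) * (lam ^ p * (semi y ^ (p + 2) / (√((p : ℝ) + 2) * mills (√((p : ℝ) + 2) * y))))) := by
      rw [capTail, mul_pow, mul_pow]
      generalize hsq : √((p : ℝ) + 2) = a at hq hsA hM ⊢
      rw [← hq]
      field_simp
      ring
    rw [e, le_div_iff₀ (by positivity), one_mul]
    exact h3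
  have hl := Real.log_le_log (by positivity) hR
  rw [Real.log_inv, Real.log_pow] at hl
  push_cast at hl
  exact hl

/-- The cap in the form `density_tail` takes. -/
theorem tailCap_log_le' (p : ℕ) {u y r lam : ℝ} (hy : y ∈ Ioo (0 : ℝ) 1) (hu : 0 < u) (huy : u ≤ y)
    (hr : 0 < r) (hlam : 1 ≤ lam) (hcap : TailCap p y r lam) :
    -((p : ℝ) * log r) ≤ max 0 (log (capTail p u y lam)) := by
  have h := tailCap_log_le p hy hu huy hr hlam hcap
  have hp : (0 : ℝ) ≤ p := Nat.cast_nonneg p
  rcases le_total (log r) 0 with h0 | h0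
  · exact le_max_of_le_right (by linarith)
  · exact le_max_of_le_left (neg_nonpos.2 (mul_nonneg hp h0))

/-- The cap grows with `lam`. -/
theorem capTail_mono (p : ℕ) {u y lam lam' : ℝ} (hu : 0 < u) (hy : y ∈ Ioo (0 : ℝ) 1) (huy : u ≤ y)
    (hlam : 1 ≤ lam) (h : lam ≤ lam') : capTail p u y lam ≤ capTail p u y lam' := by
  have hs := semi_pos (t := u) ⟨by linarith, huy.trans_lt hy.2⟩
  have hy' := semi_pos (t := y) ⟨by linarith [hy.1], hy.2⟩
  have hP := mass_one_pos isProfile_semi p
  have hA : 0 < √((p : ℝ) + 2) := Real.sqrt_pos.2 (by positivity)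
  have hM := mills_pos (mul_nonneg hA.le hy.1.le)
  have hlp : 1 ≤ lam ^ p := one_le_pow₀ hlam
  have hpow := pow_le_pow_left₀ (zero_le_one.trans hlam) h p
  unfold capTail
  gcongr
  all_goals first | linarith | positivity | exact mul_nonneg (by linarith) hM.le

end Vale.Agent.P237.All.Transport
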