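import Vale.Agent.P237.All.CertTools
import Vale.Agent.P237.All.Certificate

/-!
P237, every dimension: the exact quadratic majorant of the density with a potential
`A(y) θ + U(y) θ²` (`notes/P237h8/majorant-02Dec.md`).  With `θ = t - y`, `w = r⁻ᵖ`, `s = w - 1`
it is `Re s + Le θ + (2U - X1/p) θ s - κ(w) s²/w + Q θ²`, valid at every `y`: bulk and tail.
-/

noncomputable section

open Real Set

namespace Vale.Agent.P237.All.Transport

/-- `c = 2 (1 + β) d`. -/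
def majC (β d : ℝ) : ℝ := 2 * (1 + β) * d

/-- The coefficient of `δ` at the identity. -/
def majLr (p : ℕ) (g d β ell c2 y : ℝ) : ℝ :=
  ell + g * (((p : ℝ) + 4) * y ^ 2 - c2) + d * (1 + ((p : ℝ) + 2) * y ^ 2 + 2 * β * (1 - y ^ 2)) -
    majC β d * ((p : ℝ) + 1) * (1 - y ^ 2)

/-- The coefficient of `θ` at the identity. -/
def majLt (p : ℕ) (g d β y : ℝ) : ℝ :=
  y * (2 * g * ((p : ℝ) + 4) + d * (-2 * β * ((p : ℝ) + 2) + 2 * β * (β - 1)) - majC β d * (β - 1))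

/-- The coefficient of `θ δ`. -/
def majX (p : ℕ) (g d β y : ℝ) : ℝ :=
  y * (2 * g * ((p : ℝ) + 4) + d * (-2 * β * ((p : ℝ) + 2) + 2 * β * (β - 1)) -
    majC β d * (β - 1) * ((p : ℝ) + 1))

/-- The weight of the deficit `P + W`. -/
def majKp (β d y θ : ℝ) : ℝ := majC β d * (1 - y ^ 2 + (β - 1) * y * θ)

/-- The weight of `W = w - 1 + p δ`. -/
def majKw (p : ℕ) (g d β ell c2 y θ : ℝ) : ℝ :=
  majLr p g d β ell c2 y / p + majKp β d y θ + majX p g d β y * θ / p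

/-- The value at the identity. -/
def majZero (p : ℕ) (g d c2 y : ℝ) : ℝ :=
  g * (((p : ℝ) + 4) * y ^ 2 - c2) - d * (2 * (1 - y ^ 2) - ((p : ℝ) + 2) * y ^ 2 - 1)

/-- The part of the majorant that does not depend on the sign of `s`. -/
def majLin (p : ℕ) (g d β ell c2 A LA U y θ s : ℝ) : ℝ :=
  (A - majLr p g d β ell c2 y / p) * s + (LA + majLt p g d β y) * θ +
    (2 * U - majX p g d β y / p) * θ * s

/-- The density plus a potential, exactly. -/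
theorem density_quad (p : ℕ) (hp : 1 ≤ p) (g d β ell lam c2 A LA U LU : ℝ) {y t r : ℝ}
    (hy : y ∈ Icc (-1 : ℝ) 1) (hr : 0 < r) :
    density p 0 g d β ell lam c2 y t r + semi y ^ (p + 1) *
        (LA * (t - y) + A * ((r ^ p)⁻¹ - 1) + LU * (t - y) ^ 2 +
          2 * U * (t - y) * ((r ^ p)⁻¹ - 1)) =
      semi y ^ (p + 1) * (majZero p g d c2 y + majLin p g d β ell c2 A LA U y (t - y) ((r ^ p)⁻¹ - 1) -
        majKp β d y (t - y) * (((r ^ p)⁻¹ - 1) ^ 2 / (r ^ p)⁻¹ + (r - 1) * (r ^ p - 1)) +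
        majKw p g d β ell c2 y (t - y) * ((r ^ p)⁻¹ - 1 + p * (r - 1)) +
        (r * ((g + d * β ^ 2) * ((p : ℝ) + 4)) - β * majC β d * r ^ (p + 1) + LU) * (t - y) ^ 2) := by
  have hsq : semi y ^ 2 = 1 - y ^ 2 := semi_sq hy
  have hrp := (pow_pos hr p).ne'
  have hp0 : (p : ℝ) ≠ 0 := Nat.cast_ne_zero.2 (by omega)
  rw [← pow_mul_id p hr]
  simp only [density, majZero, majLin, majKp, majKw, majLr, majLt, majX, majC, hsq]
  field_simp
  ring

theorem excess_nonneg (p : ℕ) {r : ℝ} (hr : 0 < r) : 0 ≤ (r ^ p)⁻¹ - 1 + p * (r - 1) := by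
  linarith [one_sub_inv_pow_le p hr]

/-- `W ≤ s²/(w + 1) + s²/(2pw)` for `w ≥ 1`. -/
theorem excess_le_one_le (p : ℕ) (hp : 1 ≤ p) {r : ℝ} (hr : 0 < r) (hr1 : r ≤ 1) :
    (r ^ p)⁻¹ - 1 + p * (r - 1) ≤ ((r ^ p)⁻¹ / ((r ^ p)⁻¹ + 1) + 1 / (2 * (p : ℝ))) *
      (((r ^ p)⁻¹ - 1) ^ 2 / (r ^ p)⁻¹) := by
  set v := r ^ p with hv
  have hv0 : 0 < v := pow_pos hr p
  have hv1 : v ≤ 1 := pow_le_one₀ hr.le hr1
  have hp0 : (0 : ℝ) < p := Nat.cast_pos.2 (by omega)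
  set S := ∑ i ∈ Finset.range p, r ^ i with hS
  have hgeom : (1 - r) * S = 1 - v := by rw [hS, mul_comm, geom_sum_mul_neg]
  set q := r ^ (p - 1) with hq
  have hq0 : 0 < q := pow_pos hr _
  have hqv : v = r * q := by rw [hv, hq, ← pow_succ']; congr 1; omega
  have htrap : 2 * S ≤ p * (1 + q) := by
    have e : 2 * S = ∑ i ∈ Finset.range p, (r ^ i + r ^ (p - 1 - i)) := by
      rw [Finset.sum_add_distrib, two_mul, Finset.sum_range_reflect (fun i => r ^ i) p]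
    rw [e, show (p : ℝ) * (1 + q) = ∑ _i ∈ Finset.range p, (1 + q) by simp [mul_add]]
    refine Finset.sum_le_sum fun i hi => ?_
    have hi' := Finset.mem_range.1 hi
    have h1 := pow_le_one₀ hr.le hr1 (n := i)
    have h2 := pow_le_one₀ hr.le hr1 (n := p - 1 - i)
    have h3 : q = r ^ i * r ^ (p - 1 - i) := by rw [hq, ← pow_add]; congr 1; omega
    nlinarith
  have hlow : (p : ℝ) * q ≤ S := by
    rw [show (p : ℝ) * q = ∑ _i ∈ Finset.range p, q by simp]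
    exact Finset.sum_le_sum fun i hi =>
      pow_le_pow_of_le_one hr.le hr1 (by have := Finset.mem_range.1 hi; omega)
  have hε : 0 ≤ 1 - r := by linarith
  -- `2 (1 - v) ≤ p ε (1 + q)` and `p (q - v) ≤ 1 - v`
  have h1 : 2 * (1 - v) ≤ p * (1 - r) * (1 + q) := by
    have := mul_le_mul_of_nonneg_left htrap hε
    nlinarith [hgeom]
  have h2 : (p : ℝ) * (q - v) ≤ 1 - v := by
    have := mul_le_mul_of_nonneg_left hlow hε
    nlinarith [hgeom]
  have h4 : 2 * (1 - v) / (1 + v) - (1 - v) ^ 2 / (2 * p * v) ≤ p * (1 - r) := by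
    have hA : 2 * (1 - v) / (1 + q) ≤ p * (1 - r) := by
      rw [div_le_iff₀ (by linarith)]; linarith
    have hqv' : v ≤ q := by rw [hqv]; nlinarith
    have hB : 2 * (1 - v) / (1 + v) - 2 * (1 - v) / (1 + q) ≤ (1 - v) ^ 2 / (2 * p * v) := by
      rw [div_sub_div _ _ (by linarith : (1 + v) ≠ 0) (by linarith : (1 + q) ≠ 0),
        div_le_div_iff₀ (by positivity) (by positivity)]
      have e1 : 4 * v ≤ (1 + v) * (1 + q) := by nlinarith [sq_nonneg (1 - v)]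
      have e2 := mul_le_mul_of_nonneg_left (mul_le_mul h2 e1 (by positivity) (by linarith))
        (by linarith : (0 : ℝ) ≤ 1 - v)
      linarith
    linarith
  have e : ((v⁻¹) / (v⁻¹ + 1) + 1 / (2 * (p : ℝ))) * ((v⁻¹ - 1) ^ 2 / v⁻¹) =
      v⁻¹ - 1 - (2 * (1 - v) / (1 + v) - (1 - v) ^ 2 / (2 * p * v)) := by
    field_simp
    ring
  rw [e]; linarith

/-- The two-point interpolation used for `w ≤ 1`, in `ρ = √r`. -/
theorem excess_interp (p : ℕ) (hp : 2 ≤ p) {ρ : ℝ} (hρ : 1 ≤ ρ) :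
    (p : ℝ) * (ρ ^ 2 - 1) ≤ (1 - 2 / (p : ℝ)) * (ρ ^ p - (ρ ^ p)⁻¹) + 4 / (p : ℝ) * (ρ ^ p - 1) := by
  have hp2 : (2 : ℝ) ≤ p := by exact_mod_cast hp
  set e := 1 - 2 / (p : ℝ) with he
  have he0 : 0 ≤ e := by rw [he, sub_nonneg, div_le_one (by linarith)]; exact hp2
  set G : ℝ → ℝ := fun x => e * (x ^ p - (x ^ p)⁻¹) + 4 / (p : ℝ) * (x ^ p - 1) - p * (x ^ 2 - 1)
  set G1 : ℝ → ℝ := fun x => e * ((p : ℝ) * x ^ (p - 1) + p * (x ^ (p + 1))⁻¹) +
    4 * x ^ (p - 1) - 2 * p * x with hG1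
  have hd0 : ∀ x ∈ Ici (1 : ℝ), HasDerivAt G (G1 x) x := by
    intro x hx
    have hx0 : (0 : ℝ) < x := lt_of_lt_of_le one_pos hx
    have h := hasDerivAt_pow p x
    have := (((h.sub (h.inv (pow_pos hx0 p).ne')).const_mul e).add ((h.sub_const 1).const_mul (4 / (p : ℝ)))).sub
      (((hasDerivAt_pow 2 x).sub_const 1).const_mul (p : ℝ))
    refine this.congr_deriv ?_
    obtain ⟨n, rfl⟩ : ∃ n, p = n + 1 := ⟨p - 1, by omega⟩
    have := hx0.ne'
    simp only [hG1, Nat.add_sub_cancel]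
    push_cast
    field_simp
    ring
  have hd1 : ∀ x ∈ Ici (1 : ℝ), HasDerivAt G1
      (e * ((p : ℝ) * (((p : ℝ) - 1) * x ^ (p - 2)) - p * (((p : ℝ) + 1) * (x ^ (p + 2))⁻¹)) +
        4 * (((p : ℝ) - 1) * x ^ (p - 2)) - 2 * p) x := by
    intro x hx
    have hx0 : (0 : ℝ) < x := lt_of_lt_of_le one_pos hx
    have h := hasDerivAt_pow (p - 1) x
    have hi := (hasDerivAt_pow (p + 1) x).inv (pow_pos hx0 _).ne'
    have := ((((h.const_mul (p : ℝ)).add (hi.const_mul (p : ℝ))).const_mul e).add (h.const_mul 4)).sub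
      ((hasDerivAt_id x).const_mul (2 * (p : ℝ)))
    refine this.congr_deriv ?_
    obtain ⟨n, rfl⟩ : ∃ n, p = n + 2 := ⟨p - 2, by omega⟩
    have := hx0.ne'
    simp only [show n + 2 - 1 = n + 1 by omega, show n + 2 - 2 = n by omega, Nat.add_sub_cancel, mul_one]
    push_cast
    field_simp
    ring
  have hG1m : MonotoneOn G1 (Ici 1) := by
    refine monotoneOn_of_hasDerivWithinAt_nonneg (convex_Ici 1)
      (fun x hx => (hd1 x hx).continuousAt.continuousWithinAt)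
      (fun x hx => (hd1 x (interior_subset hx)).hasDerivWithinAt) fun x hx => ?_
    have hx1 : (1 : ℝ) ≤ x := interior_subset hx
    have a1 : (1 : ℝ) ≤ x ^ (p - 2) := one_le_pow₀ hx1
    have a2 : (x ^ (p + 2))⁻¹ ≤ 1 := inv_le_one_of_one_le₀ (one_le_pow₀ hx1)
    have b1 : 0 ≤ e * ((p : ℝ) * (((p : ℝ) - 1) * (x ^ (p - 2) - 1))) :=
      mul_nonneg he0 (mul_nonneg (by linarith) (mul_nonneg (by linarith) (by linarith)))
    have b2 : 0 ≤ e * ((p : ℝ) * (((p : ℝ) + 1) * (1 - (x ^ (p + 2))⁻¹))) :=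
      mul_nonneg he0 (mul_nonneg (by linarith) (mul_nonneg (by linarith) (by linarith)))
    have b3 : 0 ≤ 4 * (((p : ℝ) - 1) * (x ^ (p - 2) - 1)) :=
      mul_nonneg (by norm_num) (mul_nonneg (by linarith) (by linarith))
    have b4 : e * p = (p : ℝ) - 2 := by rw [he]; field_simp
    nlinarith
  have h1 : ∀ x ∈ Ici (1 : ℝ), 0 ≤ G1 x := fun x hx => by
    have := hG1m self_mem_Ici hx hx
    have hb : G1 1 = 0 := by
      simp only [hG1, one_pow, inv_one, mul_one, he]; field_simp; ring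
    linarith
  have hG : MonotoneOn G (Ici 1) :=
    monotoneOn_of_hasDerivWithinAt_nonneg (convex_Ici 1)
      (fun x hx => (hd0 x hx).continuousAt.continuousWithinAt)
      (fun x hx => (hd0 x (interior_subset hx)).hasDerivWithinAt) fun x hx => h1 x (interior_subset hx)
  have := hG self_mem_Ici hρ hρ
  simp only [G, one_pow, inv_one, sub_self, mul_zero, add_zero] at this
  linarith

/-- The ratio `W / (s²/w)` allowed for `w ≤ 1`, in `u = √w`. -/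
def excessLow (p : ℕ) (u : ℝ) : ℝ :=
  u * ((1 - 2 / (p : ℝ)) / (1 + u) + 2 / (p : ℝ) * ((2 + u) / (1 + u) ^ 2))

theorem excess_le_le_one (p : ℕ) (hp : 2 ≤ p) {r : ℝ} (hr1 : 1 ≤ r) :
    (r ^ p)⁻¹ - 1 + p * (r - 1) ≤
      excessLow p (√((r ^ p)⁻¹)) * (((r ^ p)⁻¹ - 1) ^ 2 / (r ^ p)⁻¹) := by
  have hr : 0 < r := lt_of_lt_of_le one_pos hr1
  set ρ := √r with hρ
  have hρ1 : 1 ≤ ρ := Real.one_le_sqrt.2 hr1
  have hρ2 : ρ ^ 2 = r := Real.sq_sqrt hr.le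
  have h := excess_interp p hp hρ1
  set u := (ρ ^ p)⁻¹ with hu
  have hu0 : 0 < u := inv_pos.2 (pow_pos (by linarith) p)
  have hw : (r ^ p)⁻¹ = u ^ 2 := by rw [hu, ← hρ2, ← pow_mul, mul_comm 2 p, pow_mul, inv_pow]
  rw [hw, Real.sqrt_sq hu0.le, ← hρ2]
  have hq : ρ ^ p = u⁻¹ := by rw [hu, inv_inv]
  rw [hq] at h
  have hp0 : (p : ℝ) ≠ 0 := Nat.cast_ne_zero.2 (by omega)
  refine le_trans (add_le_add le_rfl h) (le_of_eq ?_)
  rw [excessLow]
  field_simp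
  ring

/-- The majorant for `w ≥ 1`. -/
theorem density_maj_one_le (p : ℕ) (hp : 1 ≤ p) {g d β ell lam c2 A LA U LU : ℝ} {y t r : ℝ}
    (hy : y ∈ Icc (-1 : ℝ) 1) (hr : 0 < r) (hr1 : r ≤ 1) (hg : 0 ≤ g) (hd : 0 ≤ d) (hβ : 0 ≤ β)
    (hK : 0 ≤ majKp β d y (t - y)) :
    density p 0 g d β ell lam c2 y t r + semi y ^ (p + 1) *
        (LA * (t - y) + A * ((r ^ p)⁻¹ - 1) + LU * (t - y) ^ 2 +
          2 * U * (t - y) * ((r ^ p)⁻¹ - 1)) ≤
      semi y ^ (p + 1) * (majZero p g d c2 y + majLin p g d β ell c2 A LA U y (t - y) ((r ^ p)⁻¹ - 1) -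
        (majKp β d y (t - y) * (1 + 1 / ((p : ℝ) * (r ^ p)⁻¹)) -
          max 0 (majKw p g d β ell c2 y (t - y)) *
            ((r ^ p)⁻¹ / ((r ^ p)⁻¹ + 1) + 1 / (2 * (p : ℝ)))) *
          (((r ^ p)⁻¹ - 1) ^ 2 / (r ^ p)⁻¹) +
        ((g + d * β ^ 2) * ((p : ℝ) + 4) + LU -
          β * majC β d * max 0 (1 - ((p : ℝ) + 1) / p * ((r ^ p)⁻¹ - 1))) * (t - y) ^ 2) := by
  rw [density_quad p hp g d β ell lam c2 A LA U LU hy hr]
  refine mul_le_mul_of_nonneg_left ?_ (pow_nonneg (Real.sqrt_nonneg _) _)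
  have hp0 : (0 : ℝ) < p := Nat.cast_pos.2 (by omega)
  have hW := excess_le_one_le p hp hr hr1
  have hW0 := excess_nonneg p hr
  set W := (r ^ p)⁻¹ - 1 + (p : ℝ) * (r - 1)
  set v := r ^ p with hv
  have hv0 : 0 < v := pow_pos hr p
  have hv1 : v ≤ 1 := pow_le_one₀ hr.le hr1
  have hB : 1 - v ≤ (p : ℝ) * (1 - r) := by
    have := one_add_mul_le_pow (a := r - 1) (by linarith) p
    rw [add_sub_cancel, ← hv] at this; linarith
  have hD : 1 / ((p : ℝ) * v⁻¹) * ((v⁻¹ - 1) ^ 2 / v⁻¹) ≤ (r - 1) * (v - 1) := by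
    have e : 1 / ((p : ℝ) * v⁻¹) * ((v⁻¹ - 1) ^ 2 / v⁻¹) = (1 - v) / p * (1 - v) := by
      field_simp
    rw [e, show (r - 1) * (v - 1) = (1 - r) * (1 - v) by ring]
    exact mul_le_mul_of_nonneg_right ((div_le_iff₀ hp0).2 (by linarith)) (by linarith)
  have hKW : majKw p g d β ell c2 y (t - y) * W ≤ max 0 (majKw p g d β ell c2 y (t - y)) *
      ((v⁻¹ / (v⁻¹ + 1) + 1 / (2 * (p : ℝ))) * ((v⁻¹ - 1) ^ 2 / v⁻¹)) :=
    (mul_le_mul_of_nonneg_right (le_max_right _ _) hW0).trans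
      (mul_le_mul_of_nonneg_left hW (le_max_left _ _))
  have hcq : 0 ≤ β * majC β d := by unfold majC; positivity
  have hQ : r * ((g + d * β ^ 2) * ((p : ℝ) + 4)) - β * majC β d * r ^ (p + 1) ≤
      (g + d * β ^ 2) * ((p : ℝ) + 4) -
        β * majC β d * max 0 (1 - ((p : ℝ) + 1) / p * (v⁻¹ - 1)) := by
    refine sub_le_sub (mul_le_of_le_one_left (by positivity) hr1)
      (mul_le_mul_of_nonneg_left (max_le (pow_nonneg hr.le _) ?_) hcq)
    have h1 := one_add_mul_le_pow (a := r - 1) (by linarith) (p + 1)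
    rw [add_sub_cancel] at h1
    push_cast at h1
    have h3 := one_sub_inv_pow_le p hr
    rw [← hv] at h3
    have h2 : ((p : ℝ) + 1) / p * (1 - v⁻¹) ≤ ((p : ℝ) + 1) * (r - 1) := by
      rw [div_mul_eq_mul_div, div_le_iff₀ hp0]
      nlinarith
    linarith
  have hθ := mul_le_mul_of_nonneg_right hQ (sq_nonneg (t - y))
  nlinarith [mul_le_mul_of_nonneg_left hD hK]

/-- The majorant for `w ≤ 1`. -/
theorem density_maj_le_one (p : ℕ) (hp : 2 ≤ p) {g d β ell lam c2 A LA U LU : ℝ} {y t r : ℝ}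
    (hy : y ∈ Icc (-1 : ℝ) 1) (hr1 : 1 ≤ r) (hd : 0 ≤ d) (hβ : 0 ≤ β)
    (hK : 0 ≤ majKp β d y (t - y))
    (hK2 : (g + d * β ^ 2) * ((p : ℝ) + 4) ≤ ((p : ℝ) + 1) * (β * majC β d)) :
    density p 0 g d β ell lam c2 y t r + semi y ^ (p + 1) *
        (LA * (t - y) + A * ((r ^ p)⁻¹ - 1) + LU * (t - y) ^ 2 +
          2 * U * (t - y) * ((r ^ p)⁻¹ - 1)) ≤
      semi y ^ (p + 1) * (majZero p g d c2 y + majLin p g d β ell c2 A LA U y (t - y) ((r ^ p)⁻¹ - 1) -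
        (majKp β d y (t - y) * (1 + 1 / (p : ℝ)) -
          max 0 (majKw p g d β ell c2 y (t - y)) * excessLow p (√((r ^ p)⁻¹))) *
          (((r ^ p)⁻¹ - 1) ^ 2 / (r ^ p)⁻¹) +
        ((g + d * β ^ 2) * ((p : ℝ) + 4) + LU - β * majC β d) * (t - y) ^ 2) := by
  have hr : 0 < r := lt_of_lt_of_le one_pos hr1
  rw [density_quad p (by omega) g d β ell lam c2 A LA U LU hy hr]
  refine mul_le_mul_of_nonneg_left ?_ (pow_nonneg (Real.sqrt_nonneg _) _)
  have hp0 : (0 : ℝ) < p := Nat.cast_pos.2 (by omega)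
  have hW := excess_le_le_one p hp hr1
  have hW0 := excess_nonneg p hr
  have hS0 := one_sub_inv_pow_le p hr
  set W := (r ^ p)⁻¹ - 1 + (p : ℝ) * (r - 1)
  set v := r ^ p with hv
  have hv0 : 0 < v := pow_pos hr p
  have hv1 : 1 ≤ v := one_le_pow₀ hr1
  have hD : 1 / (p : ℝ) * ((v⁻¹ - 1) ^ 2 / v⁻¹) ≤ (r - 1) * (v - 1) := by
    have e : 1 / (p : ℝ) * ((v⁻¹ - 1) ^ 2 / v⁻¹) = (1 - v⁻¹) / p * (v - 1) := by
      field_simp; ring
    rw [e]
    exact mul_le_mul_of_nonneg_right ((div_le_iff₀ hp0).2 (by linarith)) (by linarith)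
  have hKW : majKw p g d β ell c2 y (t - y) * W ≤ max 0 (majKw p g d β ell c2 y (t - y)) *
      (excessLow p (√v⁻¹) * ((v⁻¹ - 1) ^ 2 / v⁻¹)) :=
    (mul_le_mul_of_nonneg_right (le_max_right _ _) hW0).trans
      (mul_le_mul_of_nonneg_left hW (le_max_left _ _))
  have hcq : 0 ≤ β * majC β d := by unfold majC; positivity
  have hQ : r * ((g + d * β ^ 2) * ((p : ℝ) + 4)) - β * majC β d * r ^ (p + 1) ≤
      (g + d * β ^ 2) * ((p : ℝ) + 4) - β * majC β d := by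
    have h1 := one_add_mul_le_pow (a := r - 1) (by linarith) (p + 1)
    rw [add_sub_cancel] at h1
    push_cast at h1
    nlinarith [mul_le_mul_of_nonneg_left h1 hcq, mul_le_mul_of_nonneg_left hK2 (by linarith : 0 ≤ r - 1)]
  have hθ := mul_le_mul_of_nonneg_right hQ (sq_nonneg (t - y))
  nlinarith [mul_le_mul_of_nonneg_left hD hK]

end Vale.Agent.P237.All.Transport
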