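import Vale.Agent.P237.All.Profile
import Mathlib

/-!
P237, every dimension: the transport of a profile to the semicircle in the mass coordinate
(`notes/P237h7/k0-calibration-02Dec.md`).  For `k ≥ 1` the map `Y` carries `f ^ k dt` to a multiple
of `semi ^ k dy`; the multiple is `lam ^ k`.
-/

noncomputable section

open MeasureTheory Set Filter Real intervalIntegral
open scoped Topology

namespace Vale.Agent.P237.All.Transport

variable {f : ℝ → ℝ} (hf : IsProfile f)

include hf

theorem profile_pos {t : ℝ} (ht : t ∈ Ioo (-1 : ℝ) 1) : 0 < f t :=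
  lt_of_lt_of_le (Real.sqrt_pos.2 (by nlinarith [ht.1, ht.2])) (hf.2.2 t ht)

theorem profile_anti {s t : ℝ} (h0 : 0 ≤ s) (hst : s ≤ t) (h1 : t < 1) : f t ≤ f s := by
  have ht : t ∈ Ioo (-1 : ℝ) 1 := ⟨by linarith, h1⟩
  have htn : -t ∈ Ioo (-1 : ℝ) 1 := ⟨by linarith, by linarith⟩
  have h := hf.1.ge_on_segment htn ht
    (show s ∈ segment ℝ (-t) t by
      rw [segment_eq_Icc (by linarith)]; exact ⟨by linarith, hst⟩)
  rwa [hf.2.1 t ht, min_self] at h

theorem profile_le {t : ℝ} (ht : t ∈ Ioo (-1 : ℝ) 1) : f t ≤ f 0 := by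
  rcases le_total 0 t with h | h
  · exact profile_anti hf le_rfl h ht.2
  · rw [← hf.2.1 t ht]
    exact profile_anti hf le_rfl (by linarith) (by linarith [ht.1])

theorem profile_continuousOn : ContinuousOn f (Ioo (-1) 1) := hf.1.continuousOn isOpen_Ioo

theorem int_pow (p : ℕ) {a b : ℝ} (ha : a ∈ Icc (-1 : ℝ) 1) (hb : b ∈ Icc (-1 : ℝ) 1) :
    IntervalIntegrable (fun t => f t ^ p) volume a b := by
  have h : IntegrableOn (fun t => f t ^ p) (Ioo (-1 : ℝ) 1) volume := by
    refine IntegrableOn.of_bound measure_Ioo_lt_top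
      (((profile_continuousOn hf).pow p).aestronglyMeasurable measurableSet_Ioo) (f 0 ^ p) ?_
    refine (ae_restrict_iff' measurableSet_Ioo).2 (Eventually.of_forall fun t ht => ?_)
    rw [Real.norm_eq_abs, abs_of_nonneg (pow_nonneg (profile_pos hf ht).le _)]
    exact pow_le_pow_left₀ (profile_pos hf ht).le (profile_le hf ht) p
  have h' : IntervalIntegrable (fun t => f t ^ p) volume (-1) 1 :=
    (intervalIntegrable_iff_integrableOn_Ioo_of_le (by norm_num)).2 h
  exact h'.mono_set (uIcc_subset_uIcc (by rwa [uIcc_of_le (by norm_num : (-1 : ℝ) ≤ 1)])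
    (by rwa [uIcc_of_le (by norm_num : (-1 : ℝ) ≤ 1)]))

omit hf

/-- The mass of `f ^ p` from the centre. -/
def mass (p : ℕ) (f : ℝ → ℝ) (t : ℝ) : ℝ := ∫ s in (0 : ℝ)..t, f s ^ p

include hf

theorem mass_continuousOn (p : ℕ) : ContinuousOn (mass p f) (Icc (-1) 1) := by
  have h := continuousOn_primitive_interval' (int_pow hf p (left_mem_Icc.2 (by norm_num))
    (right_mem_Icc.2 (by norm_num))) (a := 0) (by rw [uIcc_of_le (by norm_num)]; norm_num)
  rwa [uIcc_of_le (by norm_num : (-1 : ℝ) ≤ 1)] at h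

theorem mass_hasDerivAt (p : ℕ) {t : ℝ} (ht : t ∈ Ioo (-1 : ℝ) 1) :
    HasDerivAt (mass p f) (f t ^ p) t :=
  integral_hasDerivAt_right (int_pow hf p (by norm_num) (Ioo_subset_Icc_self ht))
    (((profile_continuousOn hf).pow p).stronglyMeasurableAtFilter isOpen_Ioo t ht)
    (((profile_continuousOn hf).pow p).continuousAt (isOpen_Ioo.mem_nhds ht))

theorem mass_one_pos (p : ℕ) : 0 < mass p f 1 := by
  refine intervalIntegral_pos_of_pos_on (int_pow hf p (by norm_num) (by norm_num)) (fun t ht => ?_)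
    (by norm_num)
  exact pow_pos (profile_pos hf ⟨by linarith [ht.1], ht.2⟩) _

omit hf

theorem mass_odd (hf : IsProfile f) (p : ℕ) {t : ℝ} (ht : t ∈ Icc (-1 : ℝ) 1) :
    mass p f (-t) = -mass p f t := by
  have e : ∫ s in (0 : ℝ)..t, f (-s) ^ p = ∫ s in (-t)..(0 : ℝ), f s ^ p := by
    rw [intervalIntegral.integral_comp_neg (fun s => f s ^ p), neg_zero]
  have e2 : ∫ s in (0 : ℝ)..t, f (-s) ^ p = mass p f t := by
    refine intervalIntegral.integral_congr_ae ?_
    filter_upwards [compl_mem_ae_iff.2 (measure_singleton (1 : ℝ)),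
      compl_mem_ae_iff.2 (measure_singleton (-1 : ℝ))] with s h1 h2 hs
    have hmem : s ∈ Ioo (-1 : ℝ) 1 := by
      have := uIoc_subset_uIcc hs
      have hsub : uIcc (0 : ℝ) t ⊆ Icc (-1) 1 := by
        intro x hx
        rcases le_total 0 t with h | h
        · rw [uIcc_of_le h] at hx; exact ⟨by linarith [hx.1], hx.2.trans ht.2⟩
        · rw [uIcc_of_ge h] at hx; exact ⟨ht.1.trans hx.1, by linarith [hx.2]⟩
      obtain ⟨a, b⟩ := hsub this
      exact ⟨lt_of_le_of_ne a (Ne.symm h2), lt_of_le_of_ne b h1⟩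
    rw [hf.2.1 s hmem]
  rw [mass, intervalIntegral.integral_symm, ← e, e2]

/-- The mass of the semicircle, continued with slope one. -/
def semiMass (k : ℕ) (y : ℝ) : ℝ :=
  mass k semi (max (-1) (min 1 y)) + (y - max (-1) (min 1 y))

theorem semi_continuous : Continuous semi := by unfold semi; fun_prop

theorem semi_pos {t : ℝ} (ht : t ∈ Ioo (-1 : ℝ) 1) : 0 < semi t :=
  Real.sqrt_pos.2 (by nlinarith [ht.1, ht.2])

theorem semi_mass_hasDerivAt (k : ℕ) (y : ℝ) : HasDerivAt (mass k semi) (semi y ^ k) y :=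
  integral_hasDerivAt_right ((semi_continuous.pow k).intervalIntegrable _ _)
    ((semi_continuous.pow k).stronglyMeasurableAtFilter _ _) (semi_continuous.pow k).continuousAt

theorem semi_mass_strictMonoOn (k : ℕ) : StrictMonoOn (mass k semi) (Icc (-1) 1) := by
  refine strictMonoOn_of_hasDerivWithinAt_pos (convex_Icc _ _) (f' := fun y => semi y ^ k)
    (fun y _ => (semi_mass_hasDerivAt k y).continuousAt.continuousWithinAt) ?_ ?_
  · intro y _; exact (semi_mass_hasDerivAt k y).hasDerivWithinAt
  · intro y hy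
    rw [interior_Icc] at hy
    exact pow_pos (semi_pos hy) _

theorem semiMass_continuous (k : ℕ) : Continuous (semiMass k) := by
  have h : Continuous (mass k semi) :=
    continuous_iff_continuousAt.2 fun y => (semi_mass_hasDerivAt k y).continuousAt
  unfold semiMass
  fun_prop

theorem semiMass_strictMono (k : ℕ) : StrictMono (semiMass k) := by
  intro a b hab
  have hc : ∀ y : ℝ, max (-1) (min 1 y) ∈ Icc (-1 : ℝ) 1 := fun y =>
    ⟨le_max_left _ _, max_le (by norm_num) (min_le_left _ _)⟩
  have hmono : max (-1) (min 1 a) ≤ max (-1) (min 1 b) :=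
    max_le_max le_rfl (min_le_min le_rfl hab.le)
  rcases eq_or_lt_of_le hmono with h | h
  · simp only [semiMass, h]; linarith
  · have h1 := semi_mass_strictMonoOn k (hc a) (hc b) h
    have h2 : a - max (-1) (min 1 a) ≤ b - max (-1) (min 1 b) := by
      rcases le_total a (-1) with ha | ha <;> rcases le_total b 1 with hb | hb <;>
        rcases le_total b (-1) with hb' | hb' <;> rcases le_total a 1 with ha' | ha' <;>
        simp [ha, hb, ha', hb'] at h ⊢ <;>
        linarith
    simp only [semiMass]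
    linarith

theorem semiMass_surjective (k : ℕ) : Function.Surjective (semiMass k) := by
  refine (semiMass_continuous k).surjective ?_ ?_
  · refine tendsto_atTop.2 fun c => ?_
    filter_upwards [eventually_ge_atTop (max 1 (c - mass k semi 1 + 1))] with y hy
    have h1 : (1 : ℝ) ≤ y := (le_max_left _ _).trans hy
    have : max (-1) (min 1 y) = (1 : ℝ) := by rw [min_eq_left h1]; norm_num
    simp only [semiMass, this]
    linarith [(le_max_right _ _).trans hy]
  · refine tendsto_atBot.2 fun c => ?_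
    filter_upwards [eventually_le_atBot (min (-1) (c - mass k semi (-1) - 1))] with y hy
    have h1 : y ≤ -1 := hy.trans (min_le_left _ _)
    have : max (-1) (min 1 y) = (-1 : ℝ) := by
      rw [min_eq_right (by linarith : y ≤ 1), max_eq_left h1]
    simp only [semiMass, this]
    linarith [hy.trans (min_le_right _ _)]

/-- The inverse of the mass of the semicircle. -/
def massInv (k : ℕ) : ℝ ≃o ℝ :=
  ((semiMass_strictMono k).orderIsoOfSurjective _ (semiMass_surjective k)).symm

theorem semiMass_eq {k : ℕ} {y : ℝ} (hy : y ∈ Icc (-1 : ℝ) 1) : semiMass k y = mass k semi y := by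
  simp [semiMass, min_eq_right hy.2, max_eq_right hy.1]

theorem semiMass_massInv (k : ℕ) (x : ℝ) : semiMass k (massInv k x) = x :=
  ((semiMass_strictMono k).orderIsoOfSurjective _ (semiMass_surjective k)).apply_symm_apply x

/-- The factor `lam ^ k` of the transport. -/
def scale (k : ℕ) (f : ℝ → ℝ) : ℝ := mass k f 1 / mass k semi 1

/-- The transport: `f ^ k dt = scale * semi Y ^ k dY`. -/
def Y (k : ℕ) (f : ℝ → ℝ) (t : ℝ) : ℝ := massInv k (mass k f t / scale k f)

theorem scale_pos (hf : IsProfile f) (k : ℕ) : 0 < scale k f := by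
  refine div_pos (mass_one_pos hf k) (intervalIntegral_pos_of_pos_on
    ((semi_continuous.pow k).intervalIntegrable _ _) (fun t ht => ?_) (by norm_num))
  exact pow_pos (semi_pos ⟨by linarith [ht.1], ht.2⟩) _

section

variable (hf : IsProfile f) (k : ℕ)

include hf

theorem Y_one : Y k f 1 = 1 := by
  apply (semiMass_strictMono k).injective
  have h := mass_one_pos hf k
  rw [Y, semiMass_massInv, semiMass_eq (by norm_num), scale]
  field_simp

theorem Y_neg {t : ℝ} (ht : t ∈ Icc (-1 : ℝ) 1) : Y k f (-t) = -Y k f t := by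
  apply (semiMass_strictMono k).injective
  have hodd : ∀ y, semiMass k (-y) = -semiMass k y := by
    intro y
    have hc : max (-1) (min 1 (-y)) = -max (-1) (min 1 y) := by
      rcases le_total y 1 with h | h <;> rcases le_total y (-1) with h' | h' <;>
        simp [h, h', neg_le, le_neg] <;>
        linarith
    have hm : ∀ z, mass k semi (-z) = -mass k semi z := by
      intro z
      have e := intervalIntegral.integral_comp_neg (fun s => semi s ^ k) (a := 0) (b := z)
      have e' : (fun s : ℝ => semi (-s) ^ k) = fun s => semi s ^ k := by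
        funext s; simp [semi]
      rw [e', neg_zero] at e
      rw [mass, intervalIntegral.integral_symm, ← e]; rfl
    simp only [semiMass, hc, hm]; ring
  rw [hodd, Y, Y, semiMass_massInv, semiMass_massInv, mass_odd hf k ht, neg_div]

theorem Y_zero : Y k f 0 = 0 := by
  have h := Y_neg hf k (t := 0) (by norm_num)
  rw [neg_zero] at h; linarith

theorem Y_continuousOn : ContinuousOn (Y k f) (Icc (-1) 1) :=
  (massInv k).continuous.comp_continuousOn ((mass_continuousOn hf k).div_const _)

theorem Y_strictMonoOn : StrictMonoOn (Y k f) (Icc (-1) 1) := by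
  have h : StrictMonoOn (mass k f) (Icc (-1) 1) := by
    refine strictMonoOn_of_hasDerivWithinAt_pos (convex_Icc _ _) (f' := fun t => f t ^ k)
      (mass_continuousOn hf k) ?_ ?_
    · intro t ht; rw [interior_Icc] at ht; exact (mass_hasDerivAt hf k ht).hasDerivWithinAt
    · intro t ht; rw [interior_Icc] at ht; exact pow_pos (profile_pos hf ht) _
  intro a ha b hb hab
  exact (massInv k).strictMono (div_lt_div_of_pos_right (h ha hb hab) (scale_pos hf k))

theorem Y_mem {t : ℝ} (ht : t ∈ Ioo (-1 : ℝ) 1) : Y k f t ∈ Ioo (-1 : ℝ) 1 := by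
  have h1 := Y_one hf k
  have hn := Y_neg hf k (t := 1) (by norm_num)
  constructor
  · have := Y_strictMonoOn hf k (by norm_num) (Ioo_subset_Icc_self ht) ht.1
    rwa [hn, h1] at this
  · have := Y_strictMonoOn hf k (Ioo_subset_Icc_self ht) (by norm_num) ht.2
    rwa [h1] at this

theorem Y_hasDerivAt {t : ℝ} (ht : t ∈ Ioo (-1 : ℝ) 1) :
    HasDerivAt (Y k f) (f t ^ k / (scale k f * semi (Y k f t) ^ k)) t := by
  have hy := Y_mem hf k ht
  have hg : HasDerivAt (semiMass k) (semi (Y k f t) ^ k) (Y k f t) := by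
    refine (semi_mass_hasDerivAt k _).congr_of_eventuallyEq ?_
    filter_upwards [isOpen_Ioo.mem_nhds hy] with y hy'
    exact semiMass_eq (Ioo_subset_Icc_self hy')
  have hinv : HasDerivAt (massInv k) (semi (Y k f t) ^ k)⁻¹ (mass k f t / scale k f) :=
    HasDerivAt.of_local_left_inverse (massInv k).continuous.continuousAt hg
      (pow_ne_zero _ (semi_pos hy).ne') (Eventually.of_forall fun x => semiMass_massInv k x)
  have h := hinv.comp t ((mass_hasDerivAt hf k ht).div_const (scale k f))
  refine h.congr_deriv ?_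
  field_simp [(scale_pos hf k).ne', (semi_pos hy).ne']

/-- Half of an integral over the symmetric interval. -/
theorem integral_even (p : ℕ) : (∫ t in (-1 : ℝ)..1, f t ^ p) = 2 * mass p f 1 := by
  rw [← integral_add_adjacent_intervals (int_pow hf p (by norm_num) (by norm_num : (0 : ℝ) ∈ Icc (-1 : ℝ) 1))
    (int_pow hf p (by norm_num) (by norm_num))]
  have h := mass_odd hf p (t := 1) (by norm_num)
  rw [mass, intervalIntegral.integral_symm] at h
  rw [mass] at h ⊢
  linarith

end

section Concave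

variable (hf : IsProfile f)

include hf

/-- Concavity of `f ^ (p + 1)` in the mass coordinate of `f ^ p`, as a comparison with the line
through two points. -/
theorem pow_tail_le (p : ℕ) {t t₀ : ℝ} (h0 : 0 ≤ t) (ht : t ≤ t₀) (h1 : t₀ < 1) :
    (mass p f 1 - mass p f t₀) * (f t ^ (p + 1) - f t₀ ^ (p + 1)) ≤
      f t₀ ^ (p + 1) * (mass p f t₀ - mass p f t) := by
  have hmem : ∀ u, 0 ≤ u → u < 1 → u ∈ Ioo (-1 : ℝ) 1 := fun u a b => ⟨by linarith, b⟩
  have hanti := profile_anti hf h0 ht h1
  have hp₀ := profile_pos hf (hmem t₀ (h0.trans ht) h1)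
  rcases eq_or_lt_of_le hanti with he | hlt
  · rw [he, sub_self, mul_zero]
    refine mul_nonneg (pow_nonneg (profile_pos hf (hmem t h0 (ht.trans_lt h1))).le _) (sub_nonneg.2 ?_)
    rw [mass, mass, ← sub_nonneg, intervalIntegral.integral_interval_sub_left
      (int_pow hf p (by norm_num) ⟨by linarith, h1.le⟩) (int_pow hf p (by norm_num) ⟨by linarith, by linarith⟩)]
    exact intervalIntegral.integral_nonneg ht fun u hu =>
      pow_nonneg (profile_pos hf (hmem u (h0.trans hu.1) (hu.2.trans_lt h1))).le _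
  have htt : t < t₀ := lt_of_le_of_ne ht fun e => by rw [e] at hlt; exact lt_irrefl _ hlt
  set σ := (f t - f t₀) / (t₀ - t) with hσ
  have hσ0 : 0 < σ := div_pos (sub_pos.2 hlt) (sub_pos.2 htt)
  set l : ℝ → ℝ := fun u => f t₀ - σ * (u - t₀) with hl
  have hlt' : l t = f t := by
    have : σ * (t₀ - t) = f t - f t₀ := div_mul_cancel₀ _ (sub_pos.2 htt).ne'
    simp only [hl]; linarith
  have hl₀ : l t₀ = f t₀ := by simp [hl]
  have hint : ∀ a b : ℝ, ∫ u in a..b, l u ^ p = (l a ^ (p + 1) - l b ^ (p + 1)) / ((p + 1) * σ) := by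
    intro a b
    have hd : ∀ u, HasDerivAt (fun u => -(l u ^ (p + 1)) / ((p + 1) * σ)) (l u ^ p) u := by
      intro u
      have h := (((((hasDerivAt_id u).sub_const t₀).const_mul σ).const_sub (f t₀)).pow (p + 1)).neg.div_const
        (((p : ℝ) + 1) * σ)
      refine h.congr_deriv ?_
      have : ((p : ℝ) + 1) ≠ 0 := by positivity
      simp only [hl, Nat.add_sub_cancel, Nat.cast_add, Nat.cast_one, id_eq]
      field_simp
    rw [integral_eq_sub_of_hasDerivAt (fun u _ => hd u)
      ((show Continuous fun u => l u ^ p by fun_prop).intervalIntegrable _ _)]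
    ring
  have habove : ∀ u ∈ Ioo t₀ 1, f u ≤ l u := by
    intro u hu
    have h := hf.1.slope_anti_adjacent (hmem t h0 (ht.trans_lt h1))
      (hmem u (by linarith [hu.1]) hu.2) htt hu.1
    rw [div_le_iff₀ (sub_pos.2 hu.1)] at h
    have : (f t₀ - f t) / (t₀ - t) = -σ := by rw [hσ, ← neg_div, neg_sub]
    rw [this] at h
    simp only [hl]; linarith
  have hend : 0 ≤ l 1 := by
    by_contra hc
    push Not at hc
    set u := t₀ + f t₀ / σ with hu
    have h2 : t₀ < u := by rw [hu]; linarith [div_pos hp₀ hσ0]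
    have h3 : u < 1 := by
      rw [hu, ← lt_sub_iff_add_lt', div_lt_iff₀ hσ0]
      simp only [hl] at hc; linarith
    have h4 := habove u ⟨h2, h3⟩
    have h5 : l u = 0 := by simp [hl, hu, mul_div_cancel₀ _ hσ0.ne']
    have := profile_pos hf (hmem u (by linarith) h3)
    linarith
  have hA : mass p f 1 - mass p f t₀ ≤ f t₀ ^ (p + 1) / ((p + 1) * σ) := by
    rw [mass, mass, intervalIntegral.integral_interval_sub_left
      (int_pow hf p (by norm_num) (by norm_num)) (int_pow hf p (by norm_num) ⟨by linarith, h1.le⟩)]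
    refine (intervalIntegral.integral_mono_on_of_le_Ioo h1.le
      (int_pow hf p ⟨by linarith, h1.le⟩ (by norm_num))
      ((show Continuous fun u => l u ^ p by fun_prop).intervalIntegrable _ _) fun u hu => ?_).trans ?_
    · exact pow_le_pow_left₀ (profile_pos hf (hmem u (by linarith [hu.1]) hu.2)).le (habove u hu) p
    · rw [hint, hl₀]
      exact div_le_div_of_nonneg_right (by linarith [pow_nonneg hend (p + 1)]) (by positivity)
  have hB : (f t ^ (p + 1) - f t₀ ^ (p + 1)) / ((p + 1) * σ) ≤ mass p f t₀ - mass p f t := by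
    rw [mass, mass, intervalIntegral.integral_interval_sub_left
      (int_pow hf p (by norm_num) ⟨by linarith, h1.le⟩) (int_pow hf p (by norm_num) ⟨by linarith, by linarith⟩),
      ← hlt', ← hl₀, ← hint]
    refine intervalIntegral.integral_mono_on ht ((show Continuous fun u => l u ^ p by fun_prop).intervalIntegrable _ _)
      (int_pow hf p ⟨by linarith, by linarith⟩ ⟨by linarith, h1.le⟩) fun u hu => ?_
    have hlu : 0 ≤ l u := by
      have : σ * (u - t₀) ≤ 0 := mul_nonpos_of_nonneg_of_nonpos hσ0.le (by linarith [hu.2])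
      simp only [hl]; linarith
    refine pow_le_pow_left₀ hlu ?_ p
    have hc := hf.1.2 (hmem t h0 (ht.trans_lt h1)) (hmem t₀ (h0.trans ht) h1)
      (show (0 : ℝ) ≤ (t₀ - u) / (t₀ - t) from div_nonneg (by linarith [hu.2]) (by linarith))
      (show (0 : ℝ) ≤ (u - t) / (t₀ - t) from div_nonneg (by linarith [hu.1]) (by linarith))
      (by rw [← add_div, div_eq_one_iff_eq (by linarith)]; ring)
    simp only [smul_eq_mul] at hc
    have e1 : (t₀ - u) / (t₀ - t) * t + (u - t) / (t₀ - t) * t₀ = u := by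
      field_simp [(sub_pos.2 htt).ne']; ring
    have e2 : (t₀ - u) / (t₀ - t) * f t + (u - t) / (t₀ - t) * f t₀ = l u := by
      simp only [hl, hσ]; field_simp [(sub_pos.2 htt).ne']; ring
    rwa [e1, e2] at hc
  have hD : 0 ≤ f t ^ (p + 1) - f t₀ ^ (p + 1) :=
    sub_nonneg.2 (pow_le_pow_left₀ hp₀.le hanti _)
  calc (mass p f 1 - mass p f t₀) * (f t ^ (p + 1) - f t₀ ^ (p + 1))
      ≤ f t₀ ^ (p + 1) / ((p + 1) * σ) * (f t ^ (p + 1) - f t₀ ^ (p + 1)) :=
        mul_le_mul_of_nonneg_right hA hD
    _ = f t₀ ^ (p + 1) * ((f t ^ (p + 1) - f t₀ ^ (p + 1)) / ((p + 1) * σ)) := by ring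
    _ ≤ _ := mul_le_mul_of_nonneg_left hB (pow_nonneg hp₀.le _)

/-- The lower bound on the profile at a given fraction `v` of the mass, from the total of the next
power. -/
theorem next_mass_le (p : ℕ) {t₀ : ℝ} (h0 : 0 ≤ t₀) (h1 : t₀ < 1) :
    mass (p + 1) f 1 * ((p : ℝ) + 2) ≤ f t₀ * mass p f 1 *
      ((mass p f 1 - mass p f t₀) / mass p f 1 +
        ((p : ℝ) + 1) * ((mass p f 1 - mass p f t₀) / mass p f 1) ^ (-(1 / ((p : ℝ) + 1)))) := by
  set F := mass p f 1 with hF
  set T₀ := F - mass p f t₀ with hT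
  set e := 1 / ((p : ℝ) + 1) with he
  have hF0 : 0 < F := mass_one_pos hf p
  have hmem : ∀ u, 0 ≤ u → u < 1 → u ∈ Ioo (-1 : ℝ) 1 := fun u a b => ⟨by linarith, b⟩
  have hmI : ∀ u, 0 ≤ u → u ≤ 1 → u ∈ Icc (-1 : ℝ) 1 := fun u a b => ⟨by linarith, b⟩
  have hTpos : ∀ u, 0 ≤ u → u < 1 → 0 < F - mass p f u := by
    intro u a b
    rw [hF, mass, mass, intervalIntegral.integral_interval_sub_left
      (int_pow hf p (by norm_num) (by norm_num)) (int_pow hf p (by norm_num) (hmI u a b.le))]
    exact intervalIntegral_pos_of_pos_on (int_pow hf p (hmI u a b.le) (by norm_num))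
      (fun x hx => pow_pos (profile_pos hf (hmem x (by linarith [hx.1]) hx.2)) _) b
  have hT0 : 0 < T₀ := hTpos t₀ h0 h1
  have hp0 := profile_pos hf (hmem t₀ h0 h1)
  have he0 : 0 < e := by positivity
  -- beyond the point
  have hA : mass (p + 1) f 1 - mass (p + 1) f t₀ ≤ f t₀ * T₀ := by
    rw [hT, hF, mass, mass, mass, mass, intervalIntegral.integral_interval_sub_left
      (int_pow hf _ (by norm_num) (by norm_num)) (int_pow hf _ (by norm_num) (hmI t₀ h0 h1.le)),
      intervalIntegral.integral_interval_sub_left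
      (int_pow hf _ (by norm_num) (by norm_num)) (int_pow hf _ (by norm_num) (hmI t₀ h0 h1.le)),
      ← intervalIntegral.integral_const_mul]
    refine intervalIntegral.integral_mono_on_of_le_Ioo h1.le (int_pow hf _ (hmI t₀ h0 h1.le) (by norm_num))
      ((int_pow hf _ (hmI t₀ h0 h1.le) (by norm_num)).const_mul _) fun u hu => ?_
    rw [pow_succ']
    exact mul_le_mul_of_nonneg_right (profile_anti hf h0 hu.1.le hu.2)
      (pow_nonneg (profile_pos hf (hmem u (by linarith [hu.1]) hu.2)).le _)
  -- up to the point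
  set G : ℝ → ℝ := fun u => -(f t₀ * T₀ / (1 + e)) * ((F - mass p f u) / T₀) ^ (1 + e) with hG
  have hGd : ∀ u ∈ Ioo 0 t₀, HasDerivAt G (f t₀ * ((F - mass p f u) / T₀) ^ e * f u ^ p) u := by
    intro u hu
    have hpos := div_pos (hTpos u hu.1.le (hu.2.trans h1)) hT0
    have h := (((mass_hasDerivAt hf p (hmem u hu.1.le (hu.2.trans h1))).const_sub F).div_const T₀).rpow_const
      (p := 1 + e) (Or.inl hpos.ne')
    refine (h.const_mul (-(f t₀ * T₀ / (1 + e)))).congr_deriv ?_
    rw [show 1 + e - 1 = e by ring]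
    field_simp
  have hsub : Icc (0 : ℝ) t₀ ⊆ Icc (-1) 1 := Icc_subset_Icc (by norm_num) h1.le
  have hbase : ContinuousOn (fun u => (F - mass p f u) / T₀) (Icc 0 t₀) :=
    (continuousOn_const.sub ((mass_continuousOn hf p).mono hsub)).div_const _
  have hGc : ContinuousOn G (Icc 0 t₀) :=
    continuousOn_const.mul (hbase.rpow_const fun u _ => Or.inr (by positivity))
  have hGi : IntervalIntegrable (fun u => f t₀ * ((F - mass p f u) / T₀) ^ e * f u ^ p) volume 0 t₀ :=
    (int_pow hf p (by norm_num) (hmI t₀ h0 h1.le)).continuousOn_mul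
      (continuousOn_const.mul (by
        rw [uIcc_of_le h0]; exact hbase.rpow_const fun u _ => Or.inr he0.le))
  have hB : mass (p + 1) f t₀ ≤ G t₀ - G 0 := by
    rw [← integral_eq_sub_of_hasDerivAt_of_le h0 hGc hGd hGi, mass]
    refine intervalIntegral.integral_mono_on_of_le_Ioo h0
      (int_pow hf _ (by norm_num) (hmI t₀ h0 h1.le)) hGi fun u hu => ?_
    have hu1 := hu.2.trans h1
    have hfu := profile_pos hf (hmem u hu.1.le hu1)
    rw [pow_succ']
    refine mul_le_mul_of_nonneg_right ?_ (pow_nonneg hfu.le _)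
    have h := pow_tail_le hf p hu.1.le hu.2.le h1
    have h' : f u ^ (p + 1) * T₀ ≤ f t₀ ^ (p + 1) * (F - mass p f u) := by
      rw [hT]; linear_combination h
    have hpe : (((p + 1 : ℕ) : ℝ))⁻¹ = e := by rw [he]; push_cast; ring
    have h2 := Real.rpow_le_rpow (by positivity) ((le_div_iff₀ hT0).2 h') he0.le
    rw [mul_div_assoc, Real.mul_rpow (by positivity) (div_pos (hTpos u hu.1.le hu1) hT0).le,
      ← hpe, Real.pow_rpow_inv_natCast hfu.le (by omega), Real.pow_rpow_inv_natCast hp0.le (by omega),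
      hpe] at h2
    exact h2
  have hm0 : mass p f 0 = 0 := by simp [mass]
  simp only [hG, hm0, sub_zero, ← hT, div_self hT0.ne', Real.one_rpow] at hB
  have key : mass (p + 1) f 1 ≤
      f t₀ * (T₀ + ((F / T₀) ^ (1 + e) - 1) * T₀ / (1 + e)) := by
    refine le_trans (b := f t₀ * T₀ + mass (p + 1) f t₀) (by linarith) ?_
    refine le_trans (add_le_add le_rfl hB) (le_of_eq ?_)
    ring
  have hpow : (F / T₀) ^ (1 + e) * T₀ = F * (T₀ / F) ^ (-e) := by
    rw [Real.rpow_add (by positivity), Real.rpow_one, Real.rpow_neg (by positivity),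
      ← Real.inv_rpow (by positivity), inv_div]
    field_simp
  have hp1 : (0 : ℝ) < (p : ℝ) + 1 := by positivity
  calc mass (p + 1) f 1 * ((p : ℝ) + 2)
      ≤ f t₀ * (T₀ + ((F / T₀) ^ (1 + e) - 1) * T₀ / (1 + e)) * ((p : ℝ) + 2) :=
        mul_le_mul_of_nonneg_right key (by positivity)
    _ = f t₀ * (T₀ + ((p : ℝ) + 1) * ((F / T₀) ^ (1 + e) * T₀)) := by
        rw [he]; field_simp; ring
    _ = _ := by rw [hpow]; field_simp

end Concave

end Vale.Agent.P237.All.Transport
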