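import Vale.Agent.P237.All.Assemble

/-!
P237: Petty's inequality with its equality case up to a given dimension, from the bounds below it.
-/

noncomputable section

open MeasureTheory Set Filter Real intervalIntegral

namespace Vale.Agent.P237.All

open Transport

/-- The profile bound in one dimension from the bounds at that dimension. -/
theorem profileBound_at {p : ℕ} (hp : 3 ≤ p)
    (H : ∀ J : ℝ, 2 * mass (p + 1) semi 1 < J → HasBound p J) {f : ℝ → ℝ} (hf : IsProfile f)
    (hmix : MixedTest (p + 1) (fun J => (weight p J).1) (fun J => (weight p J).2.1)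
      (fun J => (weight p J).2.2) f) : ProfileBound (p + 1) f := by
  set J := ∫ t in (-1 : ℝ)..1, f t ^ (p + 1) with hJ
  rcases lt_or_ge (2 * mass (p + 1) semi 1) J with hlt | hge
  · exact weight_bound p J (H J hlt) hf hJ.symm hmix
  · rw [hJ, Transport.integral_even hf] at hge
    have heq := eq_semi_of_integral hf (q := p + 1) (by omega) (by linarith)
    have hI : ∀ q, ∫ t in (-1 : ℝ)..1, f t ^ q = ∫ t in (-1 : ℝ)..1, semi t ^ q := by
      intro q
      rw [intervalIntegral.integral_of_le (by norm_num), intervalIntegral.integral_of_le (by norm_num),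
        integral_Ioc_eq_integral_Ioo, integral_Ioc_eq_integral_Ioo]
      exact setIntegral_congr_fun measurableSet_Ioo fun t ht => by rw [heq t ht]
    simp only [ProfileBound, hI]
    exact ⟨le_rfl, fun _ => heq⟩

/-- Petty's inequality and its equality case up to dimension `N`, from the bounds below `N`. -/
theorem petty_upTo {N : ℕ}
    (H : ∀ p : ℕ, 3 ≤ p → p + 2 ≤ N → ∀ J : ℝ, 2 * mass (p + 1) semi 1 < J → HasBound p J) :
    ∀ n, 3 ≤ n → n ≤ N → PettyAt n ∧ PettyEqAt n := by
  intro n hn
  induction n, hn using Nat.le_induction with
  | base => exact fun _ => Three.petty_three_of_profile Three.profileStmt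
  | succ m hm ih =>
    intro hN
    have hP := (ih (by omega)).1
    refine petty_of_key (by omega) ?_
    rcases eq_or_lt_of_le hm with rfl | hm4
    · exact Four.keyStmt_four
    · obtain ⟨p, rfl⟩ : ∃ p, m = p + 1 := ⟨m - 1, by omega⟩
      exact keyStmt_of_mixed (by omega) (a := fun J => (weight p J).1)
        (b := fun J => (weight p J).2.1) (d := fun J => (weight p J).2.2)
        (fun J => (weight_nonneg _ J).1) (fun J => (weight_nonneg _ J).2.1)
        (fun J => (weight_nonneg _ J).2.2) hP fun f hf hmix =>
          profileBound_at (by omega) (H p (by omega) (by omega)) hf hmix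

end Vale.Agent.P237.All
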